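import Crest.Statements.S0047
import Crest.Agent.SnakyC11_2
import Crest.Agent.SnakyC20_0
import Crest.Agent.SnakyC21_0
import Crest.Agent.SnakyC22_0
import Crest.Agent.SnakyC31_0
import Crest.Agent.SnakyC10_4
import Crest.Agent.SnakyTop

set_option autoImplicit false
open Crest Crest.CombinatoricsR

namespace Crest.Agent.S0047

open Crest.Agent.SnakyBase

theorem near10 : MWin 20 {(8, 8)} {(8 + ((1 : ℕ) : ℤ), 8 + ((0 : ℕ) : ℤ))} := by
  have h := half_win (M := 130668428897640369969935849253798993199104) (I := 130689613792075255696006764345924069097472)
    (W := 1667931021295841655649454076451483605843656763984283442153567679176907686132) SnakyC10_.fam (by decide +kernel) (by decide +kernel)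
    (half_of_chk (by norm_num) (by decide +kernel))
  have e : ((8 + ((1 : ℕ) : ℤ), 8 + ((0 : ℕ) : ℤ)) : ℤ × ℤ) = (9, 8) := by norm_num
  rw [e]; exact h

theorem near (a b : ℕ) (hb : b ≤ a) (h0 : 0 < a) (h8 : a < 8) :
    MWin 20 {(8, 8)} {(8 + (a : ℤ), 8 + (b : ℤ))} := by
  interval_cases a
  · interval_cases b
    · exact near10
    · exact use_pat Crest.Agent.SnakyC11_.root (by norm_num) (notMem_near (U := 113088134663381277791573937969576550785505605495955406294564697314759802904) (a := 1) (b := 1) (by norm_num) (by decide +kernel))
  · interval_cases b
    · exact use_pat Crest.Agent.SnakyC20_.root (by norm_num) (notMem_near (U := 452324928311231564459096047695548714160860388750555498970081398082500558848) (a := 2) (b := 0) (by norm_num) (by decide +kernel))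
    · exact use_pat Crest.Agent.SnakyC21_.root (by norm_num) (notMem_near (U := 282701570228517627915060858237292749234396146609412215015309432017089724416) (a := 2) (b := 1) (by norm_num) (by decide +kernel))
    · exact use_pat Crest.Agent.SnakyC22_.root (by norm_num) (notMem_near (U := 3013103849182516612867046607942642854067778497828875988369408) (a := 2) (b := 2) (by norm_num) (by decide +kernel))
  · interval_cases b
    · exact use_pat Crest.Agent.SnakyC20_.root (by norm_num) (notMem_near (U := 452324928311231564459096047695548714160860388750555498970081398082500558848) (a := 3) (b := 0) (by norm_num) (by decide +kernel))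
    · exact use_pat Crest.Agent.SnakyC31_.root (by norm_num) (notMem_near (U := 592394295465839102156283121747866119481328978915863416958867210240) (a := 3) (b := 1) (by norm_num) (by decide +kernel))
    · exact use_pat Crest.Agent.SnakyC22_.root (by norm_num) (notMem_near (U := 3013103849182516612867046607942642854067778497828875988369408) (a := 3) (b := 2) (by norm_num) (by decide +kernel))
    · exact use_pat Crest.Agent.SnakyC22_.root (by norm_num) (notMem_near (U := 3013103849182516612867046607942642854067778497828875988369408) (a := 3) (b := 3) (by norm_num) (by decide +kernel))
  · interval_cases b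
    · exact use_pat Crest.Agent.SnakyC22_.root (by norm_num) (notMem_near (U := 3013103849182516612867046607942642854067778497828875988369408) (a := 4) (b := 0) (by norm_num) (by decide +kernel))
    · exact use_pat Crest.Agent.SnakyC31_.root (by norm_num) (notMem_near (U := 592394295465839102156283121747866119481328978915863416958867210240) (a := 4) (b := 1) (by norm_num) (by decide +kernel))
    · exact use_pat Crest.Agent.SnakyC22_.root (by norm_num) (notMem_near (U := 3013103849182516612867046607942642854067778497828875988369408) (a := 4) (b := 2) (by norm_num) (by decide +kernel))
    · exact use_pat Crest.Agent.SnakyC22_.root (by norm_num) (notMem_near (U := 3013103849182516612867046607942642854067778497828875988369408) (a := 4) (b := 3) (by norm_num) (by decide +kernel))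
    · exact use_pat Crest.Agent.SnakyC22_.root (by norm_num) (notMem_near (U := 3013103849182516612867046607942642854067778497828875988369408) (a := 4) (b := 4) (by norm_num) (by decide +kernel))
  · interval_cases b
    · exact use_pat Crest.Agent.SnakyC22_.root (by norm_num) (notMem_near (U := 3013103849182516612867046607942642854067778497828875988369408) (a := 5) (b := 0) (by norm_num) (by decide +kernel))
    · exact use_pat Crest.Agent.SnakyC22_.root (by norm_num) (notMem_near (U := 3013103849182516612867046607942642854067778497828875988369408) (a := 5) (b := 1) (by norm_num) (by decide +kernel))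
    · exact use_pat Crest.Agent.SnakyC22_.root (by norm_num) (notMem_near (U := 3013103849182516612867046607942642854067778497828875988369408) (a := 5) (b := 2) (by norm_num) (by decide +kernel))
    · exact use_pat Crest.Agent.SnakyC22_.root (by norm_num) (notMem_near (U := 3013103849182516612867046607942642854067778497828875988369408) (a := 5) (b := 3) (by norm_num) (by decide +kernel))
    · exact use_pat Crest.Agent.SnakyC22_.root (by norm_num) (notMem_near (U := 3013103849182516612867046607942642854067778497828875988369408) (a := 5) (b := 4) (by norm_num) (by decide +kernel))
    · exact use_pat Crest.Agent.SnakyC22_.root (by norm_num) (notMem_near (U := 3013103849182516612867046607942642854067778497828875988369408) (a := 5) (b := 5) (by norm_num) (by decide +kernel))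
  · interval_cases b
    · exact use_pat Crest.Agent.SnakyC22_.root (by norm_num) (notMem_near (U := 3013103849182516612867046607942642854067778497828875988369408) (a := 6) (b := 0) (by norm_num) (by decide +kernel))
    · exact use_pat Crest.Agent.SnakyC22_.root (by norm_num) (notMem_near (U := 3013103849182516612867046607942642854067778497828875988369408) (a := 6) (b := 1) (by norm_num) (by decide +kernel))
    · exact use_pat Crest.Agent.SnakyC22_.root (by norm_num) (notMem_near (U := 3013103849182516612867046607942642854067778497828875988369408) (a := 6) (b := 2) (by norm_num) (by decide +kernel))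
    · exact use_pat Crest.Agent.SnakyC22_.root (by norm_num) (notMem_near (U := 3013103849182516612867046607942642854067778497828875988369408) (a := 6) (b := 3) (by norm_num) (by decide +kernel))
    · exact use_pat Crest.Agent.SnakyC22_.root (by norm_num) (notMem_near (U := 3013103849182516612867046607942642854067778497828875988369408) (a := 6) (b := 4) (by norm_num) (by decide +kernel))
    · exact use_pat Crest.Agent.SnakyC22_.root (by norm_num) (notMem_near (U := 3013103849182516612867046607942642854067778497828875988369408) (a := 6) (b := 5) (by norm_num) (by decide +kernel))
    · exact use_pat Crest.Agent.SnakyC22_.root (by norm_num) (notMem_near (U := 3013103849182516612867046607942642854067778497828875988369408) (a := 6) (b := 6) (by norm_num) (by decide +kernel))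
  · interval_cases b
    · exact use_pat Crest.Agent.SnakyC22_.root (by norm_num) (notMem_near (U := 3013103849182516612867046607942642854067778497828875988369408) (a := 7) (b := 0) (by norm_num) (by decide +kernel))
    · exact use_pat Crest.Agent.SnakyC22_.root (by norm_num) (notMem_near (U := 3013103849182516612867046607942642854067778497828875988369408) (a := 7) (b := 1) (by norm_num) (by decide +kernel))
    · exact use_pat Crest.Agent.SnakyC22_.root (by norm_num) (notMem_near (U := 3013103849182516612867046607942642854067778497828875988369408) (a := 7) (b := 2) (by norm_num) (by decide +kernel))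
    · exact use_pat Crest.Agent.SnakyC22_.root (by norm_num) (notMem_near (U := 3013103849182516612867046607942642854067778497828875988369408) (a := 7) (b := 3) (by norm_num) (by decide +kernel))
    · exact use_pat Crest.Agent.SnakyC22_.root (by norm_num) (notMem_near (U := 3013103849182516612867046607942642854067778497828875988369408) (a := 7) (b := 4) (by norm_num) (by decide +kernel))
    · exact use_pat Crest.Agent.SnakyC22_.root (by norm_num) (notMem_near (U := 3013103849182516612867046607942642854067778497828875988369408) (a := 7) (b := 5) (by norm_num) (by decide +kernel))
    · exact use_pat Crest.Agent.SnakyC22_.root (by norm_num) (notMem_near (U := 3013103849182516612867046607942642854067778497828875988369408) (a := 7) (b := 6) (by norm_num) (by decide +kernel))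
    · exact use_pat Crest.Agent.SnakyC22_.root (by norm_num) (notMem_near (U := 3013103849182516612867046607942642854067778497828875988369408) (a := 7) (b := 7) (by norm_num) (by decide +kernel))

theorem root : MWin 21 ∅ ∅ := by
  refine root_win ?_
  intro a b hb h0
  by_cases h8 : a < 8
  · exact near a b hb h0 h8
  · exact use_pat Crest.Agent.SnakyC22_.root (by norm_num) (notMem_far (by omega))

/-- In the Maker–Breaker game on the board ℤ × ℤ (Maker first; the players alternately claim one unclaimed cell), Maker has a policy — a rule giving its next cell from Breaker's replies so far — such that against every sequence of Breaker replies whose first 20 are legal (each a cell not claimed before), Maker's first 21 claims are legal and contain a copy of the six-cell polyomino Snaky {(0,0),(1,0),(2,0),(3,0),(3,1),(4,1)} under a translation composed with a signed coordinate permutation. -/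
theorem result :
    ∃ σ : List (ℤ × ℤ) → ℤ × ℤ, ∀ b : ℕ → ℤ × ℤ,
      (∀ k : ℕ, k < 20 →
        (∀ j : ℕ, j ≤ k → b k ≠ Crest.CombinatoricsR.PolyominoGame.makerClaim σ b j) ∧
        (∀ j : ℕ, j < k → b k ≠ b j)) →
      (∀ k : ℕ, k ≤ 20 →
        (∀ j : ℕ, j < k → Crest.CombinatoricsR.PolyominoGame.makerClaim σ b k ≠
          Crest.CombinatoricsR.PolyominoGame.makerClaim σ b j) ∧
        (∀ j : ℕ, j < k → Crest.CombinatoricsR.PolyominoGame.makerClaim σ b k ≠ b j)) ∧
      Crest.CombinatoricsR.PolyominoGame.ContainsCopy
        {c | ∃ j : ℕ, j ≤ 20 ∧ c = Crest.CombinatoricsR.PolyominoGame.makerClaim σ b j} := by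
  exact policy_of_win root

end Crest.Agent.S0047
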