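import Crest.Statements.S0069
import Crest.Agent.BK.Assemble
import Crest.Agent.BK.Borsuk
import Crest.Agent.BK.Exist
import Crest.Agent.BK.FactC
import Crest.Agent.BK.Facts1
import Crest.Agent.BK.Facts2
import Crest.Agent.BK.Fan2
import Crest.Agent.BK.Fan3
import Crest.Agent.BK.R3cell
import Crest.Agent.BK.R3excl
import Crest.Agent.BK.T2X
import Crest.Agent.BK.T2abs
import Crest.Agent.BK.T2geo
import Crest.Agent.BK.T3form
import Crest.Agent.BK.T3ind
import Crest.Agent.BK.T3ref
import Crest.Agent.BK.Sat

set_option autoImplicit false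
open Crest Crest.CombinatoricsR

namespace Crest.Agent.S0069

/-- Some bounded subset of nine-dimensional Euclidean space with at least two points cannot be split into ten parts of strictly smaller diameter: however its points are assigned to ten classes, some class has diameter at least that of the whole set. -/
theorem result :
    ∃ S : Set (EuclideanSpace ℝ (Fin 9)), Bornology.IsBounded S ∧ S.Nontrivial ∧
      ∀ c : EuclideanSpace ℝ (Fin 9) → Fin 10, ∃ i : Fin 10,
        Metric.diam S ≤ Metric.diam (S ∩ c ⁻¹' {i}) := by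
  have hT2X : BK.S_T2X := BK.T2X BK.T2abs BK.T2geo
  have hT3 : BK.S_T3 :=
    BK.T3_of hT2X BK.T3form BK.T3ind (BK.T3ref BK.fan2 BK.R3cell BK.R3excl)
  have hC : BK.S_factC := BK.factC BK.slice hT3 BK.factF
  exact BK.main_of BK.borsuk BK.exist (BK.factB BK.fan3) BK.factF hC (BK.factD0 BK.slice)
    (BK.factD1 BK.slice hC hT2X) (BK.factE BK.slice hC) BK.sat

end Crest.Agent.S0069
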