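import Mathlib

set_option autoImplicit false

namespace Crest.Agent.S0085Amp

open Finset

/-- sign of a bit -/
noncomputable def sg (b : Bool) : ℝ := if b then 1 else -1

/-- unnormalised Walsh coefficient -/
noncomputable def W {ι : Type} [Fintype ι] [DecidableEq ι] (f : (ι → Bool) → Bool) (S : Finset ι) : ℝ :=
  ∑ x : ι → Bool, (sg (f x) * ∏ i ∈ S, sg (x i))

lemma sg_mul_self (b : Bool) : sg b * sg b = 1 := by cases b <;> simp [sg]

/-- Orthogonality / inversion: `2^n * sg (f x) = ∑_S W f S * χ_S x`. -/
lemma inversion {ι : Type} [Fintype ι] [DecidableEq ι] (f : (ι → Bool) → Bool) (x : ι → Bool) :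
    (2 : ℝ) ^ Fintype.card ι * sg (f x) = ∑ S : Finset ι, W f S * ∏ i ∈ S, sg (x i) := by
  classical
  have key : ∀ y : ι → Bool, ∑ S : Finset ι, (∏ i ∈ S, sg (y i)) * (∏ i ∈ S, sg (x i))
      = if y = x then (2 : ℝ) ^ Fintype.card ι else 0 := by
    intro y
    have h1 : ∑ S : Finset ι, (∏ i ∈ S, sg (y i)) * (∏ i ∈ S, sg (x i))
        = ∏ i : ι, (1 + sg (y i) * sg (x i)) := by
      rw [Finset.prod_one_add]
      simp only [Finset.powerset_univ]
      refine Finset.sum_congr rfl fun S _ => ?_
      rw [Finset.prod_mul_distrib]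
    rw [h1]
    split_ifs with h
    · subst h
      simp only [sg_mul_self]
      rw [Finset.prod_const]
      norm_num [Finset.card_univ]
    · have : ∃ i, y i ≠ x i := by
        by_contra hcon
        push Not at hcon
        exact h (funext hcon)
      obtain ⟨i, hi⟩ := this
      refine Finset.prod_eq_zero (Finset.mem_univ i) ?_
      cases hy : y i <;> cases hx : x i <;> simp_all [sg]
  calc (2 : ℝ) ^ Fintype.card ι * sg (f x)
      = ∑ y : ι → Bool, sg (f y) * (if y = x then (2 : ℝ) ^ Fintype.card ι else 0) := by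
        simp [mul_comm]
    _ = ∑ y : ι → Bool, sg (f y) * ∑ S : Finset ι, (∏ i ∈ S, sg (y i)) * (∏ i ∈ S, sg (x i)) := by
        refine Finset.sum_congr rfl fun y _ => ?_
        rw [key]
    _ = ∑ S : Finset ι, W f S * ∏ i ∈ S, sg (x i) := by
        simp only [W, Finset.mul_sum, Finset.sum_mul]
        rw [Finset.sum_comm]
        refine Finset.sum_congr rfl fun S _ => ?_
        refine Finset.sum_congr rfl fun y _ => ?_
        ring

/-- block composition -/
def comp {ι κ : Type} (f : (ι → Bool) → Bool) (g : (κ → Bool) → Bool) : (ι × κ → Bool) → Bool :=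
  fun x => f (fun i => g (fun j => x (i, j)))

lemma W_comp {ι κ : Type} [Fintype ι] [DecidableEq ι] [Fintype κ] [DecidableEq κ]
    (f : (ι → Bool) → Bool) (g : (κ → Bool) → Bool) (U : Finset (ι × κ)) :
    (2 : ℝ) ^ Fintype.card ι * W (comp f g) U =
      ∑ S : Finset ι, W f S * ∏ i : ι, (∑ y : κ → Bool,
        (if i ∈ S then sg (g y) else 1) * ∏ j ∈ Finset.univ.filter (fun j => (i, j) ∈ U), sg (y j)) := by
  classical
  have h1 : ∀ x : ι × κ → Bool, ∏ p ∈ U, sg (x p)
      = ∏ i : ι, ∏ j ∈ Finset.univ.filter (fun j => (i, j) ∈ U), sg (x (i, j)) := by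
    intro x
    have : ∏ p ∈ U, sg (x p) = ∏ p : ι × κ, (if p ∈ U then sg (x p) else 1) := by
      rw [Finset.prod_ite_mem]; simp
    rw [this, Fintype.prod_prod_type]
    refine Finset.prod_congr rfl fun i _ => ?_
    rw [Finset.prod_filter]
  have h2 : ∀ x : ι × κ → Bool, (2 : ℝ) ^ Fintype.card ι * sg (comp f g x)
      = ∑ S : Finset ι, W f S * ∏ i : ι, (if i ∈ S then sg (g (fun j => x (i, j))) else 1) := by
    intro x
    unfold comp
    rw [inversion]
    refine Finset.sum_congr rfl fun S _ => ?_
    congr 1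
    rw [Finset.prod_ite_mem]; simp
  have h3 : (2 : ℝ) ^ Fintype.card ι * W (comp f g) U
      = ∑ x : ι × κ → Bool, ∑ S : Finset ι, W f S * ∏ i : ι,
          ((if i ∈ S then sg (g (fun j => x (i, j))) else 1) *
            ∏ j ∈ Finset.univ.filter (fun j => (i, j) ∈ U), sg (x (i, j))) := by
    unfold W
    rw [Finset.mul_sum]
    refine Finset.sum_congr rfl fun x _ => ?_
    rw [← mul_assoc, h2, h1, Finset.sum_mul]
    refine Finset.sum_congr rfl fun S _ => ?_
    rw [Finset.prod_mul_distrib, mul_assoc]
    rfl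
  rw [h3, Finset.sum_comm]
  refine Finset.sum_congr rfl fun S _ => ?_
  rw [← Finset.mul_sum]
  congr 1
  rw [Finset.prod_univ_sum]
  simp only [Fintype.piFinset_univ]
  have h5 := (Equiv.curry ι κ Bool).sum_comp (fun x : ι → κ → Bool =>
    ∏ i : ι, ((if i ∈ S then sg (g (x i)) else 1) * ∏ j ∈ Finset.univ.filter (fun j => (i, j) ∈ U), sg (x i j)))
  rw [← h5]
  rfl

lemma sum_chi {κ : Type} [Fintype κ] [DecidableEq κ] (T : Finset κ) (hT : T.Nonempty) :
    ∑ y : κ → Bool, ∏ j ∈ T, sg (y j) = 0 := by
  classical
  obtain ⟨j, hj⟩ := hT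
  have : ∑ y : κ → Bool, ∏ j ∈ T, sg (y j) = ∑ y : κ → Bool, ∏ j : κ, (if j ∈ T then sg (y j) else 1) := by
    refine Finset.sum_congr rfl fun y _ => ?_
    rw [Finset.prod_ite_mem]; simp
  rw [this]
  have h := Finset.prod_univ_sum (fun _ : κ => (Finset.univ : Finset Bool))
    (fun j b => if j ∈ T then sg b else (1 : ℝ))
  simp only [Fintype.piFinset_univ] at h
  rw [← h]
  refine Finset.prod_eq_zero (Finset.mem_univ j) ?_
  simp [hj, sg]

/-- `Good ι f d s`: balanced, degree ≤ d, singleton sum s (normalised). -/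
structure Good (ι : Type) [Fintype ι] [DecidableEq ι] (f : (ι → Bool) → Bool) (d : ℕ) (s : ℝ) : Prop where
  bal : ∑ x : ι → Bool, sg (f x) = 0
  deg : ∀ S : Finset ι, d < S.card → W f S = 0
  sum : ∑ i : ι, W f {i} / 2 ^ Fintype.card ι = s

lemma Good.comp {ι κ : Type} [Fintype ι] [DecidableEq ι] [Fintype κ] [DecidableEq κ]
    {f : (ι → Bool) → Bool} {g : (κ → Bool) → Bool} {d e : ℕ} {s t : ℝ}
    (hf : Good ι f d s) (hg : Good κ g e t) : Good (ι × κ) (comp f g) (d * e) (s * t) := by
  classical
  have h2 : (2 : ℝ) ^ Fintype.card ι ≠ 0 := by positivity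
  have h2' : (2 : ℝ) ^ Fintype.card κ ≠ 0 := by positivity
  refine ⟨?_, ?_, ?_⟩
  · have := W_comp f g ∅
    have h0 : W (Crest.Agent.S0085Amp.comp f g) ∅ = 0 := by
      have hz : ∑ S : Finset ι, W f S * ∏ i : ι, (∑ y : κ → Bool,
        (if i ∈ S then sg (g y) else 1) * ∏ j ∈ Finset.univ.filter (fun j => (i, j) ∈ (∅ : Finset (ι × κ))), sg (y j)) = 0 := by
        refine Finset.sum_eq_zero fun S _ => ?_
        rcases S.eq_empty_or_nonempty with rfl | ⟨i, hi⟩
        · have : W f ∅ = 0 := by simpa [W] using hf.bal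
          rw [this, zero_mul]
        · have : ∏ i : ι, (∑ y : κ → Bool,
            (if i ∈ S then sg (g y) else 1) * ∏ j ∈ Finset.univ.filter (fun j => (i, j) ∈ (∅ : Finset (ι × κ))), sg (y j)) = 0 := by
            refine Finset.prod_eq_zero (Finset.mem_univ i) ?_
            simpa [hi] using hg.bal
          rw [this, mul_zero]
      rw [hz] at this
      exact (mul_eq_zero.mp this).resolve_left h2
    simpa [W] using h0
  · intro U hU
    have := W_comp f g U
    have hz : ∑ S : Finset ι, W f S * ∏ i : ι, (∑ y : κ → Bool,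
        (if i ∈ S then sg (g y) else 1) * ∏ j ∈ Finset.univ.filter (fun j => (i, j) ∈ U), sg (y j)) = 0 := by
      refine Finset.sum_eq_zero fun S _ => ?_
      by_cases hS : d < S.card
      · rw [hf.deg S hS, zero_mul]
      push Not at hS
      have : ∃ i : ι, (∑ y : κ → Bool,
        (if i ∈ S then sg (g y) else 1) * ∏ j ∈ Finset.univ.filter (fun j => (i, j) ∈ U), sg (y j)) = 0 := by
        by_contra hcon
        push Not at hcon
        have hb : ∀ i, (Finset.univ.filter (fun j => (i, j) ∈ U)).card ≤ if i ∈ S then e else 0 := by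
          intro i
          by_contra hlt
          push Not at hlt
          apply hcon i
          split_ifs at hlt ⊢ with hi
          · exact hg.deg _ hlt
          · simp only [one_mul]
            exact sum_chi _ (Finset.card_pos.mp hlt)
        have hcard : U.card = ∑ i : ι, (Finset.univ.filter (fun j => (i, j) ∈ U)).card := by
          have : U.card = ∑ p : ι × κ, (if p ∈ U then 1 else 0) := by simp
          rw [this, Fintype.sum_prod_type]
          refine Finset.sum_congr rfl fun i _ => ?_
          rw [Finset.card_filter]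
        have : U.card ≤ ∑ i : ι, (if i ∈ S then e else 0) := by
          rw [hcard]
          exact Finset.sum_le_sum fun i _ => hb i
        rw [Finset.sum_ite_mem] at this
        simp only [Finset.univ_inter, Finset.sum_const, smul_eq_mul] at this
        have : U.card ≤ d * e := this.trans (Nat.mul_le_mul_right e hS)
        omega
      obtain ⟨i, hi⟩ := this
      rw [Finset.prod_eq_zero (Finset.mem_univ i) hi, mul_zero]
    rw [hz] at this
    exact (mul_eq_zero.mp this).resolve_left h2
  · have key : ∀ i : ι, ∀ j : κ, W (Crest.Agent.S0085Amp.comp f g) {(i, j)} / 2 ^ Fintype.card (ι × κ)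
        = (W f {i} / 2 ^ Fintype.card ι) * (W g {j} / 2 ^ Fintype.card κ) := by
      intro i j
      have := W_comp f g {(i, j)}
      have hsum : ∑ S : Finset ι, W f S * ∏ i' : ι, (∑ y : κ → Bool,
          (if i' ∈ S then sg (g y) else 1) * ∏ j' ∈ Finset.univ.filter (fun j' => (i', j') ∈ ({(i, j)} : Finset (ι × κ))), sg (y j'))
          = W f {i} * (W g {j} * (2 ^ Fintype.card κ) ^ (Fintype.card ι - 1)) := by
        rw [Finset.sum_eq_single ({i} : Finset ι)]
        · congr 1
          rw [← Finset.mul_prod_erase Finset.univ _ (Finset.mem_univ i)]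
          congr 1
          · have : Finset.univ.filter (fun j' => (i, j') ∈ ({(i, j)} : Finset (ι × κ))) = {j} := by
              ext j'; simp
            rw [this]
            simp [W]
          · have : ∀ i' ∈ Finset.univ.erase i, (∑ y : κ → Bool,
                (if i' ∈ ({i} : Finset ι) then sg (g y) else 1) * ∏ j' ∈ Finset.univ.filter (fun j' => (i', j') ∈ ({(i, j)} : Finset (ι × κ))), sg (y j')) = 2 ^ Fintype.card κ := by
              intro i' hi'
              have hne : i' ≠ i := (Finset.mem_erase.mp hi').1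
              have he : Finset.univ.filter (fun j' => (i', j') ∈ ({(i, j)} : Finset (ι × κ))) = ∅ := by
                ext j'; simp [hne]
              rw [he]
              simp [hne]
            rw [Finset.prod_congr rfl this, Finset.prod_const, Finset.card_erase_of_mem (Finset.mem_univ i),
              Finset.card_univ]
        · intro S _ hS
          by_cases hi : i ∈ S
          · have : ∃ i' ∈ S, i' ≠ i := by
              by_contra hcon
              push Not at hcon
              apply hS
              ext a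
              constructor
              · intro ha; simp [hcon a ha]
              · intro ha; rw [Finset.mem_singleton] at ha; rwa [ha]
            obtain ⟨i', hi', hne⟩ := this
            have he : Finset.univ.filter (fun j' => (i', j') ∈ ({(i, j)} : Finset (ι × κ))) = ∅ := by
                ext j'; simp [hne]
            rw [Finset.prod_eq_zero (Finset.mem_univ i'), mul_zero]
            rw [he]
            simpa [hi'] using hg.bal
          · rw [Finset.prod_eq_zero (Finset.mem_univ i), mul_zero]
            have : Finset.univ.filter (fun j' => (i, j') ∈ ({(i, j)} : Finset (ι × κ))) = {j} := by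
              ext j'; simp
            rw [this]
            simp only [hi, if_false, one_mul]
            exact sum_chi _ (Finset.singleton_nonempty j)
        · intro h; exact absurd (Finset.mem_univ _) h
      rw [hsum] at this
      have hc : Fintype.card ι = (Fintype.card ι - 1) + 1 := by
        have : 0 < Fintype.card ι := Fintype.card_pos_iff.mpr ⟨i⟩
        omega
      have hcard : (2 : ℝ) ^ Fintype.card (ι × κ) = (2 ^ Fintype.card κ) ^ (Fintype.card ι - 1) * 2 ^ Fintype.card κ := by
        rw [Fintype.card_prod, ← pow_succ, ← hc, ← pow_mul, mul_comm]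
      rw [hcard, div_eq_iff (by positivity)]
      have h3 : W (Crest.Agent.S0085Amp.comp f g) {(i, j)} = W f {i} * (W g {j} * (2 ^ Fintype.card κ) ^ (Fintype.card ι - 1)) / 2 ^ Fintype.card ι := by
        rw [eq_div_iff h2, mul_comm, this]
      rw [h3]
      field_simp
    rw [Fintype.sum_prod_type]
    simp only [key]
    rw [← Finset.sum_mul_sum, hf.sum, hg.sum]

lemma Good.congr {ι κ : Type} [Fintype ι] [DecidableEq ι] [Fintype κ] [DecidableEq κ]
    (e : ι ≃ κ) {f : (ι → Bool) → Bool} {d : ℕ} {s : ℝ} (hf : Good ι f d s) :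
    Good κ (fun x => f (fun i => x (e i))) d s := by
  classical
  have hW : ∀ S : Finset κ, W (fun x : κ → Bool => f (fun i => x (e i))) S = W f (S.map e.symm.toEmbedding) := by
    intro S
    unfold W
    rw [← (Equiv.arrowCongr e (Equiv.refl Bool)).sum_comp]
    refine Finset.sum_congr rfl fun x _ => ?_
    rw [Finset.prod_map]
    simp [Equiv.arrowCongr]
  refine ⟨?_, ?_, ?_⟩
  · have := hW ∅
    simp only [W, Finset.map_empty, Finset.prod_empty, mul_one] at this
    rw [this, hf.bal]
  · intro S hS
    rw [hW]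
    exact hf.deg _ (by simpa using hS)
  · simp only [hW, Finset.map_singleton]
    rw [← hf.sum, ← e.sum_comp, Fintype.card_congr e]
    simp

lemma Good.pow {m : ℕ} {g : (Fin m → Bool) → Bool} {d : ℕ} {s : ℝ} (hg : Good (Fin m) g d s) (k : ℕ) :
    ∃ n : ℕ, ∃ f : (Fin n → Bool) → Bool, Good (Fin n) f (d ^ k) (s ^ k) := by
  induction k with
  | zero =>
    refine ⟨1, fun x => x 0, ?_, ?_, ?_⟩
    · have h := (Equiv.funUnique (Fin 1) Bool).symm.sum_comp (fun x : Fin 1 → Bool => sg (x 0))
      rw [← h]
      simp [sg]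
    · intro S hS
      have := Finset.card_le_univ S
      simp at hS this
      omega
    · simp only [W, pow_zero]
      have h := (Equiv.funUnique (Fin 1) Bool).symm.sum_comp (fun x : Fin 1 → Bool => sg (x 0) * ∏ i ∈ ({0} : Finset (Fin 1)), sg (x i))
      simp only [Finset.univ_unique, Finset.sum_singleton, Fin.default_eq_zero]
      rw [← h]
      simp [sg]
  | succ k ih =>
    obtain ⟨n, f, hf⟩ := ih
    refine ⟨n * m, fun x => Crest.Agent.S0085Amp.comp f g (fun i => x (finProdFinEquiv i)), ?_⟩
    rw [pow_succ, pow_succ]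
    exact (hf.comp hg).congr finProdFinEquiv

/-- Amplification: one good gadget proves S0085. -/
theorem amplify {m : ℕ} {g : (Fin m → Bool) → Bool} {d : ℕ} {s : ℝ} (hg : Good (Fin m) g d s)
    (hs : Real.sqrt d < s) (C : ℝ) :
    ∃ n : ℕ, ∃ f : (Fin n → Bool) → Bool, ∃ d : ℕ,
      (∃ x y, f x ≠ f y) ∧
      (∀ S : Finset (Fin n), d < S.card →
        ∑ x : Fin n → Bool, ((if f x then (1 : ℝ) else -1) * ∏ i ∈ S, (if x i then (1 : ℝ) else -1)) = 0) ∧
      C * Real.sqrt d <
        ∑ i : Fin n, (∑ x : Fin n → Bool, ((if f x then (1 : ℝ) else -1) * (if x i then (1 : ℝ) else -1))) / 2 ^ n := by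
  classical
  have hd : 0 < d := by
    rcases Nat.eq_zero_or_pos d with h | h
    · exfalso
      subst h
      have : s = 0 := by
        rw [← hg.sum]
        refine Finset.sum_eq_zero fun i _ => ?_
        rw [hg.deg {i} (by simp), zero_div]
      rw [this] at hs
      simp at hs
    · exact h
  have hsd : 0 < Real.sqrt d := Real.sqrt_pos.mpr (by exact_mod_cast hd)
  have hr : 1 < s / Real.sqrt d := (one_lt_div hsd).mpr hs
  obtain ⟨k, hk⟩ := pow_unbounded_of_one_lt C hr
  obtain ⟨n, f, hf⟩ := hg.pow k
  refine ⟨n, f, d ^ k, ?_, ?_, ?_⟩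
  · by_contra hcon
    push Not at hcon
    have hb := hf.bal
    have hc : ∀ x, sg (f x) = sg (f (fun _ => true)) := fun x => by rw [hcon x (fun _ => true)]
    simp only [hc] at hb
    rw [Finset.sum_const, nsmul_eq_mul] at hb
    have h1 : ((Finset.univ : Finset (Fin n → Bool)).card : ℝ) ≠ 0 := by
      rw [Finset.card_univ]
      exact_mod_cast Fintype.card_ne_zero
    have h2 : sg (f (fun _ => true)) ≠ 0 := by
      cases f (fun _ => true) <;> simp [sg]
    exact (mul_ne_zero h1 h2) hb
  · intro S hS
    exact hf.deg S hS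
  · have h1 : ∑ i : Fin n, (∑ x : Fin n → Bool, ((if f x then (1 : ℝ) else -1) * (if x i then (1 : ℝ) else -1))) / 2 ^ n = s ^ k := by
      rw [← hf.sum]
      refine Finset.sum_congr rfl fun i _ => ?_
      simp [W, sg]
    rw [h1]
    have h2 : Real.sqrt ((d ^ k : ℕ) : ℝ) = Real.sqrt d ^ k := by
      push_cast
      rw [Real.sqrt_eq_iff_mul_self_eq (by positivity) (by positivity)]
      rw [← mul_pow, Real.mul_self_sqrt (by positivity)]
    rw [h2]
    rw [div_pow] at hk
    rwa [lt_div_iff₀ (by positivity)] at hk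

end Crest.Agent.S0085Amp
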