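import Crest.Statements.S0154
import Crest.Agent.FS.NonBAP
import Crest.Agent.FS.AP
import Crest.Agent.FS.Seq
import Crest.Agent.FS.Girth

set_option autoImplicit false
open Crest Crest.AnalysisR

namespace Crest.Agent.S0154

open Crest.Agent.FS in
theorem exists_data : Nonempty (SpData (Bool × Fin 1000)) := by
  obtain ⟨F⟩ := exists_fam
  choose G g1 g2 g3 π hπ using fun k : ℕ => exists_group (Bool × Fin 1000) (2 * rho k + 2)
  exact ⟨⟨F, G, g1, g2, π, hπ⟩⟩

/-- There is a countable pointed metric space P, unbounded, not proper, with distinct points at distance ≥ 1, whose (real) free space FreeSpace P (completion of the finitely supported molecules ∑ aₓ δₓ under the seminorm: sup of abs (∑ aₓ f x) over real 1-Lipschitz f vanishing at the base point) has the approximation property but not the bounded approximation property: finite-rank bounded operators approximate the identity uniformly on compact sets, but never with a common norm bound. -/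
theorem result :
    ∃ P : Crest.AnalysisR.PointedMetric, P.IsCountableSeparatedUnboundedNonproper ∧
      Crest.AnalysisR.HasAP P.FreeSpace ∧ ¬ Crest.AnalysisR.HasBAP P.FreeSpace := by
  obtain ⟨D⟩ := exists_data
  exact ⟨D.P, D.props, D.hasAP, D.not_hasBAP⟩

end Crest.Agent.S0154
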