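import Mathlib
import Crest.Prelude.Def_BoxFlow

/-! Shared definitions for S0170 (box flow). -/

set_option autoImplicit false

namespace Crest.Agent.S0170

open Crest.AnalysisR.BoxFlow
open scoped ContDiff

/-- three-space -/
abbrev E3 : Type := Fin 3 → ℝ

/-- Univariate effectively smooth function with globally bounded derivatives. -/
structure EU (g : ℝ → ℝ) : Prop where
  smooth : ContDiff ℝ ∞ g
  eff : ∃ E : ℕ × ℚ × ℕ → ℚ, Computable E ∧
    ∀ (m : ℕ) (q : ℚ) (n : ℕ), |iteratedDeriv m g (q : ℝ) - (E (m, q, n) : ℝ)| ≤ 1 / ((n : ℝ) + 1)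
  bdd : ∃ B : ℕ → ℕ, Computable B ∧ ∀ (m : ℕ) (x : ℝ), |iteratedDeriv m g x| ≤ (B m : ℝ)

/-- Separated product of four univariate functions (time, x0, x1, x2). -/
def sep (g : Fin 4 → ℝ → ℝ) (p : ℝ × E3) : ℝ :=
  g 0 p.1 * g 1 (p.2 0) * g 2 (p.2 1) * g 3 (p.2 2)

/-- Scalar mixed derivative, same convention as `mixedDeriv`. -/
noncomputable def mixedS : List (Fin 4) → (ℝ × E3 → ℝ) → (ℝ × E3 → ℝ)
  | [], f => f
  | d :: ds, f => fun p => fderiv ℝ (mixedS ds f) p (direction d)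

/-- Scalar version of `Effective`, including smoothness. -/
structure EffS (f : ℝ × E3 → ℝ) : Prop where
  smooth : ContDiff ℝ ∞ f
  eff : ∃ E : List (Fin 4) × (ℚ × (Fin 3 → ℚ)) × ℕ → ℚ, Computable E ∧
    ∀ (ds : List (Fin 4)) (t : ℚ) (q : Fin 3 → ℚ) (n : ℕ),
      |mixedS ds f ((t : ℝ), ratPoint q) - (E (ds, (t, q), n) : ℝ)| ≤ 1 / ((n : ℝ) + 1)
  bdd : ∃ B : List (Fin 4) → ℕ, Computable B ∧ ∀ (ds : List (Fin 4)) (p : ℝ × E3),
      |mixedS ds f p| ≤ (B ds : ℝ)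

/-- The class of admissible velocity fields. -/
structure Nice (U : Field) : Prop where
  smooth : ContDiff ℝ ∞ U
  compact : HasCompactSupport U
  eff : Effective U
  time : ∀ p : ℝ × (Fin 3 → ℝ), p.1 ∉ Set.Icc (1 / 4 : ℝ) (3 / 4) → U p = 0
  div : ∀ p : ℝ × (Fin 3 → ℝ), spaceDiv U p = 0

/-- Global solution curve of the time-dependent ODE. -/
def Sol (U : Field) (γ : ℝ → E3) : Prop := ∀ t : ℝ, HasDerivAt γ (U (t, γ t)) t

/-- The field carries `x` (time 0) to `y` (time 1). -/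
def Carry (U : Field) (x y : E3) : Prop := ∃ γ : ℝ → E3, Sol U γ ∧ γ 0 = x ∧ γ 1 = y

/-- One admissible field steers every set `K i` (a neighbourhood of it) by the map `A i`. -/
def Steer {ι : Type} (K : ι → Set E3) (A : ι → E3 → E3) : Prop :=
  ∃ U : Field, Nice U ∧ ∀ i, ∃ O : Set E3, IsOpen O ∧ K i ⊆ O ∧ ∀ x ∈ O, Carry U x (A i x)

/-- Diagonal affine map with centre `c`, new centre `c'`, ratio `k/h` (the map of S0170). -/
noncomputable def boxMap (c h c' k : Fin 3 → ℚ) (x : E3) : E3 :=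
  fun j => (c' j : ℝ) + ((k j / h j : ℚ) : ℝ) * (x j - (c j : ℝ))

end Crest.Agent.S0170
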