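import Mathlib
import Crest.Agent.Lib.CompRat

/-! S0170, chunk RAT: Computable arithmetic on ℚ (wrappers around `Lib.CompRat`). -/

set_option autoImplicit false

namespace Crest.Agent.S0170

open Crest.Agent

theorem rat_add_comp : Computable₂ (fun a b : ℚ => a + b) := CompRat.computable_add
theorem rat_mul_comp : Computable₂ (fun a b : ℚ => a * b) := CompRat.computable_mul
theorem rat_sub_comp : Computable₂ (fun a b : ℚ => a - b) := CompRat.computable_sub
theorem rat_div_comp : Computable₂ (fun a b : ℚ => a / b) := CompRat.computable_div
theorem rat_neg_comp : Computable (fun a : ℚ => -a) := CompRat.computable_neg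
theorem rat_inv_comp : Computable (fun a : ℚ => a⁻¹) := CompRat.computable_inv
theorem rat_natCast_comp : Computable (fun a : ℕ => (a : ℚ)) := CompRat.computable_natCast
theorem rat_intCast_comp : Computable (fun a : ℤ => (a : ℚ)) := CompRat.computable_intCast
theorem rat_natCeil_comp : Computable (fun a : ℚ => ⌈a⌉₊) := CompRat.computable_natCeil
theorem rat_natFloor_comp : Computable (fun a : ℚ => ⌊a⌋₊) := CompRat.computable_natFloor
theorem rat_num_comp : Computable (fun a : ℚ => a.num) := CompRat.computable_num
theorem rat_den_comp : Computable (fun a : ℚ => a.den) := CompRat.computable_den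
theorem rat_le_comp : Computable (fun p : ℚ × ℚ => decide (p.1 ≤ p.2)) := CompRat.computable_le
theorem rat_pow_comp : Computable₂ (fun (a : ℚ) (b : ℕ) => a ^ b) := CompRat.computable_pow
theorem rat_sum_range_comp {α : Type} [Primcodable α] (f : α → ℕ → ℚ) (N : α → ℕ)
    (hf : Computable₂ f) (hN : Computable N) :
    Computable (fun a => ∑ i ∈ Finset.range (N a), f a i) := CompRat.computable_sum hf hN

end Crest.Agent.S0170
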