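import Mathlib
import Crest.Agent.S0170_Defs
import Crest.Agent.S0170_Rat

set_option autoImplicit false

namespace Crest.Agent.S0170

open Crest.AnalysisR.BoxFlow
open scoped ContDiff

/-- Computable family of reals. -/
def CompR {α : Type} [Primcodable α] (a : α → ℝ) : Prop :=
  ∃ E : α × ℕ → ℚ, Computable E ∧ ∀ x n, |a x - (E (x, n) : ℝ)| ≤ 1 / ((n : ℝ) + 1)

section
variable {α β : Type} [Primcodable α] [Primcodable β]

theorem CompR.comp {a : β → ℝ} {f : α → β} (ha : CompR a) (hf : Computable f) :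
    CompR (fun x => a (f x)) := by
  obtain ⟨E, hE, h⟩ := ha
  exact ⟨fun p => E (f p.1, p.2), hE.comp (Computable.pair (hf.comp Computable.fst) Computable.snd),
    fun x n => h (f x) n⟩

theorem CompR.ofRat {f : α → ℚ} (hf : Computable f) : CompR (fun x => (f x : ℝ)) :=
  ⟨fun p => f p.1, hf.comp Computable.fst, fun x n => by simp; positivity⟩

theorem CompR.const (c : ℚ) : CompR (fun _ : α => (c : ℝ)) := CompR.ofRat (Computable.const c)

theorem CompR.congr {a b : α → ℝ} (ha : CompR a) (h : ∀ x, a x = b x) : CompR b := by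
  have : a = b := funext h
  rwa [← this]

theorem CompR.add {a b : α → ℝ} (ha : CompR a) (hb : CompR b) : CompR (fun x => a x + b x) := by
  obtain ⟨E, hE, h⟩ := ha
  obtain ⟨F, hF, h'⟩ := hb
  have hn : Computable (fun p : α × ℕ => 2 * p.2 + 1) :=
    CompRat.computable_natAdd.comp (CompRat.computable_natMul.comp (Computable.const 2)
      Computable.snd) (Computable.const 1)
  refine ⟨fun p => E (p.1, 2 * p.2 + 1) + F (p.1, 2 * p.2 + 1), ?_, ?_⟩
  · exact rat_add_comp.comp (hE.comp (Computable.pair Computable.fst hn))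
      (hF.comp (Computable.pair Computable.fst hn))
  · intro x n
    have h1 := h x (2 * n + 1)
    have h2 := h' x (2 * n + 1)
    have e : (1 : ℝ) / (((2 * n + 1 : ℕ) : ℝ) + 1) + 1 / (((2 * n + 1 : ℕ) : ℝ) + 1) = 1 / ((n : ℝ) + 1) := by
      push_cast; field_simp; ring
    rw [← e]
    push_cast
    push_cast at h1 h2
    have : a x + b x - ((E (x, 2 * n + 1) : ℝ) + (F (x, 2 * n + 1) : ℝ)) =
      (a x - E (x, 2 * n + 1)) + (b x - F (x, 2 * n + 1)) := by ring
    rw [this]
    exact (abs_add_le _ _).trans (add_le_add h1 h2)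

/-- integer bound -/
theorem CompR.bound {a : α → ℝ} (ha : CompR a) :
    ∃ B : α → ℕ, Computable B ∧ ∀ x, |a x| ≤ (B x : ℝ) := by
  obtain ⟨E, hE, h⟩ := ha
  obtain ⟨C, hC, hb⟩ := CompRat.exists_natBound
  refine ⟨fun x => C (E (x, 0)) + 1, ?_, ?_⟩
  · exact Computable.succ.comp (hC.comp (hE.comp (Computable.pair Computable.id (Computable.const 0))))
  · intro x
    have h1 := h x 0
    have h2 : |(E (x, 0) : ℝ)| ≤ C (E (x, 0)) := by exact_mod_cast hb (E (x, 0))
    have h3 : |a x| ≤ |a x - E (x, 0)| + |(E (x, 0) : ℝ)| := by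
      have := abs_add_le (a x - E (x, 0)) (E (x, 0) : ℝ)
      simpa using this
    push_cast
    simp at h1
    linarith

theorem CompR.mul {a b : α → ℝ} (ha : CompR a) (hb : CompR b) : CompR (fun x => a x * b x) := by
  obtain ⟨A, hA, hAb⟩ := ha.bound
  obtain ⟨B, hB, hBb⟩ := hb.bound
  obtain ⟨E, hE, h⟩ := ha
  obtain ⟨F, hF, h'⟩ := hb
  -- precision: |ab - EF| ≤ |a-E||b| + |E||b-F| ≤ e B + (A+1) e = e (A+B+1)
  have hn : Computable (fun p : α × ℕ => (p.2 + 1) * (A p.1 + B p.1 + 1)) :=
    CompRat.computable_natMul.comp (Computable.succ.comp Computable.snd)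
      (Computable.succ.comp (CompRat.computable_natAdd.comp (hA.comp Computable.fst)
        (hB.comp Computable.fst)))
  refine ⟨fun p => E (p.1, (p.2 + 1) * (A p.1 + B p.1 + 1)) *
    F (p.1, (p.2 + 1) * (A p.1 + B p.1 + 1)), ?_, ?_⟩
  · exact rat_mul_comp.comp (hE.comp (Computable.pair Computable.fst hn))
      (hF.comp (Computable.pair Computable.fst hn))
  · intro x n
    set N := (n + 1) * (A x + B x + 1) with hN
    have h1 := h x N
    have h2 := h' x N
    have hA' := hAb x
    have hB' := hBb x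
    have hnn : (0 : ℝ) ≤ n := Nat.cast_nonneg n
    have hAA : (0 : ℝ) ≤ A x := Nat.cast_nonneg _
    have hBB : (0 : ℝ) ≤ B x := Nat.cast_nonneg _
    have hNr : (N : ℝ) = ((n : ℝ) + 1) * ((A x : ℝ) + B x + 1) := by rw [hN]; push_cast; ring
    have hNpos : (1 : ℝ) ≤ (N : ℝ) := by rw [hNr]; nlinarith
    have hE1 : |(E (x, N) : ℝ)| ≤ A x + 1 := by
      have : |(E (x, N) : ℝ)| ≤ |a x| + |a x - E (x, N)| := by
        have := abs_sub (a x) (a x - E (x, N))
        simpa using this
      have h3 : 1 / ((N : ℝ) + 1) ≤ 1 := by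
        rw [div_le_one (by linarith)]; linarith
      linarith
    push_cast
    have e : a x * b x - (E (x, N) : ℝ) * (F (x, N) : ℝ) =
      (a x - E (x, N)) * b x + E (x, N) * (b x - F (x, N)) := by ring
    rw [e]
    have s1 : |(a x - E (x, N)) * b x| ≤ 1 / ((N : ℝ) + 1) * B x := by
      rw [abs_mul]; exact mul_le_mul h1 hB' (abs_nonneg _) (by positivity)
    have s2 : |(E (x, N) : ℝ) * (b x - F (x, N))| ≤ (A x + 1) * (1 / ((N : ℝ) + 1)) := by
      rw [abs_mul]; exact mul_le_mul hE1 h2 (abs_nonneg _) (by positivity)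
    refine (abs_add_le _ _).trans ((add_le_add s1 s2).trans ?_)
    have : 1 / ((N : ℝ) + 1) * B x + (A x + 1) * (1 / ((N : ℝ) + 1)) =
      ((A x : ℝ) + B x + 1) / ((N : ℝ) + 1) := by ring
    rw [this, div_le_div_iff₀ (by linarith) (by linarith), hNr]
    nlinarith

theorem CompR.neg {a : α → ℝ} (ha : CompR a) : CompR (fun x => - a x) := by
  obtain ⟨E, hE, h⟩ := ha
  refine ⟨fun p => - E p, rat_neg_comp.comp hE, fun x n => ?_⟩
  have := h x n
  push_cast
  rw [show - a x - -(E (x, n) : ℝ) = -(a x - E (x, n)) by ring, abs_neg]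
  exact this

theorem CompR.sum_range {a : α → ℕ → ℝ} {N : α → ℕ} (ha : CompR (fun p : α × ℕ => a p.1 p.2))
    (hN : Computable N) : CompR (fun x => ∑ i ∈ Finset.range (N x), a x i) := by
  obtain ⟨E, hE, h⟩ := ha
  refine ⟨fun p => ∑ i ∈ Finset.range (N p.1), E ((p.1, i), (p.2 + 1) * N p.1), ?_, ?_⟩
  · have hx : Computable (fun y : (α × ℕ) × ℕ => ((y.1.1, y.2) : α × ℕ)) :=
      Computable.pair (Computable.fst.comp Computable.fst) Computable.snd
    have hy : Computable (fun y : (α × ℕ) × ℕ => (y.1.2 + 1) * N y.1.1) :=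
      CompRat.computable_natMul.comp (Computable.succ.comp (Computable.snd.comp Computable.fst))
        (hN.comp (Computable.fst.comp Computable.fst))
    have hz : Computable₂ (fun (p : α × ℕ) (i : ℕ) => E ((p.1, i), (p.2 + 1) * N p.1)) :=
      hE.comp (Computable.pair hx hy)
    have hN' : Computable (fun p : α × ℕ => N p.1) := hN.comp Computable.fst
    exact rat_sum_range_comp _ _ hz hN'
  · intro x n
    push_cast
    rw [← Finset.sum_sub_distrib]
    refine (Finset.abs_sum_le_sum_abs _ _).trans ?_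
    refine (Finset.sum_le_card_nsmul _ _ (1 / ((((n + 1) * N x : ℕ) : ℝ) + 1)) ?_).trans ?_
    · intro i _
      exact h (x, i) _
    · rw [Finset.card_range, nsmul_eq_mul]
      push_cast
      have hnn : (0 : ℝ) ≤ n := Nat.cast_nonneg n
      have hNN : (0 : ℝ) ≤ N x := Nat.cast_nonneg _
      rw [mul_one_div, div_le_div_iff₀ (by positivity) (by positivity)]
      nlinarith

end

end Crest.Agent.S0170
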