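import Mathlib
import Crest.Agent.S0170_Defs
import Crest.Agent.S0170_Rat
import Crest.Agent.S0170_CompR

set_option autoImplicit false

namespace Crest.Agent.S0170

open Crest.AnalysisR.BoxFlow
open scoped ContDiff

theorem EU.compR {f : ℝ → ℝ} (hf : EU f) :
    CompR (fun p : ℕ × ℚ => iteratedDeriv p.1 f (p.2 : ℝ)) := by
  obtain ⟨E, hE, h⟩ := hf.eff
  refine ⟨fun p => E (p.1.1, p.1.2, p.2), ?_, fun x n => h x.1 x.2 n⟩
  exact hE.comp (Computable.pair (Computable.fst.comp Computable.fst)
    (Computable.pair (Computable.snd.comp Computable.fst) Computable.snd))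

theorem EU.of_compR {f : ℝ → ℝ} (hs : ContDiff ℝ ∞ f)
    (hc : CompR (fun p : ℕ × ℚ => iteratedDeriv p.1 f (p.2 : ℝ)))
    (hb : ∃ B : ℕ → ℕ, Computable B ∧ ∀ (m : ℕ) (x : ℝ), |iteratedDeriv m f x| ≤ (B m : ℝ)) :
    EU f := by
  refine ⟨hs, ?_, hb⟩
  obtain ⟨E, hE, h⟩ := hc
  refine ⟨fun p => E ((p.1, p.2.1), p.2.2), ?_, fun m q n => h (m, q) n⟩
  exact hE.comp (Computable.pair (Computable.pair Computable.fst (Computable.fst.comp Computable.snd))
    (Computable.snd.comp Computable.snd))

theorem EU.const (c : ℚ) : EU (fun _ => (c : ℝ)) := by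
  refine EU.of_compR contDiff_const ?_ ?_
  · have h : Computable (fun p : ℕ × ℚ => if p.1 = 0 then c else 0) := by
      have hd : Computable (fun p : ℕ × ℚ => decide (p.1 = 0)) :=
        (Primrec.eq (α := ℕ)).decide.to_comp.comp Computable.fst (Computable.const 0)
      refine (Computable.cond hd (Computable.const c) (Computable.const 0)).of_eq ?_
      intro p
      by_cases h : p.1 = 0 <;> simp [h]
    refine (CompR.ofRat h).congr ?_
    rintro ⟨m, q⟩
    rw [iteratedDeriv_const]
    split_ifs <;> simp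
  · refine ⟨fun _ => ⌈|c|⌉₊, Computable.const _, fun m x => ?_⟩
    rw [iteratedDeriv_const]
    have h1 : |(c : ℝ)| ≤ (⌈|c|⌉₊ : ℝ) := by
      have := Nat.le_ceil |c|
      exact_mod_cast this
    split_ifs
    · exact h1
    · simp

theorem cda {f : ℝ → ℝ} (hf : ContDiff ℝ ∞ f) (m : ℕ) (x : ℝ) : ContDiffAt ℝ m f x :=
  (hf.of_le (by exact_mod_cast le_top)).contDiffAt

theorem EU.add {f g : ℝ → ℝ} (hf : EU f) (hg : EU g) : EU (fun x => f x + g x) := by
  have key : ∀ (m : ℕ) (x : ℝ), iteratedDeriv m (fun x => f x + g x) x =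
      iteratedDeriv m f x + iteratedDeriv m g x := fun m x =>
    iteratedDeriv_add (cda hf.smooth m x) (cda hg.smooth m x)
  refine EU.of_compR (hf.smooth.add hg.smooth) ((hf.compR.add hg.compR).congr ?_) ?_
  · rintro ⟨m, q⟩
    exact (key m q).symm
  · obtain ⟨A, hA, hA'⟩ := hf.bdd
    obtain ⟨B, hB, hB'⟩ := hg.bdd
    refine ⟨fun m => A m + B m, CompRat.computable_natAdd.comp hA hB, fun m x => ?_⟩
    rw [key]
    push_cast
    exact (abs_add_le _ _).trans (add_le_add (hA' m x) (hB' m x))

theorem computable_descFactorial : Computable₂ Nat.descFactorial := by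
  have h := Computable.nat_rec (f := fun p : ℕ × ℕ => p.2) (g := fun _ => (1 : ℕ))
    (h := fun a p => (a.1 - p.1) * p.2) Computable.snd (Computable.const 1)
    (CompRat.computable_natMul.comp (CompRat.computable_natSub.comp
      (Computable.fst.comp Computable.fst) (Computable.fst.comp Computable.snd))
      (Computable.snd.comp Computable.snd))
  refine h.of_eq ?_
  rintro ⟨a, b⟩
  simp only
  induction b with
  | zero => simp
  | succ n ih => rw [Nat.descFactorial_succ, ← ih]

theorem computable_choose : Computable₂ Nat.choose := by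
  have h : Computable (fun p : ℕ × ℕ => p.1.descFactorial p.2 / p.2.descFactorial p.2) :=
    CompRat.computable_natDiv.comp (computable_descFactorial.comp Computable.fst Computable.snd)
      (computable_descFactorial.comp Computable.snd Computable.snd)
  refine h.of_eq ?_
  rintro ⟨a, b⟩
  simp only
  rw [Nat.descFactorial_self, Nat.choose_eq_descFactorial_div_factorial]

theorem EU.mul {f g : ℝ → ℝ} (hf : EU f) (hg : EU g) : EU (fun x => f x * g x) := by
  have key : ∀ (m : ℕ) (x : ℝ), iteratedDeriv m (fun x => f x * g x) x =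
      ∑ i ∈ Finset.range (m + 1), (m.choose i : ℝ) * iteratedDeriv i f x *
        iteratedDeriv (m - i) g x := fun m x =>
    iteratedDeriv_mul (cda hf.smooth m x) (cda hg.smooth m x)
  refine EU.of_compR (hf.smooth.mul hg.smooth) ?_ ?_
  · have h1 : CompR (fun p : (ℕ × ℚ) × ℕ => ((p.1.1.choose p.2 : ℚ) : ℝ)) :=
      CompR.ofRat (rat_natCast_comp.comp (computable_choose.comp
        (Computable.fst.comp Computable.fst) Computable.snd))
    have h2 : CompR (fun p : (ℕ × ℚ) × ℕ => iteratedDeriv p.2 f (p.1.2 : ℝ)) :=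
      hf.compR.comp (f := fun p : (ℕ × ℚ) × ℕ => (p.2, p.1.2))
        (Computable.pair Computable.snd (Computable.snd.comp Computable.fst))
    have h3 : CompR (fun p : (ℕ × ℚ) × ℕ => iteratedDeriv (p.1.1 - p.2) g (p.1.2 : ℝ)) :=
      hg.compR.comp (f := fun p : (ℕ × ℚ) × ℕ => (p.1.1 - p.2, p.1.2))
        (Computable.pair (CompRat.computable_natSub.comp (Computable.fst.comp Computable.fst)
          Computable.snd) (Computable.snd.comp Computable.fst))
    have h4 := ((h1.mul h2).mul h3)
    have h5 := CompR.sum_range (a := fun (p : ℕ × ℚ) (i : ℕ) => ((p.1.choose i : ℚ) : ℝ) *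
      iteratedDeriv i f (p.2 : ℝ) * iteratedDeriv (p.1 - i) g (p.2 : ℝ)) (N := fun p => p.1 + 1) h4
      (Computable.succ.comp Computable.fst)
    refine h5.congr ?_
    rintro ⟨m, q⟩
    rw [key]
    simp
  · obtain ⟨A, hA, hA'⟩ := hf.bdd
    obtain ⟨B, hB, hB'⟩ := hg.bdd
    refine ⟨fun m => ∑ i ∈ Finset.range (m + 1), m.choose i * A i * B (m - i), ?_, fun m x => ?_⟩
    · have h1 : Computable₂ (fun (m i : ℕ) => m.choose i * A i * B (m - i)) :=
        CompRat.computable_natMul.comp (CompRat.computable_natMul.comp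
          (computable_choose.comp Computable.fst Computable.snd) (hA.comp Computable.snd))
          (hB.comp (CompRat.computable_natSub.comp Computable.fst Computable.snd))
      exact CompRat.computable_natSum h1 Computable.succ
    · rw [key]
      push_cast
      refine (Finset.abs_sum_le_sum_abs _ _).trans (Finset.sum_le_sum fun i _ => ?_)
      rw [abs_mul, abs_mul, Nat.abs_cast]
      exact mul_le_mul (mul_le_mul_of_nonneg_left (hA' i x) (Nat.cast_nonneg _)) (hB' _ x)
        (abs_nonneg _) (by positivity)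

theorem EU.affine {f : ℝ → ℝ} (hf : EU f) (r s : ℚ) : EU (fun x => f ((r : ℝ) * x + (s : ℝ))) := by
  have key : ∀ (m : ℕ) (x : ℝ), iteratedDeriv m (fun x => f ((r : ℝ) * x + (s : ℝ))) x =
      (r : ℝ) ^ m * iteratedDeriv m f ((r : ℝ) * x + (s : ℝ)) := by
    intro m x
    have hs : ContDiff ℝ m (fun x => f (x + (s : ℝ))) :=
      (hf.smooth.comp (contDiff_id.add contDiff_const)).of_le (by exact_mod_cast le_top)
    have h1 := iteratedDeriv_comp_const_mul hs (r : ℝ)
    have h2 := congrFun h1 x
    rw [h2]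
    rw [iteratedDeriv_comp_add_const]
  have hsm : ContDiff ℝ ∞ (fun x => f ((r : ℝ) * x + (s : ℝ))) :=
    hf.smooth.comp ((contDiff_const.mul contDiff_id).add contDiff_const)
  refine EU.of_compR hsm ?_ ?_
  · have h1 : CompR (fun p : ℕ × ℚ => ((r ^ p.1 : ℚ) : ℝ)) :=
      CompR.ofRat (rat_pow_comp.comp (Computable.const r) Computable.fst)
    have h2 : CompR (fun p : ℕ × ℚ => iteratedDeriv p.1 f ((r * p.2 + s : ℚ) : ℝ)) :=
      hf.compR.comp (f := fun p : ℕ × ℚ => (p.1, r * p.2 + s))
        (Computable.pair Computable.fst (rat_add_comp.comp (rat_mul_comp.comp (Computable.const r)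
          Computable.snd) (Computable.const s)))
    refine (h1.mul h2).congr ?_
    rintro ⟨m, q⟩
    rw [key]
    push_cast
    rfl
  · obtain ⟨A, hA, hA'⟩ := hf.bdd
    refine ⟨fun m => ⌈|r|⌉₊ ^ m * A m, CompRat.computable_natMul.comp
      (CompRat.computable_natPow.comp (Computable.const _) Computable.id) hA, fun m x => ?_⟩
    rw [key, abs_mul, abs_pow]
    push_cast
    have h1 : |(r : ℝ)| ≤ (⌈|r|⌉₊ : ℝ) := by
      have := Nat.le_ceil |r|
      exact_mod_cast this
    exact mul_le_mul (pow_le_pow_left₀ (abs_nonneg _) h1 m) (hA' m _) (abs_nonneg _) (by positivity)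

theorem EU.deriv {f : ℝ → ℝ} (hf : EU f) : EU (_root_.deriv f) := by
  have key : ∀ (m : ℕ), iteratedDeriv m (_root_.deriv f) = iteratedDeriv (m + 1) f :=
    fun m => iteratedDeriv_succ'.symm
  have hsm : ContDiff ℝ ∞ (_root_.deriv f) := by
    have := (contDiff_infty_iff_deriv (𝕜 := ℝ)).1 hf.smooth
    exact this.2
  refine EU.of_compR hsm ?_ ?_
  · refine (hf.compR.comp (f := fun p : ℕ × ℚ => (p.1 + 1, p.2))
      (Computable.pair (Computable.succ.comp Computable.fst) Computable.snd)).congr ?_
    rintro ⟨m, q⟩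
    simp only [key]
  · obtain ⟨A, hA, hA'⟩ := hf.bdd
    exact ⟨fun m => A (m + 1), hA.comp Computable.succ, fun m x => by rw [key]; exact hA' _ x⟩

theorem EU.id_mul {f : ℝ → ℝ} (hf : EU f) (R : ℕ) (hR : ∀ x, (R : ℝ) ≤ |x| → f x = 0) :
    EU (fun x => x * f x) := by
  have key : ∀ (m : ℕ) (x : ℝ), iteratedDeriv m (fun x => x * f x) x =
      x * iteratedDeriv m f x + (m : ℝ) * iteratedDeriv (m - 1) f x := by
    intro m x
    have h := iteratedDeriv_mul (n := m) (x := x) (f := fun x : ℝ => x) (g := f)
      (contDiffAt_id) (cda hf.smooth m x)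
    have e : iteratedDeriv m (fun x => x * f x) x = iteratedDeriv m ((fun x : ℝ => x) * f) x := rfl
    rw [e, h]
    cases m with
    | zero => simp
    | succ k =>
      rw [Finset.sum_range_succ', Finset.sum_range_succ']
      have h0 : ∀ i ∈ Finset.range k, ((k + 1).choose (i + 1 + 1) : ℝ) *
          iteratedDeriv (i + 1 + 1) (fun x : ℝ => x) x * iteratedDeriv (k + 1 - (i + 1 + 1)) f x = 0 := by
        intro i _
        have : iteratedDeriv (i + 1 + 1) (fun x : ℝ => x) x = 0 := by
          have := iteratedDeriv_fun_id (𝕜 := ℝ) (n := i + 1 + 1) (x := x)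
          rw [this, if_neg (by omega), if_neg (by omega)]
        rw [this]; ring
      rw [Finset.sum_eq_zero h0]
      have h1 : iteratedDeriv (0 + 1) (fun x : ℝ => x) x = 1 := by
        have := iteratedDeriv_fun_id (𝕜 := ℝ) (n := 0 + 1) (x := x)
        rw [this, if_neg (by omega), if_pos (by omega)]
      rw [h1]
      simp
      ring
  have hsm : ContDiff ℝ ∞ (fun x => x * f x) := contDiff_id.mul hf.smooth
  refine EU.of_compR hsm ?_ ?_
  · have h1 : CompR (fun p : ℕ × ℚ => (p.2 : ℝ)) := CompR.ofRat Computable.snd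
    have h2 : CompR (fun p : ℕ × ℚ => ((p.1 : ℚ) : ℝ)) :=
      CompR.ofRat (rat_natCast_comp.comp Computable.fst)
    have h3 : CompR (fun p : ℕ × ℚ => iteratedDeriv (p.1 - 1) f (p.2 : ℝ)) :=
      hf.compR.comp (f := fun p : ℕ × ℚ => (p.1 - 1, p.2))
        (Computable.pair (CompRat.computable_natSub.comp Computable.fst (Computable.const 1))
          Computable.snd)
    refine ((h1.mul hf.compR).add (h2.mul h3)).congr ?_
    rintro ⟨m, q⟩
    rw [key]
    simp
  · obtain ⟨A, hA, hA'⟩ := hf.bdd
    refine ⟨fun m => R * A m + m * A (m - 1), ?_, fun m x => ?_⟩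
    · exact CompRat.computable_natAdd.comp (CompRat.computable_natMul.comp (Computable.const R) hA)
        (CompRat.computable_natMul.comp Computable.id (hA.comp
          (CompRat.computable_natSub.comp Computable.id (Computable.const 1))))
    · rw [key]
      push_cast
      refine (abs_add_le _ _).trans (add_le_add ?_ ?_)
      · rw [abs_mul]
        rcases le_or_gt |x| (R : ℝ) with h | h
        · exact mul_le_mul h (hA' m x) (abs_nonneg _) (by positivity)
        · have hev : f =ᶠ[nhds x] (fun _ => (0 : ℝ)) := by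
            have : {y : ℝ | (R : ℝ) < |y|} ∈ nhds x :=
              (isOpen_lt continuous_const continuous_abs).mem_nhds h
            filter_upwards [this] with y hy
            exact hR y (le_of_lt hy)
          have : iteratedDeriv m f x = 0 := by
            rw [hev.iteratedDeriv_eq m]
            simp
          rw [this]
          simp
          positivity
      · rw [abs_mul, Nat.abs_cast]
        exact mul_le_mul_of_nonneg_left (hA' _ x) (Nat.cast_nonneg _)

end Crest.Agent.S0170
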