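import Mathlib
import Crest.Prelude.Def_BoxFlow
import Crest.Agent.S0170_Defs
import Crest.Agent.S0170_Rat
import Crest.Agent.S0170_CompR

/-! Chunk EFF of S0170: from univariate effective functions to effective fields. -/

set_option autoImplicit false

namespace Crest.Agent.S0170

open Crest.AnalysisR.BoxFlow
open scoped ContDiff

theorem eff_contDiff_iteratedDeriv {f : ℝ → ℝ} (hf : ContDiff ℝ ∞ f) (n : ℕ) :
    ContDiff ℝ ∞ (iteratedDeriv n f) := by
  induction n with
  | zero => rw [iteratedDeriv_zero]; exact hf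
  | succ n ih =>
    rw [iteratedDeriv_succ]
    exact (contDiff_infty_iff_deriv.1 ih).2

theorem contDiff_sep {g : Fin 4 → ℝ → ℝ} (hg : ∀ k, ContDiff ℝ ∞ (g k)) :
    ContDiff ℝ ∞ (sep g) := by
  unfold sep
  have h0 : ContDiff ℝ ∞ (fun p : ℝ × E3 => p.1) := contDiff_fst
  have hc : ∀ m : Fin 3, ContDiff ℝ ∞ (fun p : ℝ × E3 => p.2 m) :=
    fun m => (contDiff_apply ℝ ℝ m).comp contDiff_snd
  exact ((((hg 0).comp h0).mul ((hg 1).comp (hc 0))).mul ((hg 2).comp (hc 1))).mul
    ((hg 3).comp (hc 2))

theorem eff_hasDerivAt_shift {f : ℝ → ℝ} (hf : ContDiff ℝ ∞ f) (a : ℝ) :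
    HasDerivAt (fun t => f (a + t)) (deriv f a) 0 := by
  have hf1 : HasDerivAt f (deriv f a) (a + 0) := by
    rw [add_zero]
    exact ((hf.differentiable (by simp)).differentiableAt).hasDerivAt
  have := hf1.comp_const_add a 0
  simpa using this

theorem fderiv_sep {g : Fin 4 → ℝ → ℝ} (hg : ∀ k, ContDiff ℝ ∞ (g k)) (d : Fin 4)
    (p : ℝ × E3) :
    fderiv ℝ (sep g) p (direction d) = sep (Function.update g d (deriv (g d))) p := by
  have hd : DifferentiableAt ℝ (sep g) p :=
    ((contDiff_sep hg).differentiable (by simp)).differentiableAt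
  rw [← hd.lineDeriv_eq_fderiv, lineDeriv]
  fin_cases d
  · have e : (fun t : ℝ => sep g (p + t • direction (0 : Fin 4))) =
        fun t : ℝ => g 0 (p.1 + t) * g 1 (p.2 0) * g 2 (p.2 1) * g 3 (p.2 2) := by
      funext t
      simp [sep, direction]
    show deriv (fun t : ℝ => sep g (p + t • direction (0 : Fin 4))) 0 = _
    rw [e]
    have := (((eff_hasDerivAt_shift (hg 0) p.1).mul_const (g 1 (p.2 0))).mul_const
      (g 2 (p.2 1))).mul_const (g 3 (p.2 2))
    rw [this.deriv]
    simp [sep, Function.update]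
  · have e : (fun t : ℝ => sep g (p + t • direction (1 : Fin 4))) =
        fun t : ℝ => g 0 p.1 * g 1 (p.2 0 + t) * g 2 (p.2 1) * g 3 (p.2 2) := by
      funext t
      have h1 : direction (1 : Fin 4) = (0, Pi.single 0 1) := rfl
      simp [sep, h1]
    show deriv (fun t : ℝ => sep g (p + t • direction (1 : Fin 4))) 0 = _
    rw [e]
    have := (((eff_hasDerivAt_shift (hg 1) (p.2 0)).const_mul (g 0 p.1)).mul_const
      (g 2 (p.2 1))).mul_const (g 3 (p.2 2))
    rw [this.deriv]
    simp [sep, Function.update]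
  · have e : (fun t : ℝ => sep g (p + t • direction (2 : Fin 4))) =
        fun t : ℝ => g 0 p.1 * g 1 (p.2 0) * g 2 (p.2 1 + t) * g 3 (p.2 2) := by
      funext t
      have h1 : direction (2 : Fin 4) = (0, Pi.single 1 1) := rfl
      simp [sep, h1]
    show deriv (fun t : ℝ => sep g (p + t • direction (2 : Fin 4))) 0 = _
    rw [e]
    have := ((eff_hasDerivAt_shift (hg 2) (p.2 1)).const_mul (g 0 p.1 * g 1 (p.2 0))).mul_const
      (g 3 (p.2 2))
    rw [this.deriv]
    simp [sep, Function.update]
  · have e : (fun t : ℝ => sep g (p + t • direction (3 : Fin 4))) =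
        fun t : ℝ => g 0 p.1 * g 1 (p.2 0) * g 2 (p.2 1) * g 3 (p.2 2 + t) := by
      funext t
      have h1 : direction (3 : Fin 4) = (0, Pi.single 2 1) := rfl
      simp [sep, h1]
    show deriv (fun t : ℝ => sep g (p + t • direction (3 : Fin 4))) 0 = _
    rw [e]
    have := (eff_hasDerivAt_shift (hg 3) (p.2 2)).const_mul (g 0 p.1 * g 1 (p.2 0) * g 2 (p.2 1))
    rw [this.deriv]
    simp [sep, Function.update]

theorem mixedS_sep {g : Fin 4 → ℝ → ℝ} (hg : ∀ k, ContDiff ℝ ∞ (g k)) (ds : List (Fin 4)) :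
    mixedS ds (sep g) = sep (fun k => iteratedDeriv (ds.count k) (g k)) := by
  induction ds with
  | nil => simp [mixedS]
  | cons d ds ih =>
    funext p
    show fderiv ℝ (mixedS ds (sep g)) p (direction d) = _
    rw [ih, fderiv_sep (fun k => eff_contDiff_iteratedDeriv (hg k) _)]
    congr 1
    funext k
    by_cases hk : k = d
    · subst hk
      rw [Function.update_self, List.count_cons_self, iteratedDeriv_succ]
    · rw [Function.update_of_ne hk, List.count_cons_of_ne (fun h => hk h.symm)]

theorem contDiff_mixedS {f : ℝ × E3 → ℝ} (hf : ContDiff ℝ ∞ f) (ds : List (Fin 4)) :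
    ContDiff ℝ ∞ (mixedS ds f) := by
  induction ds with
  | nil => exact hf
  | cons d ds ih =>
    show ContDiff ℝ ∞ (fun p => fderiv ℝ (mixedS ds f) p (direction d))
    exact (ih.fderiv_right (m := ∞) (by simp)).clm_apply contDiff_const

theorem contDiff_mixedDeriv {U : Field} (hU : ContDiff ℝ ∞ U) (ds : List (Fin 4)) :
    ContDiff ℝ ∞ (mixedDeriv ds U) := by
  induction ds with
  | nil => exact hU
  | cons d ds ih =>
    show ContDiff ℝ ∞ (fun p => fderiv ℝ (mixedDeriv ds U) p (direction d))
    exact (ih.fderiv_right (m := ∞) (by simp)).clm_apply contDiff_const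

theorem mixedDeriv_apply {U : Field} (hU : ContDiff ℝ ∞ U) (ds : List (Fin 4)) (j : Fin 3) :
    (fun p => mixedDeriv ds U p j) = mixedS ds (fun p => U p j) := by
  induction ds with
  | nil => rfl
  | cons d ds ih =>
    funext p
    show fderiv ℝ (mixedDeriv ds U) p (direction d) j = fderiv ℝ (mixedS ds fun p => U p j) p _
    rw [← ih]
    have hd : DifferentiableAt ℝ (mixedDeriv ds U) p :=
      ((contDiff_mixedDeriv hU ds).differentiable (by simp)).differentiableAt
    rw [fderiv_apply hd j]
    rfl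

theorem mixedS_add {f g : ℝ × E3 → ℝ} (hf : ContDiff ℝ ∞ f) (hg : ContDiff ℝ ∞ g)
    (ds : List (Fin 4)) :
    mixedS ds (fun p => f p + g p) = fun p => mixedS ds f p + mixedS ds g p := by
  induction ds with
  | nil => rfl
  | cons d ds ih =>
    funext p
    show fderiv ℝ (mixedS ds fun p => f p + g p) p (direction d) = _
    rw [ih]
    have h1 : DifferentiableAt ℝ (mixedS ds f) p :=
      ((contDiff_mixedS hf ds).differentiable (by simp)).differentiableAt
    have h2 : DifferentiableAt ℝ (mixedS ds g) p :=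
      ((contDiff_mixedS hg ds).differentiable (by simp)).differentiableAt
    have h3 : fderiv ℝ (fun p => mixedS ds f p + mixedS ds g p) p
        = fderiv ℝ (mixedS ds f) p + fderiv ℝ (mixedS ds g) p := fderiv_fun_add h1 h2
    rw [h3]
    rfl

theorem mixedS_neg (f : ℝ × E3 → ℝ) (ds : List (Fin 4)) :
    mixedS ds (fun p => - f p) = fun p => - mixedS ds f p := by
  induction ds with
  | nil => rfl
  | cons d ds ih =>
    funext p
    show fderiv ℝ (mixedS ds fun p => - f p) p (direction d) = _
    rw [ih]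
    have h3 : fderiv ℝ (fun p => - mixedS ds f p) p = - fderiv ℝ (mixedS ds f) p := fderiv_fun_neg
    rw [h3]
    rfl

theorem mixedS_zero (ds : List (Fin 4)) :
    mixedS ds (fun _ => (0 : ℝ)) = fun _ => 0 := by
  induction ds with
  | nil => rfl
  | cons d ds ih =>
    funext p
    show fderiv ℝ (mixedS ds fun _ => (0 : ℝ)) p (direction d) = _
    rw [ih]
    simp

theorem mixedS_timeAffine {f : ℝ × E3 → ℝ} (hf : ContDiff ℝ ∞ f) (c r s : ℝ)
    (ds : List (Fin 4)) :
    mixedS ds (fun p => c * f (r * p.1 + s, p.2)) =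
      fun p => c * r ^ (ds.count 0) * mixedS ds f (r * p.1 + s, p.2) := by
  induction ds with
  | nil => funext p; simp [mixedS]
  | cons d ds ih =>
    funext p
    show fderiv ℝ (mixedS ds fun p => c * f (r * p.1 + s, p.2)) p (direction d) = _
    rw [ih]
    have h1 : DifferentiableAt ℝ (mixedS ds f) (r * p.1 + s, p.2) :=
      ((contDiff_mixedS hf ds).differentiable (by simp)).differentiableAt
    have h2 : HasFDerivAt (fun p : ℝ × E3 => ((r * p.1 + s, p.2) : ℝ × E3))
        ((r • ContinuousLinearMap.fst ℝ ℝ E3).prod (ContinuousLinearMap.snd ℝ ℝ E3)) p := by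
      have ha : HasFDerivAt (fun p : ℝ × E3 => r * p.1 + s)
          (r • ContinuousLinearMap.fst ℝ ℝ E3) p :=
        (hasFDerivAt_fst.const_mul r).add_const s
      exact ha.prodMk hasFDerivAt_snd
    have h3 := (h1.hasFDerivAt.comp p h2).const_mul (c * r ^ (ds.count 0))
    have h4 : fderiv ℝ (fun p : ℝ × E3 => c * r ^ (ds.count 0) * mixedS ds f (r * p.1 + s, p.2)) p
        = _ := h3.fderiv
    rw [h4]
    simp only [_root_.smul_apply, ContinuousLinearMap.comp_apply, smul_eq_mul,
      ContinuousLinearMap.prod_apply, ContinuousLinearMap.coe_fst', ContinuousLinearMap.coe_snd']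
    show _ = c * r ^ ((d :: ds).count 0) * fderiv ℝ (mixedS ds f) (r * p.1 + s, p.2) (direction d)
    by_cases hd : d = 0
    · subst hd
      rw [List.count_cons_self]
      have e : (r * (direction (0 : Fin 4)).1, (direction (0 : Fin 4)).2)
          = r • direction (0 : Fin 4) := by
        simp [direction]
      rw [e, map_smul, smul_eq_mul, pow_succ]
      ring
    · rw [List.count_cons_of_ne hd]
      have e : (r * (direction d).1, (direction d).2) = direction d := by
        simp [direction, hd]
      rw [e]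

/-! ### Computability -/

/-- index type for space-time derivative evaluation -/
abbrev Idx : Type := List (Fin 4) × (ℚ × (Fin 3 → ℚ))

theorem EffS.of_compR {f : ℝ × E3 → ℝ} (hf : ContDiff ℝ ∞ f)
    (h : CompR (fun x : Idx => mixedS x.1 f ((x.2.1 : ℝ), ratPoint x.2.2)))
    (hb : ∃ B : List (Fin 4) → ℕ, Computable B ∧ ∀ (ds : List (Fin 4)) (p : ℝ × E3),
      |mixedS ds f p| ≤ (B ds : ℝ)) : EffS f := by
  refine ⟨hf, ?_, hb⟩
  obtain ⟨E, hE, hE2⟩ := h
  refine ⟨fun y => E ((y.1, y.2.1), y.2.2), ?_, ?_⟩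
  · exact hE.comp (Computable.pair (Computable.pair Computable.fst
      (Computable.fst.comp Computable.snd)) (Computable.snd.comp Computable.snd))
  · intro ds t q n
    exact hE2 (ds, (t, q)) n

theorem EffS.compR {f : ℝ × E3 → ℝ} (h : EffS f) :
    CompR (fun x : Idx => mixedS x.1 f ((x.2.1 : ℝ), ratPoint x.2.2)) := by
  obtain ⟨E, hE, hE2⟩ := h.eff
  refine ⟨fun y => E (y.1.1, y.1.2, y.2), ?_, ?_⟩
  · exact hE.comp (Computable.pair (Computable.fst.comp Computable.fst)
      (Computable.pair (Computable.snd.comp Computable.fst) Computable.snd))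
  · rintro ⟨ds, t, q⟩ n
    exact hE2 ds t q n

theorem EU.eff_compR {g : ℝ → ℝ} (h : EU g) :
    CompR (fun x : ℕ × ℚ => iteratedDeriv x.1 g (x.2 : ℝ)) := by
  obtain ⟨E, hE, hE2⟩ := h.eff
  refine ⟨fun y => E (y.1.1, y.1.2, y.2), ?_, ?_⟩
  · exact hE.comp (Computable.pair (Computable.fst.comp Computable.fst)
      (Computable.pair (Computable.snd.comp Computable.fst) Computable.snd))
  · rintro ⟨m, q⟩ n
    exact hE2 m q n

theorem primrec_count (k : Fin 4) : Primrec (fun ds : List (Fin 4) => ds.count k) := by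
  have h : Primrec (fun ds : List (Fin 4) => ds.foldr (fun d n => if d = k then n + 1 else n) 0) := by
    have hh : Primrec₂ (fun (_ : List (Fin 4)) (p : Fin 4 × ℕ) =>
        if p.1 = k then p.2 + 1 else p.2) := by
      apply Primrec₂.mk
      exact Primrec.ite (Primrec.eq.comp (Primrec.fst.comp Primrec.snd) (Primrec.const k))
        (Primrec.succ.comp (Primrec.snd.comp Primrec.snd)) (Primrec.snd.comp Primrec.snd)
    exact Primrec.list_foldr (f := fun ds : List (Fin 4) => ds) (g := fun _ => 0)
      (h := fun (_ : List (Fin 4)) (p : Fin 4 × ℕ) => if p.1 = k then p.2 + 1 else p.2)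
      Primrec.id (Primrec.const 0) hh
  refine h.of_eq (fun ds => ?_)
  induction ds with
  | nil => simp
  | cons d ds ih =>
    rw [List.foldr_cons, ih]
    by_cases hd : d = k
    · subst hd; simp
    · rw [if_neg hd, List.count_cons_of_ne hd]

theorem computable_count (k : Fin 4) : Computable (fun ds : List (Fin 4) => ds.count k) :=
  (primrec_count k).to_comp

theorem computable_coord (j : Fin 3) : Computable (fun q : Fin 3 → ℚ => q j) :=
  Computable.fin_app.comp Computable.id (Computable.const j)

theorem computable_toFun {α : Type} [Primcodable α] {f : α → Fin 3 → ℚ}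
    (h : ∀ j, Computable (fun x => f x j)) : Computable f := by
  have h1 : Computable (fun x => List.Vector.ofFn fun i => f x i) :=
    Computable.vector_ofFn (f := fun i x => f x i) h
  exact (Primrec.vector_get'.to_comp.comp h1).of_eq (fun x => by funext i; simp)

theorem EffS.sep (g : Fin 4 → ℝ → ℝ) (hg : ∀ k, EU (g k)) : EffS (S0170.sep g) := by
  have hs : ∀ k, ContDiff ℝ ∞ (g k) := fun k => (hg k).smooth
  apply EffS.of_compR (contDiff_sep hs)
  · have hcount : ∀ k : Fin 4, Computable (fun x : Idx => x.1.count k) :=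
      fun k => (computable_count k).comp Computable.fst
    have ht : Computable (fun x : Idx => x.2.1) := Computable.fst.comp Computable.snd
    have hq : ∀ j : Fin 3, Computable (fun x : Idx => x.2.2 j) :=
      fun j => (computable_coord j).comp (Computable.snd.comp Computable.snd)
    have c0 := ((hg 0).eff_compR).comp (Computable.pair (hcount 0) ht)
    have c1 := ((hg 1).eff_compR).comp (Computable.pair (hcount 1) (hq 0))
    have c2 := ((hg 2).eff_compR).comp (Computable.pair (hcount 2) (hq 1))
    have c3 := ((hg 3).eff_compR).comp (Computable.pair (hcount 3) (hq 2))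
    refine CompR.congr (((c0.mul c1).mul c2).mul c3) ?_
    rintro ⟨ds, t, q⟩
    rw [mixedS_sep hs]
    rfl
  · choose B hB hBb using fun k => (hg k).bdd
    refine ⟨fun ds => B 0 (ds.count 0) * B 1 (ds.count 1) * B 2 (ds.count 2) * B 3 (ds.count 3),
      ?_, ?_⟩
    · have hc : ∀ k : Fin 4, Computable (fun ds : List (Fin 4) => B k (ds.count k)) :=
        fun k => (hB k).comp (computable_count k)
      exact CompRat.computable_natMul.comp (CompRat.computable_natMul.comp
        (CompRat.computable_natMul.comp (hc 0) (hc 1)) (hc 2)) (hc 3)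
    · intro ds p
      rw [mixedS_sep hs]
      simp only [S0170.sep]
      rw [abs_mul, abs_mul, abs_mul]
      push_cast
      have b0 := hBb 0 (ds.count 0) p.1
      have b1 := hBb 1 (ds.count 1) (p.2 0)
      have b2 := hBb 2 (ds.count 2) (p.2 1)
      have b3 := hBb 3 (ds.count 3) (p.2 2)
      gcongr

theorem EffS.add {f g : ℝ × E3 → ℝ} (hf : EffS f) (hg : EffS g) : EffS (fun p => f p + g p) := by
  apply EffS.of_compR (hf.smooth.add hg.smooth)
  · refine CompR.congr (hf.compR.add hg.compR) ?_
    rintro ⟨ds, t, q⟩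
    rw [mixedS_add hf.smooth hg.smooth]
  · obtain ⟨B, hB, hBb⟩ := hf.bdd
    obtain ⟨C, hC, hCb⟩ := hg.bdd
    refine ⟨fun ds => B ds + C ds, CompRat.computable_natAdd.comp hB hC, fun ds p => ?_⟩
    rw [mixedS_add hf.smooth hg.smooth]
    push_cast
    exact (abs_add_le _ _).trans (add_le_add (hBb ds p) (hCb ds p))

theorem EffS.zero : EffS (fun _ => (0 : ℝ)) := by
  apply EffS.of_compR contDiff_const
  · refine CompR.congr (CompR.const 0) ?_
    rintro ⟨ds, t, q⟩
    rw [mixedS_zero]
    simp
  · exact ⟨fun _ => 0, Computable.const 0, fun ds p => by rw [mixedS_zero]; simp⟩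

theorem EffS.neg {f : ℝ × E3 → ℝ} (hf : EffS f) : EffS (fun p => - f p) := by
  apply EffS.of_compR hf.smooth.neg
  · refine CompR.congr hf.compR.neg ?_
    rintro ⟨ds, t, q⟩
    rw [mixedS_neg]
  · obtain ⟨B, hB, hBb⟩ := hf.bdd
    refine ⟨B, hB, fun ds p => ?_⟩
    rw [mixedS_neg, abs_neg]
    exact hBb ds p

theorem EffS.timeAffine {f : ℝ × E3 → ℝ} (hf : EffS f) (c r s : ℚ) :
    EffS (fun p => (c : ℝ) * f ((r : ℝ) * p.1 + (s : ℝ), p.2)) := by
  have hsm : ContDiff ℝ ∞ (fun p : ℝ × E3 => (c : ℝ) * f ((r : ℝ) * p.1 + (s : ℝ), p.2)) := by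
    apply contDiff_const.mul
    exact hf.smooth.comp (((contDiff_const.mul contDiff_fst).add contDiff_const).prodMk
      contDiff_snd)
  apply EffS.of_compR hsm
  · have h1 : CompR (fun x : Idx => ((c * r ^ (x.1.count 0) : ℚ) : ℝ)) := by
      apply CompR.ofRat
      exact rat_mul_comp.comp (Computable.const c)
        (rat_pow_comp.comp (Computable.const r) ((computable_count 0).comp Computable.fst))
    have h2 : CompR (fun x : Idx => mixedS x.1 f (((r * x.2.1 + s : ℚ) : ℝ), ratPoint x.2.2)) := by
      refine hf.compR.comp (f := fun x : Idx => ((x.1, (r * x.2.1 + s, x.2.2)) : Idx)) ?_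
      exact Computable.pair Computable.fst (Computable.pair
        (rat_add_comp.comp (rat_mul_comp.comp (Computable.const r)
          (Computable.fst.comp Computable.snd)) (Computable.const s))
        (Computable.snd.comp Computable.snd))
    refine CompR.congr (h1.mul h2) ?_
    rintro ⟨ds, t, q⟩
    rw [mixedS_timeAffine hf.smooth]
    push_cast
    rfl
  · obtain ⟨B, hB, hBb⟩ := hf.bdd
    obtain ⟨C, hC, hCb⟩ := CompRat.exists_natBound
    refine ⟨fun ds => C (c * r ^ (ds.count 0)) * B ds, ?_, ?_⟩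
    · exact CompRat.computable_natMul.comp (hC.comp (rat_mul_comp.comp (Computable.const c)
        (rat_pow_comp.comp (Computable.const r) (computable_count 0)))) hB
    · intro ds p
      rw [mixedS_timeAffine hf.smooth, abs_mul]
      push_cast
      have h1 : |(c : ℝ) * (r : ℝ) ^ (ds.count 0)| ≤ (C (c * r ^ (ds.count 0)) : ℝ) := by
        have := hCb (c * r ^ (ds.count 0))
        have h2 : ((|c * r ^ (ds.count 0)| : ℚ) : ℝ) ≤ ((C (c * r ^ (ds.count 0)) : ℚ) : ℝ) := by
          exact_mod_cast this
        push_cast at h2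
        exact h2
      exact mul_le_mul h1 (hBb ds _) (abs_nonneg _) (Nat.cast_nonneg _)

theorem effective_of_effS (U : Field) (h : ∀ j, EffS (fun p => U p j)) : Effective U := by
  have hU : ContDiff ℝ ∞ U := by
    rw [contDiff_pi]
    exact fun j => (h j).smooth
  choose E hE hEb using fun j => (h j).eff
  choose B hB hBb using fun j => (h j).bdd
  refine ⟨fun y j => E j y, fun ds => B 0 ds + B 1 ds + B 2 ds, computable_toFun hE, ?_, ?_, ?_⟩
  · exact CompRat.computable_natAdd.comp (CompRat.computable_natAdd.comp (hB 0) (hB 1)) (hB 2)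
  · intro ds t q n j
    have h1 := hEb j ds t q n
    rw [← mixedDeriv_apply hU ds j] at h1
    exact h1
  · intro ds p j
    have h1 := hBb j ds p
    rw [← mixedDeriv_apply hU ds j] at h1
    refine le_trans h1 ?_
    push_cast
    have n0 : (0 : ℝ) ≤ (B 0 ds : ℝ) := Nat.cast_nonneg _
    have n1 : (0 : ℝ) ≤ (B 1 ds : ℝ) := Nat.cast_nonneg _
    have n2 : (0 : ℝ) ≤ (B 2 ds : ℝ) := Nat.cast_nonneg _
    fin_cases j
    · show (B 0 ds : ℝ) ≤ _; linarith
    · show (B 1 ds : ℝ) ≤ _; linarith
    · show (B 2 ds : ℝ) ≤ _; linarith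

theorem effS_of_effective (U : Field) (hU : ContDiff ℝ ∞ U) (h : Effective U) (j : Fin 3) :
    EffS (fun p => U p j) := by
  obtain ⟨E, B, hE, hB, hEb, hBb⟩ := h
  refine ⟨(contDiff_pi.mp hU) j, ⟨fun y => E y j, (computable_coord j).comp hE, ?_⟩,
    ⟨B, hB, ?_⟩⟩
  · intro ds t q n
    rw [← mixedDeriv_apply hU ds j]
    exact hEb ds t q n j
  · intro ds p
    rw [← mixedDeriv_apply hU ds j]
    exact hBb ds p j

end Crest.Agent.S0170
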