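import Crest.Prelude.Def_BoxFlow

set_option autoImplicit false
open scoped ContDiff
open Crest.AnalysisR.BoxFlow

namespace Crest.Agent.S0170.Move

/-- Elementary move field. -/
noncomputable def mv (g ci Q cl : ℝ → ℝ) (i j l : Fin 3) : Field := fun p m =>
  if m = i then g p.1 * ci (p.2 i) * deriv Q (p.2 j) * cl (p.2 l)
  else if m = j then -(g p.1 * deriv ci (p.2 i) * Q (p.2 j) * cl (p.2 l))
  else 0

theorem contDiff_deriv' {f : ℝ → ℝ} (hf : ContDiff ℝ ∞ f) : ContDiff ℝ ∞ (deriv f) :=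
  (contDiff_infty_iff_deriv.1 hf).2

theorem contDiff_coord (m : Fin 3) : ContDiff ℝ ∞ (fun p : ℝ × (Fin 3 → ℝ) => p.2 m) :=
  (contDiff_apply ℝ ℝ m).comp contDiff_snd

theorem contDiff_prod4 {g f1 f2 f3 : ℝ → ℝ} (hg : ContDiff ℝ ∞ g) (h1 : ContDiff ℝ ∞ f1)
    (h2 : ContDiff ℝ ∞ f2) (h3 : ContDiff ℝ ∞ f3) (i j l : Fin 3) :
    ContDiff ℝ ∞ (fun p : ℝ × (Fin 3 → ℝ) => g p.1 * f1 (p.2 i) * f2 (p.2 j) * f3 (p.2 l)) :=
  (((hg.comp contDiff_fst).mul (h1.comp (contDiff_coord i))).mul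
    (h2.comp (contDiff_coord j))).mul (h3.comp (contDiff_coord l))

theorem contDiff_mv {g ci Q cl : ℝ → ℝ} (hg : ContDiff ℝ ∞ g) (hci : ContDiff ℝ ∞ ci)
    (hQ : ContDiff ℝ ∞ Q) (hcl : ContDiff ℝ ∞ cl) (i j l : Fin 3) :
    ContDiff ℝ ∞ (mv g ci Q cl i j l) := by
  rw [contDiff_pi]
  intro m
  unfold mv
  by_cases h1 : m = i
  · simp only [h1, if_true]
    exact contDiff_prod4 hg hci (contDiff_deriv' hQ) hcl i j l
  · by_cases h2 : m = j
    · simp only [if_neg h1, if_pos h2]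
      exact (contDiff_prod4 hg (contDiff_deriv' hci) hQ hcl i j l).neg
    · simp only [h1, h2, if_false]
      exact contDiff_const

/-- zero outside the support of the time profile -/
theorem mv_eq_zero_of_time {g ci Q cl : ℝ → ℝ} {i j l : Fin 3} {p : ℝ × (Fin 3 → ℝ)}
    (h : g p.1 = 0) : mv g ci Q cl i j l p = 0 := by
  funext m
  unfold mv
  simp [h]

theorem mv_eq_zero_of_i {g ci Q cl : ℝ → ℝ} {i j l : Fin 3} {p : ℝ × (Fin 3 → ℝ)}
    (h : p.2 i ∉ tsupport ci) : mv g ci Q cl i j l p = 0 := by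
  have h0 : ci (p.2 i) = 0 := image_eq_zero_of_notMem_tsupport h
  have h1 : deriv ci (p.2 i) = 0 := by
    have : p.2 i ∉ tsupport (deriv ci) := fun hh => h (tsupport_deriv_subset hh)
    exact image_eq_zero_of_notMem_tsupport this
  funext m
  unfold mv
  simp [h0, h1]

theorem mv_eq_zero_of_j {g ci Q cl : ℝ → ℝ} {i j l : Fin 3} {p : ℝ × (Fin 3 → ℝ)}
    (h : p.2 j ∉ tsupport Q) : mv g ci Q cl i j l p = 0 := by
  have h0 : Q (p.2 j) = 0 := image_eq_zero_of_notMem_tsupport h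
  have h1 : deriv Q (p.2 j) = 0 := by
    have : p.2 j ∉ tsupport (deriv Q) := fun hh => h (tsupport_deriv_subset hh)
    exact image_eq_zero_of_notMem_tsupport this
  funext m
  unfold mv
  simp [h0, h1]

theorem mv_eq_zero_of_l {g ci Q cl : ℝ → ℝ} {i j l : Fin 3} {p : ℝ × (Fin 3 → ℝ)}
    (h : p.2 l ∉ tsupport cl) : mv g ci Q cl i j l p = 0 := by
  have h0 : cl (p.2 l) = 0 := image_eq_zero_of_notMem_tsupport h
  funext m
  unfold mv
  simp [h0]

theorem fin3_cover {i j l : Fin 3} (hij : i ≠ j) (hil : i ≠ l) (hjl : j ≠ l) (m : Fin 3) :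
    m = i ∨ m = j ∨ m = l := by
  revert i j l m; decide

theorem hasCompactSupport_mv {g ci Q cl : ℝ → ℝ} (hg : HasCompactSupport g)
    (hci : HasCompactSupport ci) (hQ : HasCompactSupport Q) (hcl : HasCompactSupport cl)
    {i j l : Fin 3} (hij : i ≠ j) (hil : i ≠ l) (hjl : j ≠ l) :
    HasCompactSupport (mv g ci Q cl i j l) := by
  let K : Fin 3 → Set ℝ := fun m => if m = i then tsupport ci else if m = j then tsupport Q
    else tsupport cl
  have hK : ∀ m, IsCompact (K m) := by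
    intro m
    simp only [K]
    split_ifs
    · exact hci
    · exact hQ
    · exact hcl
  apply HasCompactSupport.intro (K := (tsupport g) ×ˢ (Set.univ.pi K))
  · exact IsCompact.prod hg (isCompact_univ_pi hK)
  · intro p hp
    by_cases h1 : p.1 ∈ tsupport g
    · have h2 : p.2 ∉ Set.univ.pi K := fun h => hp ⟨h1, h⟩
      rw [Set.mem_univ_pi] at h2
      push Not at h2
      obtain ⟨m, hm⟩ := h2
      simp only [K] at hm
      rcases fin3_cover hij hil hjl m with rfl | rfl | rfl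
      · rw [if_pos rfl] at hm
        exact mv_eq_zero_of_i hm
      · rw [if_neg hij.symm, if_pos rfl] at hm
        exact mv_eq_zero_of_j hm
      · rw [if_neg hil.symm, if_neg hjl.symm] at hm
        exact mv_eq_zero_of_l hm
    · exact mv_eq_zero_of_time (image_eq_zero_of_notMem_tsupport h1)

theorem fderiv_prod4_single {g f1 f2 f3 : ℝ → ℝ} (hg : ContDiff ℝ ∞ g) (h1 : ContDiff ℝ ∞ f1)
    (h2 : ContDiff ℝ ∞ f2) (h3 : ContDiff ℝ ∞ f3) {i j l : Fin 3} (hij : i ≠ j) (hil : i ≠ l)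
    (hjl : j ≠ l) (p : ℝ × (Fin 3 → ℝ)) :
    fderiv ℝ (fun p : ℝ × (Fin 3 → ℝ) => g p.1 * f1 (p.2 i) * f2 (p.2 j) * f3 (p.2 l)) p
      (0, Pi.single i 1) = g p.1 * deriv f1 (p.2 i) * f2 (p.2 j) * f3 (p.2 l) := by
  have hd : DifferentiableAt ℝ
      (fun p : ℝ × (Fin 3 → ℝ) => g p.1 * f1 (p.2 i) * f2 (p.2 j) * f3 (p.2 l)) p :=
    ((contDiff_prod4 hg h1 h2 h3 i j l).differentiable (by simp)).differentiableAt
  rw [← hd.lineDeriv_eq_fderiv, lineDeriv]
  have : (fun t : ℝ => (fun p : ℝ × (Fin 3 → ℝ) => g p.1 * f1 (p.2 i) * f2 (p.2 j) * f3 (p.2 l))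
      (p + t • ((0 : ℝ), (Pi.single i (1 : ℝ) : Fin 3 → ℝ)))) =
      fun t : ℝ => g p.1 * f1 (p.2 i + t) * f2 (p.2 j) * f3 (p.2 l) := by
    funext t
    simp [Pi.single_eq_of_ne hij.symm, Pi.single_eq_of_ne hil.symm]
  rw [this]
  have hf1 : HasDerivAt f1 (deriv f1 (p.2 i)) (p.2 i + 0) := by
    rw [add_zero]
    exact ((h1.differentiable (by simp)).differentiableAt).hasDerivAt
  have hf2 : HasDerivAt (fun t => f1 (p.2 i + t)) (deriv f1 (p.2 i)) 0 := by
    have := hf1.comp_const_add (p.2 i) 0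
    simpa using this
  have := ((hf2.const_mul (g p.1)).mul_const (f2 (p.2 j))).mul_const (f3 (p.2 l))
  simpa using this.deriv

theorem spaceDiv_mv {g ci Q cl : ℝ → ℝ} (hg : ContDiff ℝ ∞ g) (hci : ContDiff ℝ ∞ ci)
    (hQ : ContDiff ℝ ∞ Q) (hcl : ContDiff ℝ ∞ cl) {i j l : Fin 3}
    (hij : i ≠ j) (hil : i ≠ l) (hjl : j ≠ l) (p : ℝ × (Fin 3 → ℝ)) :
    spaceDiv (mv g ci Q cl i j l) p = 0 := by
  unfold spaceDiv
  have hU : DifferentiableAt ℝ (mv g ci Q cl i j l) p :=
    ((contDiff_mv hg hci hQ hcl i j l).differentiable (by simp)).differentiableAt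
  have key : ∀ m, fderiv ℝ (mv g ci Q cl i j l) p (0, Pi.single m 1) m =
      fderiv ℝ (fun p => mv g ci Q cl i j l p m) p (0, Pi.single m 1) := by
    intro m
    rw [fderiv_apply hU m]
    rfl
  simp only [key]
  have hsum : ∀ f : Fin 3 → ℝ, ∑ m, f m = f i + f j + f l := by
    intro f
    have : (Finset.univ : Finset (Fin 3)) = {i, j, l} := by
      ext m
      simp [fin3_cover hij hil hjl m]
    rw [this, Finset.sum_insert (by simp [hij, hil]), Finset.sum_insert (by simp [hjl]),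
      Finset.sum_singleton]
    ring
  rw [hsum]
  have e1 : (fun p => mv g ci Q cl i j l p i) =
      fun p : ℝ × (Fin 3 → ℝ) => g p.1 * ci (p.2 i) * deriv Q (p.2 j) * cl (p.2 l) := by
    funext p
    simp [mv]
  have e2 : (fun p => mv g ci Q cl i j l p j) =
      fun p : ℝ × (Fin 3 → ℝ) => -(g p.1 * Q (p.2 j) * deriv ci (p.2 i) * cl (p.2 l)) := by
    funext p
    simp only [mv, if_neg hij.symm, if_true]
    ring
  have e3 : (fun p => mv g ci Q cl i j l p l) = fun p : ℝ × (Fin 3 → ℝ) => 0 := by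
    funext p
    simp [mv, hil.symm, hjl.symm]
  rw [e1, e2, e3, fderiv_prod4_single hg hci (contDiff_deriv' hQ) hcl hij hil hjl p]
  rw [fderiv_fun_neg]
  rw [neg_apply]
  rw [fderiv_prod4_single hg hQ (contDiff_deriv' hci) hcl hij.symm hjl hil p]
  simp
  ring

/-- Integral curves of the elementary move. -/
theorem hasDerivAt_mv_curve {g s ci Q cl : ℝ → ℝ} {i j l : Fin 3} (hij : i ≠ j) (hil : i ≠ l)
    (hjl : j ≠ l)
    (hs : ∀ t, HasDerivAt s (g t) t) (x : Fin 3 → ℝ)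
    (h1 : ∀ t, ci (x i + s t * deriv Q (x j)) = 1)
    (h1' : ∀ t, deriv ci (x i + s t * deriv Q (x j)) = 0)
    (h3 : cl (x l) = 1) (t : ℝ) :
    HasDerivAt (fun t => Function.update x i (x i + s t * deriv Q (x j)))
      (mv g ci Q cl i j l (t, Function.update x i (x i + s t * deriv Q (x j)))) t := by
  rw [hasDerivAt_pi]
  intro m
  unfold mv
  by_cases hm : m = i
  · subst hm
    simp only [Function.update_self, if_true, Function.update_of_ne hij.symm,
      Function.update_of_ne hil.symm, h1, h3, mul_one]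
    simpa using ((hs t).mul_const (deriv Q (x j))).const_add (x m)
  · simp only [Function.update_of_ne hm, hm, if_false]
    by_cases hm2 : m = j
    · subst hm2
      simp only [if_true, Function.update_self, h1', mul_zero, zero_mul, neg_zero]
      exact hasDerivAt_const _ _
    · simp only [hm2, if_false]
      exact hasDerivAt_const _ _

end Crest.Agent.S0170.Move
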