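import Mathlib
import Crest.Agent.S0170_Defs
import Crest.Agent.S0170_Rat
import Crest.Agent.Lib.CompRat

/-! S0170: the Fabius function as an effective smooth step. -/

set_option autoImplicit false

open scoped ContDiff Interval BoundedContinuousFunction
open MeasureTheory Set

namespace Crest.Agent.S0170.Step

/-- candidate functions -/
def X : Set (ℝ →ᵇ ℝ) :=
  {f | (∀ x ≤ 0, f x = 0) ∧ (∀ x, 1 ≤ x → f x = 1) ∧ ∀ x y, x ≤ y → f x ≤ f y}

theorem isClosed_X : IsClosed X := by
  have h1 : IsClosed {f : ℝ →ᵇ ℝ | ∀ x ≤ 0, f x = 0} := by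
    simp only [ofPred_forall]
    refine isClosed_iInter fun x => isClosed_iInter fun _ => ?_
    exact isClosed_eq (continuous_eval_const _) continuous_const
  have h2 : IsClosed {f : ℝ →ᵇ ℝ | ∀ x, 1 ≤ x → f x = 1} := by
    simp only [ofPred_forall]
    refine isClosed_iInter fun x => isClosed_iInter fun _ => ?_
    exact isClosed_eq (continuous_eval_const _) continuous_const
  have h3 : IsClosed {f : ℝ →ᵇ ℝ | ∀ x y, x ≤ y → f x ≤ f y} := by
    simp only [ofPred_forall]
    refine isClosed_iInter fun x => isClosed_iInter fun y => isClosed_iInter fun _ => ?_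
    exact isClosed_le (continuous_eval_const _)
      (continuous_eval_const _)
  exact h1.inter (h2.inter h3)

theorem ii (f : ℝ →ᵇ ℝ) (a b : ℝ) : IntervalIntegrable f volume a b :=
  f.continuous.intervalIntegrable a b

theorem shift_integral (f : ℝ → ℝ) (x : ℝ) :
    ∫ u in (2 * x - 1)..(2 * x), f u = ∫ v in (0 : ℝ)..1, f (2 * x - 1 + v) := by
  rw [intervalIntegral.integral_comp_add_left (fun u => f u) (2 * x - 1)]
  congr 1 <;> ring

/-- the averaging operator -/
noncomputable def T (f : ℝ →ᵇ ℝ) : ℝ →ᵇ ℝ :=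
  BoundedContinuousFunction.ofNormedAddCommGroup
    (fun x => ∫ u in (2 * x - 1)..(2 * x), f u)
    (by
      have h : ∀ x : ℝ, ∫ u in (2 * x - 1)..(2 * x), f u =
          (∫ u in (0 : ℝ)..(2 * x), f u) - ∫ u in (0 : ℝ)..(2 * x - 1), f u := by
        intro x
        rw [intervalIntegral.integral_interval_sub_left (ii f _ _) (ii f _ _)]
      simp_rw [h]
      have hp : Continuous fun b : ℝ => ∫ u in (0 : ℝ)..b, f u :=
        intervalIntegral.continuous_primitive (fun a b => ii f a b) 0
      exact (hp.comp (by fun_prop)).sub (hp.comp (by fun_prop)))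
    ‖f‖
    (by
      intro x
      have := intervalIntegral.norm_integral_le_of_norm_le_const (a := 2 * x - 1) (b := 2 * x)
        (f := f) (C := ‖f‖) (fun y _ => f.norm_coe_le_norm y)
      simpa using this)

theorem T_apply (f : ℝ →ᵇ ℝ) (x : ℝ) : T f x = ∫ u in (2 * x - 1)..(2 * x), f u := rfl

theorem T_mem {f : ℝ →ᵇ ℝ} (hf : f ∈ X) : T f ∈ X := by
  obtain ⟨h0, h1, hm⟩ := hf
  refine ⟨?_, ?_, ?_⟩
  · intro x hx
    rw [T_apply]
    rw [intervalIntegral.integral_congr (g := fun _ => (0 : ℝ))]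
    · simp
    · intro u hu
      rw [uIcc_of_le (by linarith)] at hu
      exact h0 u (by linarith [hu.2])
  · intro x hx
    rw [T_apply]
    rw [intervalIntegral.integral_congr (g := fun _ => (1 : ℝ))]
    · simp
    · intro u hu
      rw [uIcc_of_le (by linarith)] at hu
      exact h1 u (by linarith [hu.1])
  · intro x y hxy
    rw [T_apply, T_apply, shift_integral, shift_integral]
    apply intervalIntegral.integral_mono_on zero_le_one
    · exact (f.continuous.comp (by fun_prop)).intervalIntegrable _ _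
    · exact (f.continuous.comp (by fun_prop)).intervalIntegrable _ _
    · intro v _
      exact hm _ _ (by linarith)

theorem T_sub (f g : ℝ →ᵇ ℝ) (x : ℝ) : T f x - T g x = ∫ u in (2 * x - 1)..(2 * x), (f u - g u) := by
  rw [T_apply, T_apply, intervalIntegral.integral_sub (ii f _ _) (ii g _ _)]

theorem key1 {f g : ℝ →ᵇ ℝ} (hf : f ∈ X) (hg : g ∈ X) {u : ℝ} (hu0 : 0 ≤ u) (hu1 : u ≤ 1) :
    |T f u - T g u| ≤ dist f g * (4 * u * (1 - u)) := by
  have hd : ∀ x, |f x - g x| ≤ dist f g := fun x => by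
    have := BoundedContinuousFunction.dist_coe_le_dist (f := f) (g := g) x
    rwa [Real.dist_eq] at this
  have hd0 : 0 ≤ dist f g := dist_nonneg
  have hi : ∀ a b, IntervalIntegrable (fun u => f u - g u) volume a b := fun a b =>
    (ii f a b).sub (ii g a b)
  rw [T_sub]
  rcases le_total u (1 / 2) with h | h
  · rw [← intervalIntegral.integral_add_adjacent_intervals (hi (2 * u - 1) 0) (hi 0 (2 * u))]
    have e0 : ∫ x in (2 * u - 1)..0, (f x - g x) = 0 := by
      rw [intervalIntegral.integral_congr (g := fun _ => (0 : ℝ))]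
      · simp
      · intro x hx
        rw [uIcc_of_le (by linarith)] at hx
        simp [hf.1 x hx.2, hg.1 x hx.2]
    rw [e0, zero_add]
    have := intervalIntegral.norm_integral_le_of_norm_le_const (a := 0) (b := 2 * u)
        (f := fun x => f x - g x) (C := dist f g) (fun y _ => hd y)
    rw [Real.norm_eq_abs] at this
    refine this.trans ?_
    rw [sub_zero, abs_of_nonneg (by linarith)]
    apply mul_le_mul_of_nonneg_left _ hd0
    nlinarith
  · rw [← intervalIntegral.integral_add_adjacent_intervals (hi (2 * u - 1) 1) (hi 1 (2 * u))]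
    have e0 : ∫ x in (1 : ℝ)..(2 * u), (f x - g x) = 0 := by
      rw [intervalIntegral.integral_congr (g := fun _ => (0 : ℝ))]
      · simp
      · intro x hx
        rw [uIcc_of_le (by linarith)] at hx
        simp [hf.2.1 x hx.1, hg.2.1 x hx.1]
    rw [e0, add_zero]
    have := intervalIntegral.norm_integral_le_of_norm_le_const (a := 2 * u - 1) (b := 1)
        (f := fun x => f x - g x) (C := dist f g) (fun y _ => hd y)
    rw [Real.norm_eq_abs] at this
    refine this.trans ?_
    rw [abs_of_nonneg (by linarith)]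
    apply mul_le_mul_of_nonneg_left _ hd0
    nlinarith

theorem key2 {f g : ℝ →ᵇ ℝ} (hf : f ∈ X) (hg : g ∈ X) (x : ℝ) :
    |T (T f) x - T (T g) x| ≤ (2 / 3) * dist f g := by
  have hd0 : 0 ≤ dist f g := dist_nonneg
  have hTf := T_mem hf
  have hTg := T_mem hg
  have hi : ∀ a b, IntervalIntegrable (fun u => T f u - T g u) volume a b := fun a b =>
    (ii _ a b).sub (ii _ a b)
  -- bound on subintervals of [0,1]
  have hsub : ∀ a b, 0 ≤ a → a ≤ b → b ≤ 1 →
      |∫ u in a..b, (T f u - T g u)| ≤ (2 / 3) * dist f g := by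
    intro a b ha hab hb
    have h1 : |∫ u in a..b, (T f u - T g u)| ≤ ∫ u in a..b, dist f g * (4 * u * (1 - u)) := by
      have := intervalIntegral.norm_integral_le_of_norm_le (μ := volume) (a := a) (b := b) hab
        (f := fun u => T f u - T g u) (g := fun u => dist f g * (4 * u * (1 - u)))
        (by
          refine Filter.Eventually.of_forall ?_
          intro t ht
          exact key1 hf hg (by linarith [ht.1]) (by linarith [ht.2]))
        (Continuous.intervalIntegrable (by fun_prop) _ _)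
      simpa [Real.norm_eq_abs] using this
    refine h1.trans ?_
    have h2 : ∫ u in a..b, dist f g * (4 * u * (1 - u)) =
        dist f g * ((2 * b ^ 2 - 4 / 3 * b ^ 3) - (2 * a ^ 2 - 4 / 3 * a ^ 3)) := by
      rw [intervalIntegral.integral_const_mul]
      congr 1
      have hderiv : ∀ u ∈ uIcc a b, HasDerivAt (fun u : ℝ => 2 * u ^ 2 - 4 / 3 * u ^ 3)
          (4 * u * (1 - u)) u := by
        intro u _
        have := ((hasDerivAt_pow 2 u).const_mul 2).sub ((hasDerivAt_pow 3 u).const_mul (4 / 3))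
        refine this.congr_deriv ?_
        norm_num
        ring
      rw [intervalIntegral.integral_eq_sub_of_hasDerivAt hderiv
        (Continuous.intervalIntegrable (by fun_prop) _ _)]
    rw [h2]
    have h3 : (2 * b ^ 2 - 4 / 3 * b ^ 3) ≤ 2 / 3 := by nlinarith [sq_nonneg (b - 1), sq_nonneg b]
    have h4 : 0 ≤ (2 * a ^ 2 - 4 / 3 * a ^ 3) := by nlinarith [sq_nonneg a, mul_nonneg (sq_nonneg a) ha]
    nlinarith
  rw [T_sub]
  rcases le_total x 0 with h | h
  · have e0 : ∫ x in (2 * x - 1)..(2 * x), (T f x - T g x) = 0 := by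
      rw [intervalIntegral.integral_congr (g := fun _ => (0 : ℝ))]
      · simp
      · intro y hy
        rw [uIcc_of_le (by linarith)] at hy
        simp [hTf.1 y (by linarith [hy.2]), hTg.1 y (by linarith [hy.2])]
    rw [e0, abs_zero]
    positivity
  rcases le_total 1 x with h' | h'
  · have e0 : ∫ x in (2 * x - 1)..(2 * x), (T f x - T g x) = 0 := by
      rw [intervalIntegral.integral_congr (g := fun _ => (0 : ℝ))]
      · simp
      · intro y hy
        rw [uIcc_of_le (by linarith)] at hy
        simp [hTf.2.1 y (by linarith [hy.1]), hTg.2.1 y (by linarith [hy.1])]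
    rw [e0, abs_zero]
    positivity
  rcases le_total x (1 / 2) with h2 | h2
  · rw [← intervalIntegral.integral_add_adjacent_intervals (hi (2 * x - 1) 0) (hi 0 (2 * x))]
    have e0 : ∫ y in (2 * x - 1)..0, (T f y - T g y) = 0 := by
      rw [intervalIntegral.integral_congr (g := fun _ => (0 : ℝ))]
      · simp
      · intro y hy
        rw [uIcc_of_le (by linarith)] at hy
        simp [hTf.1 y hy.2, hTg.1 y hy.2]
    rw [e0, zero_add]
    exact hsub _ _ le_rfl (by linarith) (by linarith)
  · rw [← intervalIntegral.integral_add_adjacent_intervals (hi (2 * x - 1) 1) (hi 1 (2 * x))]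
    have e0 : ∫ y in (1 : ℝ)..(2 * x), (T f y - T g y) = 0 := by
      rw [intervalIntegral.integral_congr (g := fun _ => (0 : ℝ))]
      · simp
      · intro y hy
        rw [uIcc_of_le (by linarith)] at hy
        simp [hTf.2.1 y hy.1, hTg.2.1 y hy.1]
    rw [e0, add_zero]
    exact hsub _ _ (by linarith) (by linarith) le_rfl

/-- operator on the subtype -/
noncomputable def TX (f : X) : X := ⟨T f, T_mem f.2⟩

theorem contracting : ContractingWith (2 / 3) (TX^[2]) := by
  refine ⟨?_, ?_⟩
  · rw [← NNReal.coe_lt_coe]; push_cast; norm_num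
  · refine LipschitzWith.of_dist_le_mul ?_
    intro f g
    have : dist (T (T f.1)) (T (T g.1)) ≤ (2 / 3) * dist f.1 g.1 := by
      rw [BoundedContinuousFunction.dist_le (by positivity)]
      intro x
      rw [Real.dist_eq]
      exact key2 f.2 g.2 x
    simpa [TX, Subtype.dist_eq] using this

theorem X_nonempty : Nonempty X := by
  refine ⟨⟨BoundedContinuousFunction.ofNormedAddCommGroup (fun x : ℝ => max 0 (min x 1))
    (by fun_prop) 1 ?_, ?_, ?_, ?_⟩⟩
  · intro x
    rw [Real.norm_eq_abs, abs_of_nonneg (le_max_left _ _)]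
    exact max_le (by norm_num) (min_le_right _ _)
  · intro x hx
    show max 0 (min x 1) = 0
    rw [max_eq_left]
    exact (min_le_left _ _).trans hx
  · intro x hx
    show max 0 (min x 1) = 1
    rw [min_eq_right hx]
    norm_num
  · intro x y hxy
    show max 0 (min x 1) ≤ max 0 (min y 1)
    exact max_le_max le_rfl (min_le_min hxy le_rfl)

theorem exists_fabius : ∃ F : ℝ → ℝ, Continuous F ∧ (∀ x ≤ 0, F x = 0) ∧ (∀ x, 1 ≤ x → F x = 1) ∧
    Monotone F ∧ ∀ x, F x = ∫ u in (2 * x - 1)..(2 * x), F u := by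
  have : CompleteSpace X := isClosed_X.completeSpace_coe
  have := X_nonempty
  have h := contracting.isFixedPt_fixedPoint_iterate
  set p := contracting.fixedPoint (TX^[2]) with hp
  refine ⟨p.1, p.1.continuous, p.2.1, p.2.2.1, fun x y hxy => p.2.2.2 x y hxy, fun x => ?_⟩
  have h2 : (TX p).1 x = p.1 x := by rw [h]
  rw [← h2]
  rfl

/-- properties of the Fabius function -/
structure IsFab (F : ℝ → ℝ) : Prop where
  cont : Continuous F
  zero : ∀ x ≤ 0, F x = 0
  one : ∀ x, 1 ≤ x → F x = 1
  mono : Monotone F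
  eq : ∀ x, F x = ∫ u in (2 * x - 1)..(2 * x), F u

theorem exists_isFab : ∃ F : ℝ → ℝ, IsFab F := by
  obtain ⟨F, h1, h2, h3, h4, h5⟩ := exists_fabius
  exact ⟨F, h1, h2, h3, h4, h5⟩

variable {F : ℝ → ℝ}

theorem IsFab.nonneg (h : IsFab F) (x : ℝ) : 0 ≤ F x := by
  have h1 := h.mono (min_le_left x 0)
  rwa [h.zero _ (min_le_right x 0)] at h1

theorem IsFab.le_one (h : IsFab F) (x : ℝ) : F x ≤ 1 := by
  have h1 := h.mono (le_max_left x 1)
  rwa [h.one _ (le_max_right x 1)] at h1

theorem IsFab.hasDerivAt (h : IsFab F) (x : ℝ) :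
    HasDerivAt F (2 * (F (2 * x) - F (2 * x - 1))) x := by
  have hi : ∀ a b, IntervalIntegrable F volume a b := fun a b => h.cont.intervalIntegrable a b
  have hG : ∀ y, HasDerivAt (fun y => ∫ u in (0 : ℝ)..y, F u) (F y) y := fun y =>
    h.cont.integral_hasStrictDerivAt 0 y |>.hasDerivAt
  have hF : F = fun x => (∫ u in (0 : ℝ)..(2 * x), F u) - ∫ u in (0 : ℝ)..(2 * x - 1), F u := by
    funext x
    rw [intervalIntegral.integral_interval_sub_left (hi _ _) (hi _ _)]
    exact h.eq x
  have h1 : HasDerivAt (fun x : ℝ => 2 * x) 2 x := by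
    simpa using (hasDerivAt_id x).const_mul 2
  have h2 : HasDerivAt (fun x : ℝ => 2 * x - 1) 2 x := h1.sub_const 1
  have h3 := ((hG (2 * x)).comp x h1).sub ((hG (2 * x - 1)).comp x h2)
  have h4 : F (2 * x) * 2 - F (2 * x - 1) * 2 = 2 * (F (2 * x) - F (2 * x - 1)) := by ring
  rw [← h4]
  exact h3.congr_of_eventuallyEq (Filter.Eventually.of_forall fun y => congrFun hF y)

theorem IsFab.deriv (h : IsFab F) : deriv F = fun x => 2 * (F (2 * x) - F (2 * x - 1)) := by
  funext x
  exact (h.hasDerivAt x).deriv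

theorem IsFab.contDiff_nat (h : IsFab F) (n : ℕ) : ContDiff ℝ n F := by
  induction n with
  | zero => exact contDiff_zero.2 h.cont
  | succ n ih =>
    have : ((n + 1 : ℕ) : WithTop ℕ∞) = (n : WithTop ℕ∞) + 1 := by push_cast; rfl
    rw [this, contDiff_succ_iff_deriv]
    refine ⟨fun x => (h.hasDerivAt x).differentiableAt, fun hh => ?_, ?_⟩
    · exact absurd hh (by simp)
    · rw [h.deriv]
      exact contDiff_const.mul ((ih.comp (contDiff_const.mul contDiff_id)).sub
        (ih.comp ((contDiff_const.mul contDiff_id).sub contDiff_const)))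

theorem IsFab.contDiff (h : IsFab F) : ContDiff ℝ ∞ F :=
  contDiff_infty.2 h.contDiff_nat

theorem IsFab.iter_differentiable (h : IsFab F) (m : ℕ) :
    Differentiable ℝ (iteratedDeriv m F) := by
  apply h.contDiff.differentiable_iteratedDeriv
  exact WithTop.coe_lt_coe.2 (ENat.natCast_lt_top m)

theorem IsFab.iter_succ (h : IsFab F) (m : ℕ) (x : ℝ) :
    iteratedDeriv (m + 1) F x =
      2 ^ (m + 1) * (iteratedDeriv m F (2 * x) - iteratedDeriv m F (2 * x - 1)) := by
  induction m generalizing x with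
  | zero =>
    rw [iteratedDeriv_succ, iteratedDeriv_zero, h.deriv]
    norm_num
  | succ m ih =>
    rw [iteratedDeriv_succ]
    have hfun : iteratedDeriv (m + 1) F = fun x => 2 ^ (m + 1) *
        (iteratedDeriv m F (2 * x) - iteratedDeriv m F (2 * x - 1)) := funext ih
    have hd : ∀ y, HasDerivAt (iteratedDeriv m F) (iteratedDeriv (m + 1) F y) y := by
      intro y
      rw [iteratedDeriv_succ]
      exact (h.iter_differentiable m y).hasDerivAt
    have h1 : HasDerivAt (fun x : ℝ => 2 * x) 2 x := by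
      simpa using (hasDerivAt_id x).const_mul 2
    have h2 : HasDerivAt (fun x : ℝ => 2 * x - 1) 2 x := h1.sub_const 1
    have h3 := (((hd (2 * x)).comp x h1).sub ((hd (2 * x - 1)).comp x h2)).const_mul
      ((2 : ℝ) ^ (m + 1))
    have h4 : _root_.deriv (iteratedDeriv (m + 1) F) x = 2 ^ (m + 1) *
        (iteratedDeriv (m + 1) F (2 * x) * 2 - iteratedDeriv (m + 1) F (2 * x - 1) * 2) := by
      conv_lhs => rw [hfun]
      exact h3.deriv
    rw [h4]
    ring

theorem IsFab.iter_bound (h : IsFab F) (m : ℕ) (x : ℝ) :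
    |iteratedDeriv m F x| ≤ ((2 ^ ((m + 1) ^ 2) : ℕ) : ℝ) := by
  induction m generalizing x with
  | zero =>
    rw [iteratedDeriv_zero, abs_of_nonneg (h.nonneg x)]
    refine (h.le_one x).trans ?_
    norm_num
  | succ m ih =>
    rw [h.iter_succ, abs_mul]
    have h1 := ih (2 * x)
    have h2 := ih (2 * x - 1)
    have h3 : |iteratedDeriv m F (2 * x) - iteratedDeriv m F (2 * x - 1)| ≤
        2 * ((2 ^ ((m + 1) ^ 2) : ℕ) : ℝ) := by
      refine (abs_sub _ _).trans ?_
      linarith
    rw [abs_of_nonneg (by positivity)]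
    calc (2 : ℝ) ^ (m + 1) * |iteratedDeriv m F (2 * x) - iteratedDeriv m F (2 * x - 1)|
        ≤ 2 ^ (m + 1) * (2 * ((2 ^ ((m + 1) ^ 2) : ℕ) : ℝ)) := by
          apply mul_le_mul_of_nonneg_left h3 (by positivity)
      _ = 2 ^ (m + 1 + 1 + (m + 1) ^ 2) := by push_cast; ring
      _ ≤ ((2 ^ ((m + 1 + 1) ^ 2) : ℕ) : ℝ) := by
          push_cast
          apply pow_le_pow_right₀ (by norm_num)
          nlinarith

/-- Thue–Morse sign -/
def sg (m c : ℕ) : ℚ := ∏ i ∈ Finset.range m, (1 - 2 * ((c / 2 ^ i % 2 : ℕ) : ℚ))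

theorem sg_succ_low {m c : ℕ} (hc : c < 2 ^ m) : sg (m + 1) c = sg m c := by
  unfold sg
  rw [Finset.prod_range_succ, Nat.div_eq_of_lt hc]
  simp

theorem sg_succ_high {m c : ℕ} (hc : c < 2 ^ m) : sg (m + 1) (2 ^ m + c) = - sg m c := by
  unfold sg
  rw [Finset.prod_range_succ]
  have h1 : (2 ^ m + c) / 2 ^ m = 1 := by
    rw [Nat.add_div_of_dvd_right (dvd_refl _), Nat.div_self (by positivity), Nat.div_eq_of_lt hc]
  have h2 : ∀ i ∈ Finset.range m, (2 ^ m + c) / 2 ^ i % 2 = c / 2 ^ i % 2 := by
    intro i hi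
    rw [Finset.mem_range] at hi
    obtain ⟨k, rfl⟩ := Nat.exists_eq_add_of_lt hi
    have : 2 ^ (i + k + 1) = 2 ^ i * (2 ^ k * 2) := by ring
    rw [this, Nat.mul_add_div (by positivity)]
    omega
  rw [Finset.prod_congr rfl (fun i hi => by rw [h2 i hi]), h1]
  norm_num

theorem IsFab.iter_formula (h : IsFab F) (m : ℕ) (x : ℝ) :
    iteratedDeriv m F x = ((2 ^ ((m + 1) * m / 2) : ℕ) : ℝ) *
      ∑ c ∈ Finset.range (2 ^ m), ((sg m c : ℚ) : ℝ) * F (2 ^ m * x - c) := by
  induction m generalizing x with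
  | zero =>
    simp [sg]
  | succ m ih =>
    rw [h.iter_succ, ih, ih]
    have hco : ((m + 1 + 1) * (m + 1) / 2) = (m + 1) * m / 2 + (m + 1) := by
      have := Nat.triangle_succ (m + 1)
      simpa using this
    have hr : Finset.range (2 ^ (m + 1)) = Finset.range (2 ^ m + 2 ^ m) := by
      congr 1
      ring
    rw [hco, hr, Finset.sum_range_add]
    have e1 : ∑ c ∈ Finset.range (2 ^ m), ((sg (m + 1) c : ℚ) : ℝ) *
        F ((2 : ℝ) ^ (m + 1) * x - c) =
        ∑ c ∈ Finset.range (2 ^ m), ((sg m c : ℚ) : ℝ) * F (2 ^ m * (2 * x) - c) := by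
      refine Finset.sum_congr rfl fun c hc => ?_
      rw [Finset.mem_range] at hc
      rw [sg_succ_low hc]
      congr 2
      ring
    have e2 : ∑ c ∈ Finset.range (2 ^ m), ((sg (m + 1) (2 ^ m + c) : ℚ) : ℝ) *
        F ((2 : ℝ) ^ (m + 1) * x - ((2 ^ m + c : ℕ) : ℝ)) =
        - ∑ c ∈ Finset.range (2 ^ m), ((sg m c : ℚ) : ℝ) * F (2 ^ m * (2 * x - 1) - c) := by
      rw [← Finset.sum_neg_distrib]
      refine Finset.sum_congr rfl fun c hc => ?_
      rw [Finset.mem_range] at hc
      rw [sg_succ_high hc]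
      push_cast
      rw [neg_mul]
      congr 3
      ring
    rw [e1, e2]
    push_cast
    ring

/-! ### Approximation of the Fabius function at rational points -/

/-- value encoded by the base-`M` digits of `c` -/
def D (M K c : ℕ) : ℚ := ∑ k ∈ Finset.range K, ((c / M ^ k % M : ℕ) : ℚ) / ((M : ℚ) * 2 ^ (k + 1))

/-- rational approximation -/
def AQ (M K : ℕ) (q : ℚ) : ℚ :=
  (∑ c ∈ Finset.range (M ^ K), if D M K c ≤ q then (1 : ℚ) else 0) / (M : ℚ) ^ K

theorem D_succ {M K j c : ℕ} (hj : j < M) :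
    D M (K + 1) (j + M * c) = (j : ℚ) / (M * 2) + D M K c / 2 := by
  have hM : 0 < M := by omega
  unfold D
  rw [Finset.sum_range_succ']
  have h0 : (j + M * c) / M ^ 0 % M = j := by
    simp [Nat.add_mul_mod_self_left, Nat.mod_eq_of_lt hj]
  have h1 : ∀ k ∈ Finset.range K, (((j + M * c) / M ^ (k + 1) % M : ℕ) : ℚ) /
      ((M : ℚ) * 2 ^ (k + 1 + 1)) = (((c / M ^ k % M : ℕ) : ℚ) / ((M : ℚ) * 2 ^ (k + 1))) / 2 := by
    intro k _
    have : (j + M * c) / M ^ (k + 1) = c / M ^ k := by
      rw [pow_succ', ← Nat.div_div_eq_div_mul, Nat.add_mul_div_left _ _ hM,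
        Nat.div_eq_of_lt hj, zero_add]
    rw [this, div_div]
    congr 1
    ring
  rw [Finset.sum_congr rfl h1, h0, Finset.sum_div]
  simp only [zero_add, pow_one]
  ring

theorem sum_range_mul' (f : ℕ → ℚ) (M N : ℕ) :
    ∑ c ∈ Finset.range (M * N), f c = ∑ c ∈ Finset.range N, ∑ j ∈ Finset.range M, f (j + M * c) := by
  induction N with
  | zero => simp
  | succ N ih =>
    rw [Nat.mul_succ, Finset.sum_range_add, ih, Finset.sum_range_succ]
    congr 1
    refine Finset.sum_congr rfl fun j _ => ?_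
    rw [add_comm]

theorem AQ_zero (M : ℕ) (q : ℚ) : AQ M 0 q = if 0 ≤ q then 1 else 0 := by
  have : D M 0 0 = 0 := by simp [D]
  unfold AQ
  rw [pow_zero, pow_zero, Finset.range_one, Finset.sum_singleton, div_one, this]

theorem AQ_succ {M : ℕ} (hM : 0 < M) (K : ℕ) (q : ℚ) :
    AQ M (K + 1) q = (∑ j ∈ Finset.range M, AQ M K (2 * q - j / M)) / M := by
  have hM' : (0 : ℚ) < M := by exact_mod_cast hM
  unfold AQ
  rw [pow_succ' M K, sum_range_mul', Finset.sum_comm, ← Finset.sum_div, div_div, ← pow_succ]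
  congr 1
  refine Finset.sum_congr rfl fun j hj => ?_
  rw [Finset.mem_range] at hj
  refine Finset.sum_congr rfl fun c _ => ?_
  rw [D_succ hj]
  have : ((j : ℚ) / (M * 2) + D M K c / 2 ≤ q) ↔ (D M K c ≤ 2 * q - j / M) := by
    have e : (j : ℚ) / (M * 2) = (j / M) / 2 := by rw [div_div]
    rw [e]
    constructor <;> intro h <;> linarith
  simp only [this]

theorem IsFab.eq' (h : IsFab F) (x : ℝ) : F x = ∫ v in (0 : ℝ)..1, F (2 * x - v) := by
  rw [h.eq x]
  rw [intervalIntegral.integral_comp_sub_left (fun u => F u) (2 * x)]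
  simp

theorem int_split {g : ℝ → ℝ} (hg : Continuous g) {M : ℕ} (hM : 0 < M) :
    ∫ v in (0 : ℝ)..1, g v = ∑ j ∈ Finset.range M, ∫ v in ((j : ℝ) / M)..(((j + 1 : ℕ) : ℝ) / M), g v := by
  have := intervalIntegral.sum_integral_adjacent_intervals (f := g) (μ := volume)
    (a := fun j : ℕ => (j : ℝ) / M) (n := M) (fun k _ => hg.intervalIntegrable _ _)
  rw [this]
  have hM' : (M : ℝ) ≠ 0 := by positivity
  simp [hM']

theorem IsFab.AQ_bounds (h : IsFab F) {M : ℕ} (hM : 0 < M) (K : ℕ) (q : ℚ) :
    F ((q : ℝ) - (1 / 2 ^ K + 1 / M)) ≤ (AQ M K q : ℝ) ∧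
      (AQ M K q : ℝ) ≤ F ((q : ℝ) + (1 / 2 ^ K + 1 / M)) := by
  have hM' : (0 : ℝ) < M := by exact_mod_cast hM
  induction K generalizing q with
  | zero =>
    rw [AQ_zero]
    have hinv : (0 : ℝ) < 1 / M := by positivity
    split_ifs with hq
    · have hq' : (0 : ℝ) ≤ q := by exact_mod_cast hq
      constructor
      · simpa using h.le_one _
      · rw [h.one]
        · simp
        · norm_num
          have : (0 : ℝ) < (M : ℝ)⁻¹ := by positivity
          linarith
    · have hq' : (q : ℝ) < 0 := by exact_mod_cast (not_le.1 hq)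
      constructor
      · rw [h.zero]
        · simp
        · norm_num
          have : (0 : ℝ) < (M : ℝ)⁻¹ := by positivity
          linarith
      · simpa using h.nonneg _
  | succ K ih =>
    rw [AQ_succ hM]
    push_cast
    set e : ℝ := 1 / 2 ^ K + 1 / M with he
    have he' : 2 * (1 / 2 ^ (K + 1) + 1 / (M : ℝ)) = e + 1 / M := by
      rw [he, pow_succ]
      field_simp
      ring
    have hlen : ∀ j : ℕ, (((j + 1 : ℕ) : ℝ) / M) - (j : ℝ) / M = 1 / M := by
      intro j
      push_cast
      field_simp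
      ring
    have hle : ∀ j : ℕ, (j : ℝ) / M ≤ ((j + 1 : ℕ) : ℝ) / M := by
      intro j
      have := hlen j
      have h2 : (0 : ℝ) < 1 / M := by positivity
      linarith
    constructor
    · rw [h.eq' ((q : ℝ) - (1 / 2 ^ (K + 1) + 1 / M))]
      rw [int_split (g := fun v => F (2 * ((q : ℝ) - (1 / 2 ^ (K + 1) + 1 / M)) - v))
        (h.cont.comp (by fun_prop)) hM, Finset.sum_div]
      refine Finset.sum_le_sum fun j _ => ?_
      have h1 := (ih (2 * q - j / M)).1
      have h2 : ∫ v in ((j : ℝ) / M)..(((j + 1 : ℕ) : ℝ) / M),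
          F (2 * ((q : ℝ) - (1 / 2 ^ (K + 1) + 1 / M)) - v) ≤
          ∫ v in ((j : ℝ) / M)..(((j + 1 : ℕ) : ℝ) / M),
            F ((((2 * q - j / M : ℚ)) : ℝ) - e) := by
        apply intervalIntegral.integral_mono_on (hle j)
        · exact (h.cont.comp (by fun_prop)).intervalIntegrable _ _
        · exact continuous_const.intervalIntegrable _ _
        · intro v hv
          apply h.mono
          push_cast
          have h3 := hv.1
          have h4 : (0 : ℝ) < 1 / M := by positivity
          nlinarith [he']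
      refine h2.trans ?_
      rw [intervalIntegral.integral_const, hlen, smul_eq_mul, one_div, mul_comm (M : ℝ)⁻¹,
        ← div_eq_mul_inv]
      apply div_le_div_of_nonneg_right h1 hM'.le
    · rw [h.eq' ((q : ℝ) + (1 / 2 ^ (K + 1) + 1 / M))]
      rw [int_split (g := fun v => F (2 * ((q : ℝ) + (1 / 2 ^ (K + 1) + 1 / M)) - v))
        (h.cont.comp (by fun_prop)) hM, Finset.sum_div]
      refine Finset.sum_le_sum fun j _ => ?_
      have h1 := (ih (2 * q - j / M)).2
      have h2 : ∫ v in ((j : ℝ) / M)..(((j + 1 : ℕ) : ℝ) / M),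
            F ((((2 * q - j / M : ℚ)) : ℝ) + e) ≤
          ∫ v in ((j : ℝ) / M)..(((j + 1 : ℕ) : ℝ) / M),
          F (2 * ((q : ℝ) + (1 / 2 ^ (K + 1) + 1 / M)) - v) := by
        apply intervalIntegral.integral_mono_on (hle j)
        · exact continuous_const.intervalIntegrable _ _
        · exact (h.cont.comp (by fun_prop)).intervalIntegrable _ _
        · intro v hv
          apply h.mono
          push_cast
          have h3 := hv.2
          have h4 := hlen j
          nlinarith [he']
      refine le_trans ?_ h2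
      rw [intervalIntegral.integral_const, hlen, smul_eq_mul, one_div, mul_comm (M : ℝ)⁻¹,
        ← div_eq_mul_inv]
      apply div_le_div_of_nonneg_right h1 hM'.le

theorem IsFab.lipschitz (h : IsFab F) (x y : ℝ) : |F x - F y| ≤ 2 * |x - y| := by
  have hl : LipschitzWith 2 F := by
    apply lipschitzWith_of_nnnorm_deriv_le (fun x => (h.hasDerivAt x).differentiableAt)
    intro x
    rw [← NNReal.coe_le_coe, coe_nnnorm, Real.norm_eq_abs, h.deriv]
    have h1 := h.nonneg (2 * x)
    have h2 := h.nonneg (2 * x - 1)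
    have h3 := h.le_one (2 * x)
    have h4 := h.le_one (2 * x - 1)
    rw [abs_le]
    push_cast
    constructor <;> linarith
  have := hl.dist_le_mul x y
  rwa [Real.dist_eq, Real.dist_eq] at this

/-- the final rational approximation -/
def E0 (q : ℚ) (n : ℕ) : ℚ := AQ (4 * (n + 1)) (4 * (n + 1)) q

theorem IsFab.E0_spec (h : IsFab F) (q : ℚ) (n : ℕ) :
    |F q - (E0 q n : ℝ)| ≤ 1 / ((n : ℝ) + 1) := by
  have hM : 0 < 4 * (n + 1) := by omega
  have hb := h.AQ_bounds hM (4 * (n + 1)) q
  set e : ℝ := 1 / 2 ^ (4 * (n + 1)) + 1 / ((4 * (n + 1) : ℕ) : ℝ) with he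
  have hn : (0 : ℝ) < (n : ℝ) + 1 := by positivity
  have he1 : 2 * e ≤ 1 / ((n : ℝ) + 1) := by
    have h1 : ((4 * (n + 1) : ℕ) : ℝ) ≤ 2 ^ (4 * (n + 1)) := by
      exact_mod_cast (Nat.lt_two_pow_self (n := 4 * (n + 1))).le
    have h2 : (1 : ℝ) / 2 ^ (4 * (n + 1)) ≤ 1 / ((4 * (n + 1) : ℕ) : ℝ) := by
      apply one_div_le_one_div_of_le _ h1
      positivity
    have h3 : (1 : ℝ) / ((4 * (n + 1) : ℕ) : ℝ) = (1 / ((n : ℝ) + 1)) / 4 := by
      push_cast
      field_simp
    rw [he]
    linarith
  have he0 : 0 ≤ e := by positivity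
  have h1 := h.lipschitz ((q : ℝ) - e) q
  have h2 := h.lipschitz ((q : ℝ) + e) q
  rw [sub_sub_cancel_left, abs_neg, abs_of_nonneg he0, abs_le] at h1
  rw [add_sub_cancel_left, abs_of_nonneg he0, abs_le] at h2
  unfold E0
  rw [abs_le]
  constructor <;> linarith [h1.1, h1.2, h2.1, h2.2, hb.1, hb.2]

/-! ### Computability -/

theorem computable_prod {α : Type*} [Primcodable α] {f : α → ℕ → ℚ} {g : α → ℕ}
    (hf : Computable₂ f) (hg : Computable g) :
    Computable (fun a => ∏ i ∈ Finset.range (g a), f a i) := by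
  have h := Computable.nat_rec (f := g) (g := fun _ : α => (1 : ℚ))
    (h := fun a p => p.2 * f a p.1) hg (Computable.const 1)
    (CompRat.computable_mul.comp (Computable.snd.comp Computable.snd)
      (hf.comp Computable.fst (Computable.fst.comp Computable.snd)))
  refine h.of_eq ?_
  intro a
  induction g a with
  | zero => simp
  | succ n ih => rw [Finset.prod_range_succ, ← ih]

open Computable in
theorem computable_co : Computable (fun m : ℕ => 2 ^ ((m + 1) * m / 2)) :=
  CompRat.computable_natPow.comp (Computable.const 2)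
    (CompRat.computable_natDiv.comp
      (CompRat.computable_natMul.comp Computable.succ Computable.id) (Computable.const 2))

theorem computable_sg : Computable (fun p : ℕ × ℕ => sg p.1 p.2) := by
  unfold sg
  refine computable_prod (f := fun (p : ℕ × ℕ) i => (1 : ℚ) - 2 * ((p.2 / 2 ^ i % 2 : ℕ) : ℚ))
    (g := fun p => p.1) ?_ Computable.fst
  refine (CompRat.computable_sub.comp (Computable.const 1)
    (CompRat.computable_mul.comp (Computable.const 2)
      (CompRat.computable_natCast.comp
        (CompRat.computable_natMod.comp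
          (CompRat.computable_natDiv.comp (Computable.snd.comp Computable.fst)
            (CompRat.computable_natPow.comp (Computable.const 2) Computable.snd))
          (Computable.const 2))))).of_eq ?_
  rintro ⟨⟨a, b⟩, i⟩
  rfl

theorem computable_D : Computable (fun p : (ℕ × ℕ) × ℕ => D p.1.1 p.1.2 p.2) := by
  unfold D
  refine CompRat.computable_sum
    (f := fun (p : (ℕ × ℕ) × ℕ) k => ((p.2 / p.1.1 ^ k % p.1.1 : ℕ) : ℚ) /
      ((p.1.1 : ℚ) * 2 ^ (k + 1)))
    (g := fun p => p.1.2) ?_ (Computable.snd.comp Computable.fst)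
  have hM : Computable (fun p : ((ℕ × ℕ) × ℕ) × ℕ => p.1.1.1) :=
    Computable.fst.comp (Computable.fst.comp Computable.fst)
  have hc : Computable (fun p : ((ℕ × ℕ) × ℕ) × ℕ => p.1.2) :=
    Computable.snd.comp Computable.fst
  refine (CompRat.computable_div.comp
    (CompRat.computable_natCast.comp
      (CompRat.computable_natMod.comp
        (CompRat.computable_natDiv.comp hc
          (CompRat.computable_natPow.comp hM Computable.snd))
        hM))
    (CompRat.computable_mul.comp (CompRat.computable_natCast.comp hM)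
      (CompRat.computable_pow.comp (Computable.const 2)
        (Computable.succ.comp Computable.snd)))).of_eq ?_
  rintro ⟨⟨⟨a, b⟩, c⟩, i⟩
  rfl

/-- comparison indicator -/
def ind (a b : ℚ) : ℚ := if a ≤ b then 1 else 0

theorem computable_ind : Computable₂ ind := by
  have h : Computable (fun p : ℚ × ℚ => cond (decide (p.1 ≤ p.2)) (1 : ℚ) 0) :=
    Computable.cond CompRat.computable_le (Computable.const (1 : ℚ)) (Computable.const (0 : ℚ))
  refine h.of_eq ?_
  rintro ⟨a, b⟩
  by_cases h : a ≤ b <;> simp [ind, h]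

/-- the numerator -/
def AN (M K : ℕ) (q : ℚ) : ℚ := ∑ c ∈ Finset.range (M ^ K), ind (D M K c) q

theorem AQ_eq (M K : ℕ) (q : ℚ) : AQ M K q = AN M K q / (M : ℚ) ^ K := rfl

theorem computable_AN : Computable (fun p : (ℕ × ℕ) × ℚ => AN p.1.1 p.1.2 p.2) := by
  unfold AN
  have hM : Computable (fun p : (ℕ × ℕ) × ℚ => p.1.1) := Computable.fst.comp Computable.fst
  have hK : Computable (fun p : (ℕ × ℕ) × ℚ => p.1.2) := Computable.snd.comp Computable.fst
  have hg : Computable (fun p : ((ℕ × ℕ) × ℚ) × ℕ => (p.1.1, p.2)) :=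
    Computable.pair (Computable.fst.comp Computable.fst) Computable.snd
  have hD := computable_D.comp hg
  have hi : Computable (fun p : ((ℕ × ℕ) × ℚ) × ℕ => ind (D p.1.1.1 p.1.1.2 p.2) p.1.2) :=
    computable_ind.comp hD (Computable.snd.comp Computable.fst)
  have hi2 : Computable₂ (fun (p : (ℕ × ℕ) × ℚ) (c : ℕ) => ind (D p.1.1 p.1.2 c) p.2) := hi
  exact CompRat.computable_sum hi2 (CompRat.computable_natPow.comp hM hK)

theorem computable_AQ : Computable (fun p : (ℕ × ℕ) × ℚ => AQ p.1.1 p.1.2 p.2) := by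
  have hM : Computable (fun p : (ℕ × ℕ) × ℚ => p.1.1) := Computable.fst.comp Computable.fst
  have hK : Computable (fun p : (ℕ × ℕ) × ℚ => p.1.2) := Computable.snd.comp Computable.fst
  have hP : Computable (fun p : (ℕ × ℕ) × ℚ => ((p.1.1 : ℕ) : ℚ) ^ p.1.2) :=
    CompRat.computable_pow.comp (CompRat.computable_natCast.comp hM) hK
  have := CompRat.computable_div.comp computable_AN hP
  exact this.of_eq (fun p => (AQ_eq _ _ _).symm)

/-- precision -/
def four (n : ℕ) : ℕ := 4 * (n + 1)

theorem computable_four : Computable four :=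
  CompRat.computable_natMul.comp (Computable.const 4) Computable.succ

theorem computable_E0 : Computable₂ E0 := by
  have h4 : Computable (fun p : ℚ × ℕ => four p.2) := computable_four.comp Computable.snd
  have hg : Computable (fun p : ℚ × ℕ => ((four p.2, four p.2), p.1)) :=
    Computable.pair (Computable.pair h4 h4) Computable.fst
  have h5 := computable_AQ.comp hg
  exact h5.of_eq (fun p => rfl)

/-- scaling constant -/
def co (m : ℕ) : ℕ := 2 ^ ((m + 1) * m / 2)

theorem co_pos (m : ℕ) : 0 < co m := by unfold co; positivity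

theorem IsFab.iter_formula' (h : IsFab F) (m : ℕ) (x : ℝ) :
    iteratedDeriv m F x = ((co m : ℕ) : ℝ) *
      ∑ c ∈ Finset.range (2 ^ m), ((sg m c : ℚ) : ℝ) * F (2 ^ m * x - c) := h.iter_formula m x

theorem computable_co' : Computable co := computable_co.of_eq (fun _ => rfl)

/-- needed precision -/
def prec (m n : ℕ) : ℕ := co m * 2 ^ m * (n + 1)

theorem computable_two_pow : Computable (fun m : ℕ => 2 ^ m) :=
  CompRat.computable_natPow.comp (Computable.const 2) Computable.id

theorem computable_prec : Computable (fun p : ℕ × ℕ => prec p.1 p.2) := by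
  unfold prec
  exact CompRat.computable_natMul.comp (CompRat.computable_natMul.comp
    (computable_co'.comp Computable.fst) (computable_two_pow.comp Computable.fst))
    (Computable.succ.comp Computable.snd)

/-- point -/
def pt (m : ℕ) (q : ℚ) (c : ℕ) : ℚ := 2 ^ m * q - c

theorem computable_pt : Computable (fun p : (ℕ × ℚ) × ℕ => pt p.1.1 p.1.2 p.2) := by
  unfold pt
  exact CompRat.computable_sub.comp (CompRat.computable_mul.comp
    (CompRat.computable_pow.comp (Computable.const 2) (Computable.fst.comp Computable.fst))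
    (Computable.snd.comp Computable.fst)) (CompRat.computable_natCast.comp Computable.snd)

/-- summand -/
def tm (p : ℕ × ℚ × ℕ) (c : ℕ) : ℚ := sg p.1 c * E0 (pt p.1 p.2.1 c) (prec p.1 p.2.2)

theorem computable_tm : Computable₂ tm := by
  have g1 : Computable (fun x : (ℕ × ℚ × ℕ) × ℕ => (x.1.1, x.2)) :=
    Computable.pair (Computable.fst.comp Computable.fst) Computable.snd
  have h1 := computable_sg.comp g1
  have g2 : Computable (fun x : (ℕ × ℚ × ℕ) × ℕ => ((x.1.1, x.1.2.1), x.2)) :=
    Computable.pair (Computable.pair (Computable.fst.comp Computable.fst)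
      (Computable.fst.comp (Computable.snd.comp Computable.fst))) Computable.snd
  have h2 := computable_pt.comp g2
  have g3 : Computable (fun x : (ℕ × ℚ × ℕ) × ℕ => (x.1.1, x.1.2.2)) :=
    Computable.pair (Computable.fst.comp Computable.fst)
      (Computable.snd.comp (Computable.snd.comp Computable.fst))
  have h3 := computable_prec.comp g3
  have h4 := computable_E0.comp h2 h3
  have h5 := CompRat.computable_mul.comp h1 h4
  exact h5.of_eq (fun p => rfl)

/-- approximation of all derivatives -/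
def EE (p : ℕ × ℚ × ℕ) : ℚ :=
  ((co p.1 : ℕ) : ℚ) * ∑ c ∈ Finset.range (2 ^ p.1), tm p c

theorem computable_EE : Computable EE := by
  have hco : Computable (fun p : ℕ × ℚ × ℕ => ((co p.1 : ℕ) : ℚ)) :=
    CompRat.computable_natCast.comp (computable_co'.comp Computable.fst)
  have h2 : Computable (fun p : ℕ × ℚ × ℕ => 2 ^ p.1) :=
    computable_two_pow.comp Computable.fst
  have h3 : Computable (fun p : ℕ × ℚ × ℕ => ∑ c ∈ Finset.range (2 ^ p.1), tm p c) :=
    CompRat.computable_sum computable_tm h2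
  exact CompRat.computable_mul.comp hco h3

theorem abs_sg (m c : ℕ) : |sg m c| = 1 := by
  unfold sg
  rw [Finset.abs_prod]
  apply Finset.prod_eq_one
  intro i _
  generalize c / 2 ^ i = d
  have : d % 2 = 0 ∨ d % 2 = 1 := by omega
  rcases this with h | h <;> rw [h] <;> norm_num

theorem IsFab.EE_spec (h : IsFab F) (m : ℕ) (q : ℚ) (n : ℕ) :
    |iteratedDeriv m F (q : ℝ) - (EE (m, q, n) : ℝ)| ≤ 1 / ((n : ℝ) + 1) := by
  have hco0 : (0 : ℝ) < ((co m : ℕ) : ℝ) := by exact_mod_cast co_pos m
  have hterm : ∀ c ∈ Finset.range (2 ^ m),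
      |((sg m c : ℚ) : ℝ) * F (2 ^ m * (q : ℝ) - c) -
        ((tm (m, q, n) c : ℚ) : ℝ)| ≤ 1 / ((prec m n : ℝ) + 1) := by
    intro c _
    have e : ((tm (m, q, n) c : ℚ) : ℝ) =
        ((sg m c : ℚ) : ℝ) * ((E0 (pt m q c) (prec m n) : ℚ) : ℝ) := by
      unfold tm
      exact Rat.cast_mul _ _
    rw [e, ← mul_sub, abs_mul]
    have h1 : |((sg m c : ℚ) : ℝ)| = 1 := by
      rw [← Rat.cast_abs, abs_sg]
      exact Rat.cast_one
    rw [h1, one_mul]
    have h2 := h.E0_spec (pt m q c) (prec m n)
    have h3 : ((pt m q c : ℚ) : ℝ) = 2 ^ m * (q : ℝ) - c := by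
      unfold pt
      push_cast
      rfl
    rw [h3] at h2
    exact h2
  have e : ((EE (m, q, n) : ℚ) : ℝ) = ((co m : ℕ) : ℝ) * ∑ c ∈ Finset.range (2 ^ m),
      ((tm (m, q, n) c : ℚ) : ℝ) := by
    unfold EE
    rw [Rat.cast_mul, Rat.cast_natCast, Rat.cast_sum]
  rw [h.iter_formula', e, ← mul_sub, ← Finset.sum_sub_distrib, abs_mul, abs_of_pos hco0]
  have hsum : |∑ c ∈ Finset.range (2 ^ m), (((sg m c : ℚ) : ℝ) * F (2 ^ m * (q : ℝ) - c) -
        ((tm (m, q, n) c : ℚ) : ℝ))| ≤ 2 ^ m * (1 / ((prec m n : ℝ) + 1)) := by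
    refine (Finset.abs_sum_le_sum_abs _ _).trans ?_
    refine (Finset.sum_le_card_nsmul _ _ _ hterm).trans ?_
    rw [Finset.card_range, nsmul_eq_mul]
    push_cast
    rfl
  refine (mul_le_mul_of_nonneg_left hsum hco0.le).trans ?_
  have hprec : (prec m n : ℝ) = (co m : ℝ) * 2 ^ m * ((n : ℝ) + 1) := by
    unfold prec
    push_cast
    rfl
  rw [← mul_assoc, mul_one_div, div_le_div_iff₀ (by positivity) (by positivity), one_mul, hprec]
  linarith

theorem IsFab.eu (h : IsFab F) : EU F where
  smooth := h.contDiff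
  eff := ⟨EE, computable_EE, h.EE_spec⟩
  bdd := ⟨fun m => 2 ^ ((m + 1) ^ 2),
    CompRat.computable_natPow.comp (Computable.const 2)
      (CompRat.computable_natPow.comp Computable.succ (Computable.const 2)), h.iter_bound⟩

end Crest.Agent.S0170.Step

namespace Crest.Agent.S0170

theorem exists_step : ∃ β : ℝ → ℝ, EU β ∧ (∀ x ≤ 0, β x = 0) ∧ (∀ x, 1 ≤ x → β x = 1) := by
  obtain ⟨F, hF⟩ := Step.exists_isFab
  exact ⟨F, hF.eu, hF.zero, hF.one⟩

end Crest.Agent.S0170
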