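import Mathlib
import Crest.Prelude.Def_BoxFlow
import Crest.Agent.S0170_Defs
import Crest.Agent.S0170_Eff
import Crest.Agent.S0170_EU
import Crest.Agent.S0170_Step
import Crest.Agent.S0170_Move

/-! Chunk ELEM of S0170: cut-off elementary shears / translations. -/

set_option autoImplicit false

namespace Crest.Agent.S0170

open Crest.AnalysisR.BoxFlow
open scoped ContDiff

/-- Step function with values in `[0,1]`. -/
theorem exists_step01 : ∃ β : ℝ → ℝ, EU β ∧ (∀ x ≤ 0, β x = 0) ∧ (∀ x, 1 ≤ x → β x = 1) ∧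
    (∀ x, 0 ≤ β x ∧ β x ≤ 1) := by
  obtain ⟨F, hF⟩ := Step.exists_isFab
  exact ⟨F, hF.eu, hF.zero, hF.one, fun x => ⟨hF.nonneg x, hF.le_one x⟩⟩

namespace Elem

/-- derivative of a smooth function which is constant on a closed half line: zero there -/
theorem deriv_eq_zero_of_const_Iic {f : ℝ → ℝ} (hf : ContDiff ℝ ∞ f) {a c : ℝ}
    (h : ∀ x ≤ a, f x = c) {x : ℝ} (hx : x ≤ a) : deriv f x = 0 := by
  have hd : DifferentiableAt ℝ f x := hf.differentiable (by simp) x
  have h1 : HasDerivWithinAt f (deriv f x) (Set.Iic x) x := hd.hasDerivAt.hasDerivWithinAt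
  have h2 : HasDerivWithinAt f 0 (Set.Iic x) x := by
    refine (hasDerivWithinAt_const x (Set.Iic x) c).congr (fun y hy => h y (le_trans hy hx)) (h x hx)
  exact (uniqueDiffWithinAt_Iic x).eq_deriv _ h1 h2

theorem deriv_eq_zero_of_const_Ici {f : ℝ → ℝ} (hf : ContDiff ℝ ∞ f) {a c : ℝ}
    (h : ∀ x, a ≤ x → f x = c) {x : ℝ} (hx : a ≤ x) : deriv f x = 0 := by
  have hd : DifferentiableAt ℝ f x := hf.differentiable (by simp) x
  have h1 : HasDerivWithinAt f (deriv f x) (Set.Ici x) x := hd.hasDerivAt.hasDerivWithinAt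
  have h2 : HasDerivWithinAt f 0 (Set.Ici x) x := by
    refine (hasDerivWithinAt_const x (Set.Ici x) c).congr (fun y hy => h y (le_trans hx hy)) (h x hx)
  exact (uniqueDiffWithinAt_Ici x).eq_deriv _ h1 h2

/-- The cut-off function of `[p,q]` with margin `δ`. -/
theorem exists_cutoff (p q δ : ℚ) (hδ : 0 < δ) : ∃ χ : ℝ → ℝ, EU χ ∧
    (∀ x : ℝ, (p : ℝ) ≤ x → x ≤ (q : ℝ) → χ x = 1) ∧
    (∀ x : ℝ, (p : ℝ) ≤ x → x ≤ (q : ℝ) → deriv χ x = 0) ∧
    (∀ x : ℝ, x ≤ (p : ℝ) - δ → χ x = 0) ∧ (∀ x : ℝ, (q : ℝ) + δ ≤ x → χ x = 0) := by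
  obtain ⟨β, hβ, h0, h1, -⟩ := exists_step01
  have hδ' : (0 : ℝ) < δ := by exact_mod_cast hδ
  have hA : EU (fun x => β (((1 / δ : ℚ) : ℝ) * x + (((δ - p) / δ : ℚ) : ℝ))) := hβ.affine _ _
  have hB : EU (fun x => β (((-1 / δ : ℚ) : ℝ) * x + (((q + δ) / δ : ℚ) : ℝ))) := hβ.affine _ _
  have eA : ∀ x : ℝ, ((1 / δ : ℚ) : ℝ) * x + (((δ - p) / δ : ℚ) : ℝ) = (x - p + δ) / δ := by
    intro x; push_cast; field_simp; ring
  have eB : ∀ x : ℝ, ((-1 / δ : ℚ) : ℝ) * x + (((q + δ) / δ : ℚ) : ℝ) = (q + δ - x) / δ := by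
    intro x; push_cast; field_simp; ring
  have A1 : ∀ x : ℝ, (p : ℝ) ≤ x → β (((1 / δ : ℚ) : ℝ) * x + (((δ - p) / δ : ℚ) : ℝ)) = 1 := by
    intro x hx
    rw [eA]
    exact h1 _ (by rw [le_div_iff₀ hδ']; linarith)
  have A0 : ∀ x : ℝ, x ≤ (p : ℝ) - δ → β (((1 / δ : ℚ) : ℝ) * x + (((δ - p) / δ : ℚ) : ℝ)) = 0 := by
    intro x hx
    rw [eA]
    exact h0 _ (by rw [div_le_iff₀ hδ']; linarith)
  have B1 : ∀ x : ℝ, x ≤ (q : ℝ) → β (((-1 / δ : ℚ) : ℝ) * x + (((q + δ) / δ : ℚ) : ℝ)) = 1 := by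
    intro x hx
    rw [eB]
    exact h1 _ (by rw [le_div_iff₀ hδ']; linarith)
  have B0 : ∀ x : ℝ, (q : ℝ) + δ ≤ x → β (((-1 / δ : ℚ) : ℝ) * x + (((q + δ) / δ : ℚ) : ℝ)) = 0 := by
    intro x hx
    rw [eB]
    exact h0 _ (by rw [div_le_iff₀ hδ']; linarith)
  refine ⟨_, hA.mul hB, ?_, ?_, ?_, ?_⟩
  · intro x hx hx'
    simp only [A1 x hx, B1 x hx', mul_one]
  · intro x hx hx'
    have dA := (hA.smooth.differentiable (by simp) x).hasDerivAt
    have dB := (hB.smooth.differentiable (by simp) x).hasDerivAt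
    have h := (dA.fun_mul dB).deriv
    rw [deriv_eq_zero_of_const_Ici hA.smooth A1 hx, deriv_eq_zero_of_const_Iic hB.smooth B1 hx'] at h
    simpa using h
  · intro x hx
    simp only [A0 x hx, zero_mul]
  · intro x hx
    simp only [B0 x hx, mul_zero]

theorem hasCompactSupport_of_zero {χ : ℝ → ℝ} {a b : ℝ} (h0 : ∀ x, x ≤ a → χ x = 0)
    (h1 : ∀ x, b ≤ x → χ x = 0) : HasCompactSupport χ := by
  refine HasCompactSupport.intro (K := Set.Icc a b) isCompact_Icc ?_
  intro x hx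
  by_cases h : x ≤ a
  · exact h0 x h
  · push Not at h
    by_cases h' : b ≤ x
    · exact h1 x h'
    · push Not at h'
      exact absurd ⟨h.le, h'.le⟩ hx

/-- third index -/
theorem exists_third : ∀ {i j : Fin 3}, i ≠ j → ∃ l, i ≠ l ∧ j ≠ l := by decide

/-- put four univariate functions at time and positions `i j l` -/
def arr (g fi fj fl : ℝ → ℝ) (i j : Fin 3) : Fin 4 → ℝ → ℝ :=
  Fin.cons g (fun m => if m = i then fi else if m = j then fj else fl)

theorem sep_arr (g fi fj fl : ℝ → ℝ) {i j l : Fin 3} (hij : i ≠ j) (hil : i ≠ l) (hjl : j ≠ l)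
    (p : ℝ × E3) :
    sep (arr g fi fj fl i j) p = g p.1 * fi (p.2 i) * fj (p.2 j) * fl (p.2 l) := by
  have hprod : ∀ A : Fin 3 → ℝ, A 0 * A 1 * A 2 = A i * A j * A l := by
    intro A
    have : (Finset.univ : Finset (Fin 3)) = {i, j, l} := by
      ext m
      simp [Move.fin3_cover hij hil hjl m]
    rw [← Fin.prod_univ_three, this, Finset.prod_insert (by simp [hij, hil]),
      Finset.prod_insert (by simp [hjl]), Finset.prod_singleton]
    ring
  have h := hprod (fun m => (if m = i then fi else if m = j then fj else fl) (p.2 m))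
  simp only [if_true, if_neg hij.symm, if_neg hil.symm, if_neg hjl.symm] at h
  have e : sep (arr g fi fj fl i j) p = g p.1 *
      ((if (0 : Fin 3) = i then fi else if (0 : Fin 3) = j then fj else fl) (p.2 0)) *
      ((if (1 : Fin 3) = i then fi else if (1 : Fin 3) = j then fj else fl) (p.2 1)) *
      ((if (2 : Fin 3) = i then fi else if (2 : Fin 3) = j then fj else fl) (p.2 2)) := rfl
  rw [e, mul_assoc, mul_assoc, ← mul_assoc _ _ (((if (2 : Fin 3) = i then fi else
    if (2 : Fin 3) = j then fj else fl) (p.2 2))), h]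
  ring

theorem effS_term {g fi fj fl : ℝ → ℝ} (hg : EU g) (hi : EU fi) (hj : EU fj) (hl : EU fl)
    {i j l : Fin 3} (hij : i ≠ j) (hil : i ≠ l) (hjl : j ≠ l) :
    EffS (fun p : ℝ × E3 => g p.1 * fi (p.2 i) * fj (p.2 j) * fl (p.2 l)) := by
  have h : EffS (sep (arr g fi fj fl i j)) := by
    refine EffS.sep _ fun k => ?_
    refine Fin.cases hg (fun m => ?_) k
    show EU (if m = i then fi else if m = j then fj else fl)
    split_ifs
    · exact hi
    · exact hj
    · exact hl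
  have e : (fun p : ℝ × E3 => g p.1 * fi (p.2 i) * fj (p.2 j) * fl (p.2 l)) =
      sep (arr g fi fj fl i j) := by
    funext p
    exact (sep_arr g fi fj fl hij hil hjl p).symm
  rw [e]
  exact h

end Elem

open Elem in
/-- Elementary cut-off shear/translation: `x_i += c0 + c1 x_j` inside the rational region
`[p,q]`, identity outside its `δ`-enlargement. -/
theorem exists_elem (i j : Fin 3) (hij : i ≠ j) (p q : Fin 3 → ℚ) (δ : ℚ) (hδ : 0 < δ)
    (c0 c1 : ℚ) :
    ∃ U : Field, Nice U ∧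
      (∀ x : E3, (∀ k, (p k : ℝ) ≤ x k ∧ x k ≤ (q k : ℝ)) →
        ((p i : ℝ) ≤ x i + ((c0 : ℝ) + (c1 : ℝ) * x j) ∧
          x i + ((c0 : ℝ) + (c1 : ℝ) * x j) ≤ (q i : ℝ)) →
        Carry U x (Function.update x i (x i + ((c0 : ℝ) + (c1 : ℝ) * x j)))) ∧
      (∀ x : E3, (∃ k, x k ≤ (p k : ℝ) - (δ : ℝ) ∨ (q k : ℝ) + (δ : ℝ) ≤ x k) → Carry U x x) := by
  obtain ⟨l, hil, hjl⟩ := exists_third hij
  obtain ⟨β, hβ, hb0, hb1, hb01⟩ := exists_step01
  -- time profile
  set s : ℝ → ℝ := fun t => β (((2 : ℚ) : ℝ) * t + ((-1 / 2 : ℚ) : ℝ)) with hs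
  have hsEU : EU s := hβ.affine 2 (-1 / 2)
  have hs0 : ∀ t, t ≤ 1 / 4 → s t = 0 := fun t ht => hb0 _ (by push_cast; linarith)
  have hs1 : ∀ t, 3 / 4 ≤ t → s t = 1 := fun t ht => hb1 _ (by push_cast; linarith)
  have hs01 : ∀ t, 0 ≤ s t ∧ s t ≤ 1 := fun t => hb01 _
  have hg0 : ∀ t, t ≤ 1 / 4 → deriv s t = 0 := fun t ht =>
    deriv_eq_zero_of_const_Iic hsEU.smooth hs0 ht
  have hg1 : ∀ t, 3 / 4 ≤ t → deriv s t = 0 := fun t ht =>
    deriv_eq_zero_of_const_Ici hsEU.smooth hs1 ht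
  have hgEU : EU (deriv s) := hsEU.deriv
  have hgc : HasCompactSupport (deriv s) := hasCompactSupport_of_zero hg0 hg1
  -- cut-offs
  obtain ⟨ci, hciEU, hci1, hcid, hci0, hci0'⟩ := exists_cutoff (p i) (q i) δ hδ
  obtain ⟨cj, hcjEU, hcj1, hcjd, hcj0, hcj0'⟩ := exists_cutoff (p j) (q j) δ hδ
  obtain ⟨cl, hclEU, hcl1, hcld, hcl0, hcl0'⟩ := exists_cutoff (p l) (q l) δ hδ
  -- the primitive
  obtain ⟨R, hR⟩ : ∃ R : ℕ, ∀ x : ℝ, (R : ℝ) ≤ |x| → cj x = 0 := by
    obtain ⟨R, hR⟩ := exists_nat_ge (|(p j : ℝ) - δ| + |(q j : ℝ) + δ|)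
    refine ⟨R, fun x hx => ?_⟩
    rcases le_abs.mp (le_refl |x|) with h | h
    · exact hcj0' x (by
        have := le_abs_self ((q j : ℝ) + δ)
        have := abs_nonneg ((p j : ℝ) - δ)
        linarith)
    · exact hcj0 x (by
        have := neg_abs_le ((p j : ℝ) - δ)
        have := abs_nonneg ((q j : ℝ) + δ)
        linarith)
  have hx1 : EU (fun x => x * cj x) := hcjEU.id_mul R hR
  have hx2 : EU (fun x => x * (x * cj x)) := hx1.id_mul R (fun x hx => by rw [hR x hx, mul_zero])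
  set Q : ℝ → ℝ := fun x => (c0 : ℝ) * (x * cj x) + ((c1 / 2 : ℚ) : ℝ) * (x * (x * cj x)) with hQ
  have hQEU : EU Q := ((EU.const c0).mul hx1).add ((EU.const (c1 / 2)).mul hx2)
  have hQ0 : ∀ x : ℝ, x ≤ (p j : ℝ) - δ → Q x = 0 := by
    intro x hx
    simp only [hQ, hcj0 x hx, mul_zero, add_zero]
  have hQ0' : ∀ x : ℝ, (q j : ℝ) + δ ≤ x → Q x = 0 := by
    intro x hx
    simp only [hQ, hcj0' x hx, mul_zero, add_zero]
  have hQd : ∀ x : ℝ, (p j : ℝ) ≤ x → x ≤ (q j : ℝ) → deriv Q x = c0 + c1 * x := by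
    intro x hx hx'
    have dc : HasDerivAt cj 0 x := by
      have := (hcjEU.smooth.differentiable (by simp) x).hasDerivAt
      rwa [hcjd x hx hx'] at this
    have d1 := (hasDerivAt_id x).mul dc
    have d2 := (hasDerivAt_id x).mul d1
    have d3 := (d1.const_mul (c0 : ℝ)).add (d2.const_mul ((c1 / 2 : ℚ) : ℝ))
    have d4 : HasDerivAt Q (c0 + c1 * x) x := by
      refine HasDerivAt.congr_deriv d3 ?_
      simp only [id, hcj1 x hx hx', Pi.mul_apply]
      push_cast
      ring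
    exact d4.deriv
  have hQc : HasCompactSupport Q := hasCompactSupport_of_zero hQ0 hQ0'
  have hcic : HasCompactSupport ci := hasCompactSupport_of_zero hci0 hci0'
  have hclc : HasCompactSupport cl := hasCompactSupport_of_zero hcl0 hcl0'
  set U : Field := Move.mv (deriv s) ci Q cl i j l with hUdef
  refine ⟨U, ?_, ?_, ?_⟩
  · constructor
    · exact Move.contDiff_mv hgEU.smooth hciEU.smooth hQEU.smooth hclEU.smooth i j l
    · exact Move.hasCompactSupport_mv hgc hcic hQc hclc hij hil hjl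
    · refine effective_of_effS _ fun m => ?_
      rcases Move.fin3_cover hij hil hjl m with rfl | rfl | rfl
      · have e : (fun p : ℝ × E3 => U p m) =
            fun p => deriv s p.1 * ci (p.2 m) * deriv Q (p.2 j) * cl (p.2 l) := by
          funext p
          simp [hUdef, Move.mv]
        rw [e]
        exact effS_term hgEU hciEU hQEU.deriv hclEU hij hil hjl
      · have e : (fun p : ℝ × E3 => U p m) =
            fun p => -(deriv s p.1 * deriv ci (p.2 i) * Q (p.2 m) * cl (p.2 l)) := by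
          funext p
          simp [hUdef, Move.mv, hij.symm]
        rw [e]
        exact (effS_term hgEU hciEU.deriv hQEU hclEU hij hil hjl).neg
      · have e : (fun p : ℝ × E3 => U p m) = fun _ => 0 := by
          funext p
          simp [hUdef, Move.mv, hil.symm, hjl.symm]
        rw [e]
        exact EffS.zero
    · intro p hp
      refine Move.mv_eq_zero_of_time ?_
      by_cases h : p.1 ≤ 1 / 4
      · exact hg0 _ h
      · push Not at h
        by_cases h' : 3 / 4 ≤ p.1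
        · exact hg1 _ h'
        · push Not at h'
          exact absurd ⟨h.le, h'.le⟩ hp
    · intro p
      exact Move.spaceDiv_mv hgEU.smooth hciEU.smooth hQEU.smooth hclEU.smooth hij hil hjl p
  · intro x hx hx2
    have hv : deriv Q (x j) = c0 + c1 * x j := hQd _ (hx j).1 (hx j).2
    have hin : ∀ t, (p i : ℝ) ≤ x i + s t * deriv Q (x j) ∧ x i + s t * deriv Q (x j) ≤ q i := by
      intro t
      rw [hv]
      obtain ⟨h0, h1⟩ := hs01 t
      have e : x i + s t * (c0 + c1 * x j) =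
          (1 - s t) * x i + s t * (x i + ((c0 : ℝ) + (c1 : ℝ) * x j)) := by ring
      rw [e]
      have ha := (hx i).1
      have hb := (hx i).2
      obtain ⟨hc, hd⟩ := hx2
      constructor
      · nlinarith
      · nlinarith
    refine ⟨fun t => Function.update x i (x i + s t * deriv Q (x j)), ?_, ?_, ?_⟩
    · intro t
      refine Move.hasDerivAt_mv_curve hij hil hjl
        (fun t => (hsEU.smooth.differentiable (by simp) t).hasDerivAt) x
        (fun t => hci1 _ (hin t).1 (hin t).2) (fun t => hcid _ (hin t).1 (hin t).2)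
        (hcl1 _ (hx l).1 (hx l).2) t
    · simp only [hs0 0 (by norm_num), zero_mul, add_zero, Function.update_eq_self]
    · simp only [hs1 1 (by norm_num), one_mul, hv]
  · intro x hx
    refine ⟨fun _ => x, fun t => ?_, rfl, rfl⟩
    have hz : U (t, x) = 0 := by
      obtain ⟨k, hk⟩ := hx
      have zz : ∀ {f : ℝ → ℝ} (hf : ContDiff ℝ ∞ f) {a b : ℝ} (h0 : ∀ x, x ≤ a → f x = 0)
          (h1 : ∀ x, b ≤ x → f x = 0) {y : ℝ} (hy : y ≤ a ∨ b ≤ y), f y = 0 ∧ deriv f y = 0 := by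
        intro f hf a b h0 h1 y hy
        rcases hy with hy | hy
        · exact ⟨h0 y hy, deriv_eq_zero_of_const_Iic hf h0 hy⟩
        · exact ⟨h1 y hy, deriv_eq_zero_of_const_Ici hf h1 hy⟩
      funext m
      rcases Move.fin3_cover hij hil hjl k with rfl | rfl | rfl
      · obtain ⟨e1, e2⟩ := zz hciEU.smooth hci0 hci0' hk
        simp [hUdef, Move.mv, e1, e2]
      · obtain ⟨e1, e2⟩ := zz hQEU.smooth hQ0 hQ0' hk
        simp [hUdef, Move.mv, e1, e2]
      · obtain ⟨e1, e2⟩ := zz hclEU.smooth hcl0 hcl0' hk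
        simp [hUdef, Move.mv, e1, e2]
    rw [hz]
    exact hasDerivAt_const t x

end Crest.Agent.S0170
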