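import Mathlib
import Crest.Prelude.Def_BoxFlow
import Crest.Agent.S0170_Defs
import Crest.Agent.S0170_Eff

/-! S0170, chunk ODE: global flow, composition and reversal of admissible fields. -/

set_option autoImplicit false

namespace Crest.Agent.S0170

open Crest.AnalysisR.BoxFlow
open scoped ContDiff


/-! ### Basic facts on nice fields -/

theorem Nice.eq_zero_of_le {U : Field} (hU : Nice U) {t : ℝ} (ht : t ≤ 1 / 4) (x : E3) :
    U (t, x) = 0 := by
  have hcl : IsClosed {s : ℝ | U (s, x) = 0} :=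
    isClosed_eq (hU.smooth.continuous.comp (by fun_prop : Continuous fun s : ℝ => (s, x)))
      continuous_const
  have hsub : Set.Iio (1 / 4 : ℝ) ⊆ {s : ℝ | U (s, x) = 0} := by
    intro s hs
    exact hU.time (s, x) (fun h => absurd h.1 (not_le.mpr hs))
  have := hcl.closure_subset_iff.mpr hsub
  rw [closure_Iio] at this
  exact this ht

theorem Nice.eq_zero_of_ge {U : Field} (hU : Nice U) {t : ℝ} (ht : 3 / 4 ≤ t) (x : E3) :
    U (t, x) = 0 := by
  have hcl : IsClosed {s : ℝ | U (s, x) = 0} :=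
    isClosed_eq (hU.smooth.continuous.comp (by fun_prop : Continuous fun s : ℝ => (s, x)))
      continuous_const
  have hsub : Set.Ioi (3 / 4 : ℝ) ⊆ {s : ℝ | U (s, x) = 0} := by
    intro s hs
    exact hU.time (s, x) (fun h => absurd h.2 (not_le.mpr hs))
  have := hcl.closure_subset_iff.mpr hsub
  rw [closure_Ioi] at this
  exact this ht

theorem Nice.exists_lipschitz {U : Field} (hU : Nice U) :
    ∃ K : NNReal, ∀ t : ℝ, LipschitzWith K (fun x : E3 => U (t, x)) := by
  obtain ⟨K, hK⟩ := ContDiff.lipschitzWith_of_hasCompactSupport hU.compact hU.smooth (by simp)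
  refine ⟨K, fun t => ?_⟩
  have h1 : LipschitzWith 1 (fun x : E3 => ((t, x) : ℝ × E3)) := LipschitzWith.prodMk_left t
  have h2 := hK.comp h1
  rw [mul_one] at h2
  exact h2

theorem Nice.exists_bound {U : Field} (hU : Nice U) : ∃ L : NNReal, ∀ p, ‖U p‖ ≤ L := by
  obtain ⟨C, hC⟩ := hU.compact.exists_bound_of_continuous hU.smooth.continuous
  exact ⟨⟨max C 0, le_max_right _ _⟩, fun p => (hC p).trans (le_max_left _ _)⟩

theorem Sol.continuous {U : Field} {γ : ℝ → E3} (h : Sol U γ) : Continuous γ :=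
  continuous_iff_continuousAt.mpr fun t => (h t).continuousAt

theorem Sol.eq_left {U : Field} (hU : Nice U) {γ : ℝ → E3} (h : Sol U γ) {t : ℝ}
    (ht : t ≤ 1 / 4) : γ t = γ 0 := by
  have key : ∀ a : ℝ, a ≤ 1 / 4 → γ (1 / 4) = γ a := by
    intro a ha
    refine constant_of_has_deriv_right_zero (f := γ) (a := a) (b := 1 / 4)
      h.continuous.continuousOn ?_ (1 / 4) ⟨ha, le_rfl⟩
    intro x hx
    have := h x
    rw [hU.eq_zero_of_le hx.2.le] at this
    exact this.hasDerivWithinAt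
  rw [← key t ht, key 0 (by norm_num)]

theorem Sol.eq_right {U : Field} (hU : Nice U) {γ : ℝ → E3} (h : Sol U γ) {t : ℝ}
    (ht : 3 / 4 ≤ t) : γ t = γ 1 := by
  have key : ∀ b : ℝ, 3 / 4 ≤ b → γ b = γ (3 / 4) := by
    intro b hb
    refine constant_of_has_deriv_right_zero (f := γ) (a := 3 / 4) (b := b)
      h.continuous.continuousOn ?_ b ⟨hb, le_rfl⟩
    intro x hx
    have := h x
    rw [hU.eq_zero_of_ge hx.1] at this
    exact this.hasDerivWithinAt
  rw [key t ht, key 1 (by norm_num)]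

theorem Nice.exists_sol {U : Field} (hU : Nice U) (x : E3) : ∃ γ : ℝ → E3, Sol U γ ∧ γ 0 = x := by
  obtain ⟨K, hK⟩ := hU.exists_lipschitz
  obtain ⟨L, hL⟩ := hU.exists_bound
  have h0 : (0 : ℝ) ∈ Set.Icc (-1 : ℝ) 2 := by constructor <;> norm_num
  have hPL : IsPicardLindelof (fun t x => U (t, x)) (tmin := -1) (tmax := 2) ⟨0, h0⟩ x
      (2 * L) 0 L K := by
    refine ⟨fun t _ => (hK t).lipschitzOnWith, fun y _ => ?_, fun t _ y _ => hL _, ?_⟩
    · exact (hU.smooth.continuous.comp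
        (by fun_prop : Continuous fun s : ℝ => (s, y))).continuousOn
    · have : max ((2 : ℝ) - 0) (0 - (-1)) = 2 := by norm_num
      simp only [this]
      push_cast
      linarith
  obtain ⟨α, hα0, hα⟩ := hPL.exists_eq_forall_mem_Icc_hasDerivWithinAt₀
  have hα' : ∀ t ∈ Set.Ioo (-1 : ℝ) 2, HasDerivAt α (U (t, α t)) t := fun t ht =>
    (hα t ⟨ht.1.le, ht.2.le⟩).hasDerivAt (Icc_mem_nhds ht.1 ht.2)
  have hleft : ∀ t ∈ Set.Ioo (-1 : ℝ) (1 / 4), α t = x := by
    intro t ht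
    have := IsOpen.is_const_of_deriv_eq_zero (f := α) (s := Set.Ioo (-1 : ℝ) (1 / 4)) isOpen_Ioo
      isPreconnected_Ioo (fun s hs => (hα' s ⟨hs.1, by linarith [hs.2]⟩).differentiableAt.differentiableWithinAt)
      (fun s hs => by
        have h1 := (hα' s ⟨hs.1, by linarith [hs.2]⟩).deriv
        rw [hU.eq_zero_of_le hs.2.le] at h1
        simpa using h1) (x := t) (y := 0) ht (by constructor <;> norm_num)
    rw [this]
    exact hα0
  have hright : ∀ t ∈ Set.Ioo (3 / 4 : ℝ) 2, α t = α 1 := by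
    intro t ht
    exact IsOpen.is_const_of_deriv_eq_zero (f := α) (s := Set.Ioo (3 / 4 : ℝ) 2) isOpen_Ioo
      isPreconnected_Ioo (fun s hs => (hα' s ⟨by linarith [hs.1], hs.2⟩).differentiableAt.differentiableWithinAt)
      (fun s hs => by
        have h1 := (hα' s ⟨by linarith [hs.1], hs.2⟩).deriv
        rw [hU.eq_zero_of_ge hs.1.le] at h1
        simpa using h1) (x := t) (y := 1) ht (by constructor <;> norm_num)
  refine ⟨fun t => if t < 1 / 8 then x else if t ≤ 1 then α t else α 1, ?_, ?_⟩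
  · intro t
    rcases lt_or_ge t (1 / 4) with h | h
    · -- locally constant `x`
      have hev : (fun t => if t < 1 / 8 then x else if t ≤ 1 then α t else α 1)
          =ᶠ[nhds t] fun _ => x := by
        filter_upwards [Iio_mem_nhds h] with s hs
        simp only [Set.mem_Iio] at hs
        split_ifs with h1 h2
        · rfl
        · exact hleft s ⟨by linarith, hs⟩
        · exact absurd (by linarith : s ≤ 1) h2
      have h2 : U (t, (if t < 1 / 8 then x else if t ≤ 1 then α t else α 1)) = 0 :=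
        hU.eq_zero_of_le h.le _
      simp only [h2]
      exact (hasDerivAt_const t x).congr_of_eventuallyEq hev
    · rcases lt_or_ge t 1 with h' | h'
      · have hev : (fun t => if t < 1 / 8 then x else if t ≤ 1 then α t else α 1)
            =ᶠ[nhds t] α := by
          filter_upwards [Ioo_mem_nhds (show (1 / 8 : ℝ) < t by linarith) h'] with s hs
          rw [if_neg (not_lt.mpr hs.1.le), if_pos hs.2.le]
        have h2 := (hα' t ⟨by linarith, by linarith⟩).congr_of_eventuallyEq hev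
        have h3 : (if t < 1 / 8 then x else if t ≤ 1 then α t else α 1) = α t := hev.self_of_nhds
        simp only [h3]
        exact h2
      · have hev : (fun t => if t < 1 / 8 then x else if t ≤ 1 then α t else α 1)
            =ᶠ[nhds t] fun _ => α 1 := by
          filter_upwards [Ioi_mem_nhds (show (3 / 4 : ℝ) < t by linarith)] with s hs
          simp only [Set.mem_Ioi] at hs
          split_ifs with h1 h2
          · exact absurd h1 (by linarith)
          · exact hright s ⟨hs, by linarith⟩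
          · rfl
        have h2 : U (t, (if t < 1 / 8 then x else if t ≤ 1 then α t else α 1)) = 0 :=
          hU.eq_zero_of_ge (by linarith) _
        simp only [h2]
        exact (hasDerivAt_const t (α 1)).congr_of_eventuallyEq hev
  · norm_num

theorem Nice.sol_unique {U : Field} (hU : Nice U) {γ δ : ℝ → E3} (hγ : Sol U γ) (hδ : Sol U δ)
    (h : γ 0 = δ 0) : γ = δ := by
  obtain ⟨K, hK⟩ := hU.exists_lipschitz
  exact ODE_solution_unique_univ (v := fun t x => U (t, x)) (s := fun _ => Set.univ) (K := K)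
    (t₀ := 0) (fun t => (hK t).lipschitzOnWith) (fun t => ⟨hγ t, trivial⟩)
    (fun t => ⟨hδ t, trivial⟩) h

/-- Global flow. -/
theorem exists_flow (U : Field) (hU : Nice U) :
    ∃ Φ : ℝ → E3 → E3, IsFlow U Φ ∧ ∀ x y, Carry U x y → Φ 1 x = y := by
  choose γ hγ hγ0 using hU.exists_sol
  refine ⟨fun t x => γ x t, ⟨fun x => hγ0 x, fun t x => hγ x t⟩, ?_⟩
  rintro x y ⟨δ, hδ, hδ0, hδ1⟩
  have : γ x = δ := hU.sol_unique (hγ x) hδ (by rw [hγ0, hδ0])
  simp only [this, hδ1]

/-! ### The divergence of affine time changes and sums -/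

theorem spaceDiv_timeAffine {U : Field} (hU : ContDiff ℝ ∞ U) (c r s : ℝ)
    (p : ℝ × (Fin 3 → ℝ)) :
    spaceDiv (fun p => c • U (r * p.1 + s, p.2)) p = c * spaceDiv U (r * p.1 + s, p.2) := by
  have hA : HasFDerivAt (fun p : ℝ × (Fin 3 → ℝ) => ((r * p.1 + s, p.2) : ℝ × (Fin 3 → ℝ)))
      ((r • ContinuousLinearMap.fst ℝ ℝ (Fin 3 → ℝ)).prod
        (ContinuousLinearMap.snd ℝ ℝ (Fin 3 → ℝ))) p := by
    refine HasFDerivAt.prodMk ?_ hasFDerivAt_snd
    exact (hasFDerivAt_fst.const_mul r).add_const s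
  have hU' : HasFDerivAt U (fderiv ℝ U (r * p.1 + s, p.2)) (r * p.1 + s, p.2) :=
    (hU.differentiable (by simp) _).hasFDerivAt
  have h := ((hU'.comp p hA).const_smul c).fderiv
  unfold spaceDiv
  have h' : fderiv ℝ (fun p : ℝ × (Fin 3 → ℝ) => c • U (r * p.1 + s, p.2)) p =
      c • (fderiv ℝ U (r * p.1 + s, p.2)).comp
        ((r • ContinuousLinearMap.fst ℝ ℝ (Fin 3 → ℝ)).prod
        (ContinuousLinearMap.snd ℝ ℝ (Fin 3 → ℝ))) := h
  rw [h', Finset.mul_sum]
  refine Finset.sum_congr rfl fun j _ => ?_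
  simp

theorem spaceDiv_add {U V : Field} (hU : ContDiff ℝ ∞ U) (hV : ContDiff ℝ ∞ V)
    (p : ℝ × (Fin 3 → ℝ)) :
    spaceDiv (fun p => U p + V p) p = spaceDiv U p + spaceDiv V p := by
  unfold spaceDiv
  rw [fderiv_fun_add (hU.differentiable (by simp) _) (hV.differentiable (by simp) _),
    ← Finset.sum_add_distrib]
  refine Finset.sum_congr rfl fun j _ => ?_
  simp

theorem contDiff_timeMap (r s : ℝ) :
    ContDiff ℝ ∞ (fun p : ℝ × (Fin 3 → ℝ) => ((r * p.1 + s, p.2) : ℝ × (Fin 3 → ℝ))) := by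
  fun_prop

theorem contDiff_timeAffine {U : Field} (hU : ContDiff ℝ ∞ U) (c r s : ℝ) :
    ContDiff ℝ ∞ (fun p : ℝ × (Fin 3 → ℝ) => c • U (r * p.1 + s, p.2)) :=
  ContDiff.const_smul c (hU.comp (contDiff_timeMap r s))

theorem hasCompactSupport_timeAffine {U : Field} (hU : HasCompactSupport U) (c r s : ℝ)
    (hr : r ≠ 0) :
    HasCompactSupport (fun p : ℝ × (Fin 3 → ℝ) => c • U (r * p.1 + s, p.2)) := by
  let φ : (ℝ × (Fin 3 → ℝ)) ≃ₜ (ℝ × (Fin 3 → ℝ)) :=
    ((Homeomorph.mulLeft₀ r hr).trans (Homeomorph.addRight s)).prodCongr (Homeomorph.refl _)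
  have h := hU.comp_homeomorph φ
  have h2 : HasCompactSupport (fun p : ℝ × (Fin 3 → ℝ) => U (r * p.1 + s, p.2)) := h
  exact h2.smul_left (f := fun _ => c)

theorem nice_zero : Nice (0 : Field) where
  smooth := contDiff_const
  compact := HasCompactSupport.zero
  eff := effective_of_effS _ fun _ => EffS.zero
  time := fun _ _ => rfl
  div := fun p => by
    unfold spaceDiv
    have : fderiv ℝ (0 : Field) p = 0 := by
      have : (0 : Field) = fun _ => 0 := rfl
      rw [this, fderiv_fun_const]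
      rfl
    simp [this]

theorem carry_zero (x : E3) : Carry (0 : Field) x x :=
  ⟨fun _ => x, fun t => hasDerivAt_const t x, rfl, rfl⟩

theorem effective_timeAffine {U : Field} (hU : Nice U) (c r s : ℚ) (j : Fin 3) :
    EffS (fun p => ((c : ℝ) • U ((r : ℝ) * p.1 + (s : ℝ), p.2)) j) :=
  (effS_of_effective U hU.smooth hU.eff j).timeAffine c r s

theorem nice_comp (U V : Field) (hU : Nice U) (hV : Nice V) :
    ∃ W : Field, Nice W ∧ ∀ x y z, Carry U x y → Carry V y z → Carry W x z := by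
  refine ⟨fun p => ((2 : ℚ) : ℝ) • U (((2 : ℚ) : ℝ) * p.1 + ((-1 / 4 : ℚ) : ℝ), p.2) +
    ((2 : ℚ) : ℝ) • V (((2 : ℚ) : ℝ) * p.1 + ((-3 / 4 : ℚ) : ℝ), p.2), ?_, ?_⟩
  · have hsU : ContDiff ℝ ∞ (fun p : ℝ × (Fin 3 → ℝ) =>
        ((2 : ℚ) : ℝ) • U (((2 : ℚ) : ℝ) * p.1 + ((-1 / 4 : ℚ) : ℝ), p.2)) :=
      contDiff_timeAffine hU.smooth _ _ _
    have hsV : ContDiff ℝ ∞ (fun p : ℝ × (Fin 3 → ℝ) =>
        ((2 : ℚ) : ℝ) • V (((2 : ℚ) : ℝ) * p.1 + ((-3 / 4 : ℚ) : ℝ), p.2)) :=
      contDiff_timeAffine hV.smooth _ _ _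
    constructor
    · exact hsU.add hsV
    · exact (hasCompactSupport_timeAffine hU.compact _ _ _ (by norm_num)).add
        (hasCompactSupport_timeAffine hV.compact _ _ _ (by norm_num))
    · refine effective_of_effS _ fun j => ?_
      exact (effective_timeAffine hU 2 2 (-1 / 4) j).add (effective_timeAffine hV 2 2 (-3 / 4) j)
    · intro p hp
      have h1 : p.1 < 1 / 4 ∨ 3 / 4 < p.1 := by
        by_contra hcon
        push Not at hcon
        exact hp ⟨hcon.1, hcon.2⟩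
      have hU0 : U (((2 : ℚ) : ℝ) * p.1 + ((-1 / 4 : ℚ) : ℝ), p.2) = 0 := by
        rcases h1 with h | h
        · exact hU.eq_zero_of_le (by push_cast; linarith) _
        · exact hU.eq_zero_of_ge (by push_cast; linarith) _
      have hV0 : V (((2 : ℚ) : ℝ) * p.1 + ((-3 / 4 : ℚ) : ℝ), p.2) = 0 := by
        rcases h1 with h | h
        · exact hV.eq_zero_of_le (by push_cast; linarith) _
        · exact hV.eq_zero_of_ge (by push_cast; linarith) _
      simp only [hU0, hV0, smul_zero, add_zero]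
    · intro p
      rw [spaceDiv_add hsU hsV, spaceDiv_timeAffine hU.smooth, spaceDiv_timeAffine hV.smooth,
        hU.div, hV.div]
      simp
  · rintro x y z ⟨γ, hγ, hγ0, hγ1⟩ ⟨δ, hδ, hδ0, hδ1⟩
    refine ⟨fun t => γ (((2 : ℚ) : ℝ) * t + ((-1 / 4 : ℚ) : ℝ)) +
      δ (((2 : ℚ) : ℝ) * t + ((-3 / 4 : ℚ) : ℝ)) - y, ?_, ?_, ?_⟩
    · intro t
      have hlin : ∀ s : ℝ, HasDerivAt (fun t : ℝ => ((2 : ℚ) : ℝ) * t + s) ((2 : ℚ) : ℝ) t := by
        intro s
        simpa using ((hasDerivAt_id t).const_mul ((2 : ℚ) : ℝ)).add_const s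
      have h1 := HasDerivAt.scomp t (hγ (((2 : ℚ) : ℝ) * t + ((-1 / 4 : ℚ) : ℝ))) (hlin _)
      have h2 := HasDerivAt.scomp t (hδ (((2 : ℚ) : ℝ) * t + ((-3 / 4 : ℚ) : ℝ))) (hlin _)
      have h3 := (h1.add h2).sub_const y
      have hU1 : U (((2 : ℚ) : ℝ) * t + ((-1 / 4 : ℚ) : ℝ), γ (((2 : ℚ) : ℝ) * t + ((-1 / 4 : ℚ) : ℝ)))
          = U (((2 : ℚ) : ℝ) * t + ((-1 / 4 : ℚ) : ℝ), γ (((2 : ℚ) : ℝ) * t + ((-1 / 4 : ℚ) : ℝ)) +
      δ (((2 : ℚ) : ℝ) * t + ((-3 / 4 : ℚ) : ℝ)) - y) := by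
        rcases le_total t (1 / 2) with h | h
        · have : δ (((2 : ℚ) : ℝ) * t + ((-3 / 4 : ℚ) : ℝ)) = y := by
            rw [hδ.eq_left hV (by push_cast; linarith), hδ0]
          rw [this]
          congr 2
          simp
        · rw [hU.eq_zero_of_ge (by push_cast; linarith), hU.eq_zero_of_ge (by push_cast; linarith)]
      have hV1 : V (((2 : ℚ) : ℝ) * t + ((-3 / 4 : ℚ) : ℝ), δ (((2 : ℚ) : ℝ) * t + ((-3 / 4 : ℚ) : ℝ)))
          = V (((2 : ℚ) : ℝ) * t + ((-3 / 4 : ℚ) : ℝ), γ (((2 : ℚ) : ℝ) * t + ((-1 / 4 : ℚ) : ℝ)) +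
      δ (((2 : ℚ) : ℝ) * t + ((-3 / 4 : ℚ) : ℝ)) - y) := by
        rcases le_total t (1 / 2) with h | h
        · rw [hV.eq_zero_of_le (by push_cast; linarith), hV.eq_zero_of_le (by push_cast; linarith)]
        · have : γ (((2 : ℚ) : ℝ) * t + ((-1 / 4 : ℚ) : ℝ)) = y := by
            rw [hγ.eq_right hU (by push_cast; linarith), hγ1]
          rw [this]
          congr 2
          simp
      rw [hU1, hV1] at h3
      exact h3
    · have e1 : γ (((2 : ℚ) : ℝ) * 0 + ((-1 / 4 : ℚ) : ℝ)) = x := by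
        rw [hγ.eq_left hU (by push_cast; linarith), hγ0]
      have e2 : δ (((2 : ℚ) : ℝ) * 0 + ((-3 / 4 : ℚ) : ℝ)) = y := by
        rw [hδ.eq_left hV (by push_cast; linarith), hδ0]
      simp only [e1, e2]
      simp
    · have e1 : γ (((2 : ℚ) : ℝ) * 1 + ((-1 / 4 : ℚ) : ℝ)) = y := by
        rw [hγ.eq_right hU (by push_cast; linarith), hγ1]
      have e2 : δ (((2 : ℚ) : ℝ) * 1 + ((-3 / 4 : ℚ) : ℝ)) = z := by
        rw [hδ.eq_right hV (by push_cast; linarith), hδ1]
      simp only [e1, e2]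
      simp

/-- Time reversal: `W (t,x) = - U(1-t,x)`. -/
theorem nice_rev (U : Field) (hU : Nice U) :
    ∃ W : Field, Nice W ∧ ∀ x y, Carry U x y → Carry W y x := by
  refine ⟨fun p => ((-1 : ℚ) : ℝ) • U (((-1 : ℚ) : ℝ) * p.1 + ((1 : ℚ) : ℝ), p.2), ?_, ?_⟩
  · constructor
    · exact contDiff_timeAffine hU.smooth _ _ _
    · exact hasCompactSupport_timeAffine hU.compact _ _ _ (by norm_num)
    · refine effective_of_effS _ fun j => ?_
      exact effective_timeAffine hU (-1) (-1) 1 j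
    · intro p hp
      have h1 : p.1 < 1 / 4 ∨ 3 / 4 < p.1 := by
        by_contra hcon
        push Not at hcon
        exact hp ⟨hcon.1, hcon.2⟩
      have hU0 : U (((-1 : ℚ) : ℝ) * p.1 + ((1 : ℚ) : ℝ), p.2) = 0 := by
        rcases h1 with h | h
        · exact hU.eq_zero_of_ge (by push_cast; linarith) _
        · exact hU.eq_zero_of_le (by push_cast; linarith) _
      simp only [hU0, smul_zero]
    · intro p
      rw [spaceDiv_timeAffine hU.smooth, hU.div]
      simp
  · rintro x y ⟨γ, hγ, hγ0, hγ1⟩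
    refine ⟨fun t => γ (((-1 : ℚ) : ℝ) * t + ((1 : ℚ) : ℝ)), ?_, ?_, ?_⟩
    · intro t
      have hlin : HasDerivAt (fun t : ℝ => ((-1 : ℚ) : ℝ) * t + ((1 : ℚ) : ℝ)) ((-1 : ℚ) : ℝ) t := by
        simpa using ((hasDerivAt_id t).const_mul ((-1 : ℚ) : ℝ)).add_const ((1 : ℚ) : ℝ)
      exact HasDerivAt.scomp t (hγ (((-1 : ℚ) : ℝ) * t + ((1 : ℚ) : ℝ))) hlin
    · have : (((-1 : ℚ) : ℝ) * 0 + ((1 : ℚ) : ℝ)) = 1 := by norm_num
      simp only [this, hγ1]
    · have : (((-1 : ℚ) : ℝ) * 1 + ((1 : ℚ) : ℝ)) = 0 := by norm_num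
      simp only [this, hγ0]

end Crest.Agent.S0170
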