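import Mathlib
import Crest.Prelude.Def_BoxFlow
import Crest.Agent.S0170_Defs
import Crest.Agent.S0170_ODE
import Crest.Agent.S0170_Elem

/-! Translations and diagonal scalings of one box from elementary shears (S0170). -/

set_option autoImplicit false

namespace Crest.Agent.S0170

open Crest.AnalysisR.BoxFlow
open scoped ContDiff

/-- the linear shear `y_i += a y_j` -/
noncomputable def shear (s : Fin 3 × Fin 3 × ℚ) (y : E3) : E3 :=
  Function.update y s.1 (y s.1 + (s.2.2 : ℝ) * y s.2.1)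

/-- apply a list of shears, head first -/
noncomputable def applyL : List (Fin 3 × Fin 3 × ℚ) → E3 → E3
  | [], y => y
  | s :: l, y => applyL l (shear s y)

theorem exists_shear1 (i j : Fin 3) (hij : i ≠ j) (a : ℚ) (B : ℚ) (hB : 0 < B) :
    ∀ c : Fin 3 → ℚ, ∃ U : Field, Nice U ∧
      (∀ x : E3, (∀ m, |x m - (c m : ℝ)| ≤ (B : ℝ)) →
        Carry U x (fun m => (c m : ℝ) + shear (i, j, a) (fun m => x m - (c m : ℝ)) m)) ∧
      (∀ x : E3, (∃ m, x m ≤ (c m : ℝ) - (((1 + |a|) * B + 1 : ℚ) : ℝ) ∨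
        (c m : ℝ) + (((1 + |a|) * B + 1 : ℚ) : ℝ) ≤ x m) → Carry U x x) := by
  intro c
  have hR : B ≤ (1 + |a|) * B := by nlinarith [abs_nonneg a]
  obtain ⟨U, hU, h1, h2⟩ := exists_elem i j hij (fun m => c m - (1 + |a|) * B)
    (fun m => c m + (1 + |a|) * B) 1 one_pos (-(a * c j)) a
  refine ⟨U, hU, ?_, ?_⟩
  · intro x hx
    have hRr : (B : ℝ) ≤ (1 + |(a : ℝ)|) * (B : ℝ) := by
      have : ((B : ℚ) : ℝ) ≤ (((1 + |a|) * B : ℚ) : ℝ) := by exact_mod_cast hR
      push_cast at this
      exact this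
    have key := h1 x (fun m => by
      have hm := abs_le.mp (hx m)
      push_cast
      constructor <;> linarith [hm.1, hm.2]) (by
      have hi := abs_le.mp (hx i)
      have hj := hx j
      have h3 : |(a : ℝ) * (x j - (c j : ℝ))| ≤ |(a : ℝ)| * (B : ℝ) := by
        rw [abs_mul]; exact mul_le_mul_of_nonneg_left hj (abs_nonneg _)
      have h4 := abs_le.mp h3
      have e : x i + (((-(a * c j) : ℚ) : ℝ) + (a : ℝ) * x j)
          = x i + (a : ℝ) * (x j - (c j : ℝ)) := by push_cast; ring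
      rw [e]
      push_cast
      constructor <;> nlinarith [hi.1, hi.2, h4.1, h4.2])
    have e : (fun m => (c m : ℝ) + shear (i, j, a) (fun m => x m - (c m : ℝ)) m)
        = Function.update x i (x i + (((-(a * c j) : ℚ) : ℝ) + (a : ℝ) * x j)) := by
      funext m
      unfold shear
      by_cases hm : m = i
      · subst hm
        simp only [Function.update_self]
        push_cast
        ring
      · simp only [Function.update_of_ne hm]
        ring
    rw [e]
    exact key
  · rintro x ⟨m, hm⟩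
    apply h2 x
    refine ⟨m, ?_⟩
    push_cast at hm ⊢
    rcases hm with hm | hm
    · left; linarith
    · right; linarith

theorem exists_shears : ∀ (l : List (Fin 3 × Fin 3 × ℚ)) (_ : ∀ s ∈ l, s.1 ≠ s.2.1) (B : ℚ)
    (_ : 0 < B), ∃ M : ℚ, 0 < M ∧ ∀ c : Fin 3 → ℚ, ∃ U : Field, Nice U ∧
      (∀ x : E3, (∀ m, |x m - (c m : ℝ)| ≤ (B : ℝ)) →
        Carry U x (fun m => (c m : ℝ) + applyL l (fun m => x m - (c m : ℝ)) m)) ∧
      (∀ x : E3, (∃ m, x m ≤ (c m : ℝ) - (M : ℝ) ∨ (c m : ℝ) + (M : ℝ) ≤ x m) → Carry U x x) := by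
  intro l
  induction l with
  | nil =>
    intro _ B hB
    refine ⟨1, one_pos, fun c => ⟨0, nice_zero, fun x _ => ?_, fun x _ => carry_zero x⟩⟩
    have e : (fun m => (c m : ℝ) + applyL [] (fun m => x m - (c m : ℝ)) m) = x := by
      funext m; simp [applyL]
    rw [e]; exact carry_zero x
  | cons s l ih =>
    intro hs B hB
    obtain ⟨i, j, a⟩ := s
    have hij : i ≠ j := hs (i, j, a) (by simp)
    have hB' : 0 < (1 + |a|) * B := by have := abs_nonneg a; positivity
    obtain ⟨M', hM', hM⟩ := ih (fun s hs' => hs s (by simp [hs'])) ((1 + |a|) * B) hB'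
    refine ⟨max ((1 + |a|) * B + 1) M', lt_max_of_lt_right hM', fun c => ?_⟩
    obtain ⟨U, hU, hU1, hU2⟩ := exists_shear1 i j hij a B hB c
    obtain ⟨V, hV, hV1, hV2⟩ := hM c
    obtain ⟨W, hW, hWc⟩ := nice_comp U V hU hV
    refine ⟨W, hW, ?_, ?_⟩
    · intro x hx
      have k1 := hU1 x hx
      have k2 := hV1 (fun m => (c m : ℝ) + shear (i, j, a) (fun m => x m - (c m : ℝ)) m) (by
        intro m
        have e : (c m : ℝ) + shear (i, j, a) (fun m => x m - (c m : ℝ)) m - (c m : ℝ)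
            = shear (i, j, a) (fun m => x m - (c m : ℝ)) m := by ring
        rw [e]
        have hBr : (0 : ℝ) < (B : ℝ) := by exact_mod_cast hB
        push_cast
        unfold shear
        by_cases hm : m = i
        · subst hm
          simp only [Function.update_self]
          calc |x m - (c m : ℝ) + (a : ℝ) * (x j - (c j : ℝ))|
              ≤ |x m - (c m : ℝ)| + |(a : ℝ) * (x j - (c j : ℝ))| := abs_add_le _ _
            _ ≤ (B : ℝ) + |(a : ℝ)| * (B : ℝ) := by
                rw [abs_mul]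
                exact add_le_add (hx m) (mul_le_mul_of_nonneg_left (hx j) (abs_nonneg _))
            _ = (1 + |(a : ℝ)|) * (B : ℝ) := by ring
        · simp only [Function.update_of_ne hm]
          have h1 := hx m
          nlinarith [abs_nonneg (a : ℝ)])
      have k3 := hWc _ _ _ k1 k2
      have e : (fun m => (c m : ℝ) + applyL ((i, j, a) :: l) (fun m => x m - (c m : ℝ)) m)
          = (fun m => (c m : ℝ) + applyL l (fun m => (fun m => (c m : ℝ) + shear (i, j, a)
              (fun m => x m - (c m : ℝ)) m) m - (c m : ℝ)) m) := by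
        have e2 : (fun m => (fun m => (c m : ℝ) + shear (i, j, a)
              (fun m => x m - (c m : ℝ)) m) m - (c m : ℝ))
            = shear (i, j, a) (fun m => x m - (c m : ℝ)) := by
          funext m; ring
        rw [e2]
        rfl
      rw [e]
      exact k3
    · rintro x ⟨m, hm⟩
      have h1 : (((1 + |a|) * B + 1 : ℚ) : ℝ) ≤ ((max ((1 + |a|) * B + 1) M' : ℚ) : ℝ) := by
        exact_mod_cast le_max_left _ _
      have h2 : ((M' : ℚ) : ℝ) ≤ ((max ((1 + |a|) * B + 1) M' : ℚ) : ℝ) := by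
        exact_mod_cast le_max_right _ _
      refine hWc x x x (hU2 x ⟨m, ?_⟩) (hV2 x ⟨m, ?_⟩)
      · rcases hm with hm | hm
        · left; linarith
        · right; linarith
      · rcases hm with hm | hm
        · left; linarith
        · right; linarith

/-- planar scaling `y_i → κ y_i`, `y_j → y_j/κ` as four shears -/
def planar (i j : Fin 3) (κ : ℚ) : List (Fin 3 × Fin 3 × ℚ) :=
  [(j, i, κ - 1), (i, j, 1), (j, i, (1 - κ) / κ), (i, j, -κ)]

theorem exists_scale (h k : Fin 3 → ℚ) (hh : ∀ j, 0 < h j) (hk : ∀ j, 0 < k j)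
    (hvol : ∏ j, k j / h j = 1) :
    ∃ M : ℚ, 0 < M ∧ ∀ c : Fin 3 → ℚ, ∃ U : Field, Nice U ∧
      (∃ O : Set E3, IsOpen O ∧ box c h ⊆ O ∧ ∀ x ∈ O, Carry U x (boxMap c h c k x)) ∧
      (∀ x : E3, (∃ j, x j ≤ (c j : ℝ) - (M : ℝ) ∨ (c j : ℝ) + (M : ℝ) ≤ x j) → Carry U x x) := by
  set r0 : ℚ := k 0 / h 0 with hr0
  set r1 : ℚ := k 1 / h 1 with hr1
  set r2 : ℚ := k 2 / h 2 with hr2
  have p0 : 0 < r0 := div_pos (hk 0) (hh 0)
  have p1 : 0 < r1 := div_pos (hk 1) (hh 1)
  have p2 : 0 < r2 := div_pos (hk 2) (hh 2)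
  have hprod : r0 * r1 * r2 = 1 := by
    rw [← hvol, Fin.prod_univ_three]
  have hB : 0 < h 0 + h 1 + h 2 + 1 := by have := hh 0; have := hh 1; have := hh 2; linarith
  obtain ⟨M, hM, hMc⟩ := exists_shears (planar 0 1 r0 ++ planar 1 2 (r0 * r1)) (by
    intro s hs
    simp only [planar, List.cons_append, List.nil_append, List.mem_cons, List.not_mem_nil,
      or_false] at hs
    rcases hs with rfl | rfl | rfl | rfl | rfl | rfl | rfl | rfl <;> simp)
    (h 0 + h 1 + h 2 + 1) hB
  refine ⟨M, hM, fun c => ?_⟩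
  obtain ⟨U, hU, h1, h2⟩ := hMc c
  refine ⟨U, hU, ⟨{x | ∀ m, |x m - (c m : ℝ)| < ((h 0 + h 1 + h 2 + 1 : ℚ) : ℝ)}, ?_, ?_, ?_⟩, h2⟩
  · have : {x : E3 | ∀ m, |x m - (c m : ℝ)| < ((h 0 + h 1 + h 2 + 1 : ℚ) : ℝ)}
        = ⋂ m, {x : E3 | |x m - (c m : ℝ)| < ((h 0 + h 1 + h 2 + 1 : ℚ) : ℝ)} := by
      ext x; simp
    rw [this]
    exact isOpen_iInter_of_finite fun m =>
      isOpen_lt (((continuous_apply m).sub continuous_const).abs) continuous_const
  · intro x hx m
    have hm := hx m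
    have h0' : (0 : ℝ) < ((h 0 : ℚ) : ℝ) := by exact_mod_cast hh 0
    have h1' : (0 : ℝ) < ((h 1 : ℚ) : ℝ) := by exact_mod_cast hh 1
    have h2' : (0 : ℝ) < ((h 2 : ℚ) : ℝ) := by exact_mod_cast hh 2
    push_cast
    fin_cases m
    · simp only [Fin.zero_eta] at hm ⊢; linarith
    · simp only [Fin.mk_one] at hm ⊢; linarith
    · simp only [Fin.reduceFinMk] at hm ⊢; linarith
  · intro x hx
    have key := h1 x (fun m => le_of_lt (hx m))
    have e : (fun m => (c m : ℝ) + applyL (planar 0 1 r0 ++ planar 1 2 (r0 * r1))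
        (fun m => x m - (c m : ℝ)) m) = boxMap c h c k x := by
      have q0 : ((r0 : ℚ) : ℝ) ≠ 0 := by exact_mod_cast p0.ne'
      have q1 : ((r1 : ℚ) : ℝ) ≠ 0 := by exact_mod_cast p1.ne'
      have q2 : ((r0 : ℚ) : ℝ) * ((r1 : ℚ) : ℝ) * ((r2 : ℚ) : ℝ) = 1 := by exact_mod_cast hprod
      have q3 : ((r2 : ℚ) : ℝ) = 1 / (((r0 : ℚ) : ℝ) * ((r1 : ℚ) : ℝ)) := by
        field_simp
        linarith
      funext m
      simp only [planar, List.cons_append, List.nil_append, applyL, shear, boxMap]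
      fin_cases m
      · simp [Function.update, ← hr0]
        field_simp
        ring
      · simp [Function.update, ← hr1]
        field_simp
        ring
      · simp [Function.update, ← hr2]
        rw [q3]
        field_simp
        ring
    rw [e] at key
    exact key

theorem exists_translate (j : Fin 3) (c h : Fin 3 → ℚ) (hh : ∀ l, 0 < h l) (v δ : ℚ)
    (hδ : 0 < δ) :
    ∃ U : Field, Nice U ∧
      (∃ O : Set E3, IsOpen O ∧ box c h ⊆ O ∧
        ∀ x ∈ O, Carry U x (Function.update x j (x j + (v : ℝ)))) ∧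
      (∀ x : E3,
        (∃ l, x l ≤ ((c l - h l - (if l = j then max 0 (-v) else 0) - δ : ℚ) : ℝ) ∨
          ((c l + h l + (if l = j then max 0 v else 0) + δ : ℚ) : ℝ) ≤ x l) → Carry U x x) := by
  obtain ⟨m, hm⟩ : ∃ m : Fin 3, j ≠ m := by
    revert j; decide
  obtain ⟨U, hU, h1, h2⟩ := exists_elem j m hm
    (fun l => c l - h l - (if l = j then max 0 (-v) else 0) - δ / 2)
    (fun l => c l + h l + (if l = j then max 0 v else 0) + δ / 2) (δ / 2) (half_pos hδ) v 0
  have hδr : (0 : ℝ) < (δ : ℝ) := by exact_mod_cast hδ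
  refine ⟨U, hU, ⟨{x | ∀ l, |x l - (c l : ℝ)| < (h l : ℝ) + (δ : ℝ) / 2}, ?_, ?_, ?_⟩, ?_⟩
  · have : {x : E3 | ∀ l, |x l - (c l : ℝ)| < (h l : ℝ) + (δ : ℝ) / 2}
        = ⋂ l, {x : E3 | |x l - (c l : ℝ)| < (h l : ℝ) + (δ : ℝ) / 2} := by
      ext x; simp
    rw [this]
    exact isOpen_iInter_of_finite fun l =>
      isOpen_lt (((continuous_apply l).sub continuous_const).abs) continuous_const
  · intro x hx l
    have := hx l
    linarith
  · intro x hx
    have e : x j + (v : ℝ) = x j + ((v : ℝ) + ((0 : ℚ) : ℝ) * x m) := by simp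
    rw [e]
    apply h1 x
    · intro l
      have hl := abs_lt.mp (hx l)
      have n1 : (0 : ℚ) ≤ if l = j then max 0 (-v) else 0 := by split_ifs <;> simp
      have n2 : (0 : ℚ) ≤ if l = j then max 0 v else 0 := by split_ifs <;> simp
      have n1r : (0 : ℝ) ≤ (((if l = j then max 0 (-v) else 0 : ℚ)) : ℝ) := by exact_mod_cast n1
      have n2r : (0 : ℝ) ≤ (((if l = j then max 0 v else 0 : ℚ)) : ℝ) := by exact_mod_cast n2
      constructor
      · rw [Rat.cast_sub, Rat.cast_sub, Rat.cast_sub, Rat.cast_div]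
        push_cast at n1r ⊢
        linarith [hl.1]
      · rw [Rat.cast_add, Rat.cast_add, Rat.cast_add, Rat.cast_div]
        push_cast at n2r ⊢
        linarith [hl.2]
    · have hl := abs_lt.mp (hx j)
      have n1 : -(max 0 (-v)) ≤ v := by
        rcases le_total 0 (-v) with h0 | h0
        · rw [max_eq_right h0]; linarith
        · rw [max_eq_left h0]; linarith
      have n2 : v ≤ max 0 v := le_max_right _ _
      have n1r : -((max 0 (-v) : ℚ) : ℝ) ≤ (v : ℝ) := by exact_mod_cast n1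
      have n2r : (v : ℝ) ≤ ((max 0 v : ℚ) : ℝ) := by exact_mod_cast n2
      simp only [if_true]
      constructor
      · rw [Rat.cast_sub, Rat.cast_sub, Rat.cast_sub, Rat.cast_div]
        push_cast at n1r ⊢
        linarith [hl.1]
      · rw [Rat.cast_add, Rat.cast_add, Rat.cast_add, Rat.cast_div]
        push_cast at n2r ⊢
        linarith [hl.2]
  · rintro x ⟨l, hl⟩
    apply h2 x
    refine ⟨l, ?_⟩
    rcases hl with hl | hl
    · left
      have e : ((c l - h l - (if l = j then max 0 (-v) else 0) - δ / 2 : ℚ) : ℝ) - ((δ / 2 : ℚ) : ℝ)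
          = ((c l - h l - (if l = j then max 0 (-v) else 0) - δ : ℚ) : ℝ) := by
        rw [← Rat.cast_sub]; congr 1; ring
      rw [e]; exact hl
    · right
      have e : ((c l + h l + (if l = j then max 0 v else 0) + δ / 2 : ℚ) : ℝ) + ((δ / 2 : ℚ) : ℝ)
          = ((c l + h l + (if l = j then max 0 v else 0) + δ : ℚ) : ℝ) := by
        rw [← Rat.cast_add]; congr 1; ring
      rw [e]; exact hl

end Crest.Agent.S0170
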