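import Mathlib
import Crest.Prelude.Def_BoxFlow
import Crest.Agent.S0170_Defs
import Crest.Agent.S0170_ODE
import Crest.Agent.S0170_Scale

/-! Steering relation for configurations of boxes (S0170). -/

set_option autoImplicit false

namespace Crest.Agent.S0170

open Crest.AnalysisR.BoxFlow
open scoped ContDiff

/-- Configurations: centres `c`, half-widths `h` to centres `c'`, half-widths `k`. -/
def Reach {n : ℕ} (c h c' k : Fin n → Fin 3 → ℚ) : Prop :=
  Steer (fun i => box (c i) (h i)) (fun i => boxMap (c i) (h i) (c' i) (k i))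

theorem boxMap_continuous (c h c' k : Fin 3 → ℚ) : Continuous (boxMap c h c' k) := by
  unfold boxMap
  fun_prop

theorem boxMap_comp (c h c' h' c'' h'' : Fin 3 → ℚ) (hh' : ∀ j, 0 < h' j) (x : E3) :
    boxMap c' h' c'' h'' (boxMap c h c' h' x) = boxMap c h c'' h'' x := by
  funext j
  have h2 : ((h' j : ℚ) : ℝ) ≠ 0 := by exact_mod_cast (hh' j).ne'
  simp only [boxMap]
  push_cast
  by_cases h1 : ((h j : ℚ) : ℝ) = 0
  · rw [h1]; simp
  · field_simp
    ring

theorem boxMap_inv (c h c' h' : Fin 3 → ℚ) (hh : ∀ j, 0 < h j) (hh' : ∀ j, 0 < h' j) (x : E3) :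
    boxMap c h c' h' (boxMap c' h' c h x) = x := by
  rw [boxMap_comp c' h' c h c' h' hh]
  funext j
  have : h' j / h' j = 1 := div_self (ne_of_gt (hh' j))
  simp [boxMap, this]

theorem boxMap_mem (c h c' h' : Fin 3 → ℚ) (hh : ∀ j, 0 < h j) (hh' : ∀ j, 0 < h' j) (x : E3)
    (hx : x ∈ box c h) : boxMap c h c' h' x ∈ box c' h' := by
  intro j
  have hxj := hx j
  have h1 : (0 : ℝ) < ((h j : ℚ) : ℝ) := by exact_mod_cast hh j
  have h2 : (0 : ℝ) < ((h' j : ℚ) : ℝ) := by exact_mod_cast hh' j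
  have e : boxMap c h c' h' x j - (c' j : ℝ) = ((h' j : ℝ) / (h j : ℝ)) * (x j - (c j : ℝ)) := by
    simp only [boxMap]
    push_cast
    ring
  rw [e, abs_mul, abs_of_pos (div_pos h2 h1)]
  calc (h' j : ℝ) / (h j : ℝ) * |x j - (c j : ℝ)| ≤ (h' j : ℝ) / (h j : ℝ) * (h j : ℝ) := by
        apply mul_le_mul_of_nonneg_left hxj (le_of_lt (div_pos h2 h1))
    _ = (h' j : ℝ) := by field_simp

theorem Reach.trans {n : ℕ} {c h c' h' c'' h'' : Fin n → Fin 3 → ℚ}
    (hh : ∀ i j, 0 < h i j) (hh' : ∀ i j, 0 < h' i j)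
    (h1 : Reach c h c' h') (h2 : Reach c' h' c'' h'') : Reach c h c'' h'' := by
  obtain ⟨U, hU, hUc⟩ := h1
  obtain ⟨V, hV, hVc⟩ := h2
  obtain ⟨W, hW, hWc⟩ := nice_comp U V hU hV
  refine ⟨W, hW, fun i => ?_⟩
  obtain ⟨O1, hO1, hK1, hC1⟩ := hUc i
  obtain ⟨O2, hO2, hK2, hC2⟩ := hVc i
  refine ⟨O1 ∩ (boxMap (c i) (h i) (c' i) (h' i)) ⁻¹' O2,
    hO1.inter (hO2.preimage (boxMap_continuous _ _ _ _)), ?_, ?_⟩
  · intro x hx
    exact ⟨hK1 hx, hK2 (boxMap_mem _ _ _ _ (hh i) (hh' i) x hx)⟩
  · rintro x ⟨hx1, hx2⟩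
    have := hWc x _ _ (hC1 x hx1) (hC2 _ hx2)
    beta_reduce at this ⊢
    rw [boxMap_comp _ _ _ _ _ _ (hh' i)] at this
    exact this

theorem Reach.symm {n : ℕ} {c h c' h' : Fin n → Fin 3 → ℚ}
    (hh : ∀ i j, 0 < h i j) (hh' : ∀ i j, 0 < h' i j)
    (h1 : Reach c h c' h') : Reach c' h' c h := by
  obtain ⟨U, hU, hUc⟩ := h1
  obtain ⟨W, hW, hWc⟩ := nice_rev U hU
  refine ⟨W, hW, fun i => ?_⟩
  obtain ⟨O1, hO1, hK1, hC1⟩ := hUc i
  refine ⟨(boxMap (c' i) (h' i) (c i) (h i)) ⁻¹' O1,
    hO1.preimage (boxMap_continuous _ _ _ _), ?_, ?_⟩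
  · intro x hx
    exact hK1 (boxMap_mem _ _ _ _ (hh' i) (hh i) x hx)
  · intro x hx
    have := hWc _ _ (hC1 _ hx)
    beta_reduce at this ⊢
    rw [boxMap_inv _ _ _ _ (hh i) (hh' i)] at this
    exact this

theorem Reach.refl {n : ℕ} (c h : Fin n → Fin 3 → ℚ) (hh : ∀ i j, 0 < h i j) : Reach c h c h := by
  refine ⟨0, nice_zero, fun i => ⟨Set.univ, isOpen_univ, Set.subset_univ _, fun x _ => ?_⟩⟩
  have e : boxMap (c i) (h i) (c i) (h i) x = x := by
    funext j
    have : h i j / h i j = 1 := div_self (ne_of_gt (hh i j))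
    simp [boxMap, this]
  beta_reduce
  rw [e]
  exact carry_zero x

theorem Reach.move {n : ℕ} (c h : Fin n → Fin 3 → ℚ) (hh : ∀ i j, 0 < h i j)
    (i0 : Fin n) (j : Fin 3) (v : ℚ)
    (hgap : ∀ i, i ≠ i0 → ∃ l,
      c i l + h i l < c i0 l - h i0 l - (if l = j then max 0 (-v) else 0) ∨
      c i0 l + h i0 l + (if l = j then max 0 v else 0) < c i l - h i l) :
    Reach c h (Function.update c i0 (Function.update (c i0) j (c i0 j + v))) h := by
  classical
  -- choose a common margin
  choose l hl using hgap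
  -- gap size for each i
  let gp : Fin n → ℚ := fun i => if hi : i ≠ i0 then
    max (c i0 (l i hi) - h i0 (l i hi) - (if l i hi = j then max 0 (-v) else 0)
        - (c i (l i hi) + h i (l i hi)))
      (c i (l i hi) - h i (l i hi)
        - (c i0 (l i hi) + h i0 (l i hi) + (if l i hi = j then max 0 v else 0))) else 1
  have gpos : ∀ i, 0 < gp i := by
    intro i
    by_cases hi : i ≠ i0
    · simp only [gp, dif_pos hi]
      rcases hl i hi with h1 | h1
      · apply lt_max_of_lt_left; linarith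
      · apply lt_max_of_lt_right; linarith
    · simp only [gp, dif_neg hi]
      exact one_pos
  obtain ⟨δ, hδ, hδg⟩ : ∃ δ : ℚ, 0 < δ ∧ ∀ i, δ < gp i := by
    rcases isEmpty_or_nonempty (Fin n) with hE | hE
    · exact ⟨1, one_pos, fun i => hE.elim i⟩
    · obtain ⟨i1, hi1⟩ := Finite.exists_min gp
      exact ⟨gp i1 / 2, half_pos (gpos i1), fun i => lt_of_lt_of_le (half_lt_self (gpos i1)) (hi1 i)⟩
  obtain ⟨U, hU, ⟨O, hO, hOb, hOc⟩, hout⟩ := exists_translate j (c i0) (h i0) (hh i0) v δ hδ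
  refine ⟨U, hU, fun i => ?_⟩
  by_cases hi : i = i0
  · subst hi
    refine ⟨O, hO, hOb, fun x hx => ?_⟩
    have h1 := hOc x hx
    have e : boxMap (c i) (h i) (Function.update c i (Function.update (c i) j (c i j + v)) i) (h i) x
        = Function.update x j (x j + (v : ℝ)) := by
      funext m
      have hm : h i m / h i m = 1 := div_self (ne_of_gt (hh i m))
      by_cases hmj : m = j
      · subst hmj
        simp [boxMap, hm, Function.update_self]
        ring
      · simp [boxMap, hm, Function.update_self, Function.update_of_ne hmj]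
    beta_reduce
    rw [e]
    exact h1
  · have e : ∀ x : E3, boxMap (c i) (h i)
        (Function.update c i0 (Function.update (c i0) j (c i0 j + v)) i) (h i) x = x := by
      intro x
      funext m
      have hm : h i m / h i m = 1 := div_self (ne_of_gt (hh i m))
      simp [boxMap, hm, Function.update_of_ne hi]
    have hg := hδg i
    simp only [gp, dif_pos (show i ≠ i0 from hi)] at hg
    rcases lt_max_iff.mp hg with h1 | h1
    · refine ⟨{x | x (l i hi) < ((c i0 (l i hi) - h i0 (l i hi)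
          - (if l i hi = j then max 0 (-v) else 0) - δ : ℚ) : ℝ)},
        isOpen_lt (continuous_apply _) continuous_const, ?_, ?_⟩
      · intro x hx
        have hx1 := (abs_le.mp (hx (l i hi))).2
        have h2 : c i (l i hi) + h i (l i hi) < c i0 (l i hi) - h i0 (l i hi)
          - (if l i hi = j then max 0 (-v) else 0) - δ := by linarith
        have h3 : ((c i (l i hi) + h i (l i hi) : ℚ) : ℝ) < ((c i0 (l i hi) - h i0 (l i hi)
          - (if l i hi = j then max 0 (-v) else 0) - δ : ℚ) : ℝ) := by exact_mod_cast h2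
        rw [Rat.cast_add] at h3
        show x (l i hi) < _
        linarith
      · intro x hx
        beta_reduce
        rw [e x]
        exact hout x ⟨l i hi, Or.inl (le_of_lt hx)⟩
    · refine ⟨{x | ((c i0 (l i hi) + h i0 (l i hi)
          + (if l i hi = j then max 0 v else 0) + δ : ℚ) : ℝ) < x (l i hi)},
        isOpen_lt continuous_const (continuous_apply _), ?_, ?_⟩
      · intro x hx
        have hx1 := (abs_le.mp (hx (l i hi))).1
        have h2 : c i0 (l i hi) + h i0 (l i hi) + (if l i hi = j then max 0 v else 0) + δ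
          < c i (l i hi) - h i (l i hi) := by linarith
        have h3 : ((c i0 (l i hi) + h i0 (l i hi) + (if l i hi = j then max 0 v else 0) + δ : ℚ) : ℝ)
          < ((c i (l i hi) - h i (l i hi) : ℚ) : ℝ) := by exact_mod_cast h2
        rw [Rat.cast_sub (c i (l i hi))] at h3
        show _ < x (l i hi)
        linarith
      · intro x hx
        beta_reduce
        rw [e x]
        exact hout x ⟨l i hi, Or.inr (le_of_lt hx)⟩

end Crest.Agent.S0170
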