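import Mathlib
import Crest.Prelude.Def_BoxFlow
import Crest.Agent.S0170_Defs
import Crest.Agent.S0170_Scale
import Crest.Agent.S0170_Steer

/-! Geometry chunk of S0170: parking the boxes one at a time, scaling them when parked. -/

set_option autoImplicit false

namespace Crest.Agent.S0170

open Crest.AnalysisR.BoxFlow
open scoped ContDiff

/-- parking positions -/
def park {n : ℕ} (L : ℚ) (i : Fin n) : Fin 3 → ℚ := ![L, L * ((i : ℕ) + 1 : ℚ), 0]

theorem park_zero {n : ℕ} (L : ℚ) (i : Fin n) : park L i 0 = L := rfl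
theorem park_one {n : ℕ} (L : ℚ) (i : Fin n) : park L i 1 = L * ((i : ℕ) + 1 : ℚ) := rfl
theorem park_two {n : ℕ} (L : ℚ) (i : Fin n) : park L i 2 = 0 := rfl

/-- Version of `Reach.move` with a target coordinate value and a simpler gap condition. -/
theorem Reach.moveTo {n : ℕ} (c h : Fin n → Fin 3 → ℚ) (hh : ∀ i j, 0 < h i j)
    (i0 : Fin n) (j : Fin 3) (w : ℚ)
    (hgap : ∀ i, i ≠ i0 → ∃ l,
      (if l = j then (c i l + h i l < c i0 l - h i0 l ∧ c i l + h i l < w - h i0 l) ∨
          (c i0 l + h i0 l < c i l - h i l ∧ w + h i0 l < c i l - h i l)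
       else c i l + h i l < c i0 l - h i0 l ∨ c i0 l + h i0 l < c i l - h i l)) :
    Reach c h (Function.update c i0 (Function.update (c i0) j w)) h := by
  have key := Reach.move c h hh i0 j (w - c i0 j) (fun i hi => by
    obtain ⟨l, hl⟩ := hgap i hi
    refine ⟨l, ?_⟩
    by_cases hlj : l = j
    · subst hlj
      simp only [if_true] at hl ⊢
      rcases hl with ⟨h1, h2⟩ | ⟨h1, h2⟩
      · left
        rcases le_total 0 (-(w - c i0 l)) with h0 | h0
        · rw [max_eq_right h0]; linarith
        · rw [max_eq_left h0]; linarith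
      · right
        rcases le_total 0 (w - c i0 l) with h0 | h0
        · rw [max_eq_right h0]; linarith
        · rw [max_eq_left h0]; linarith
    · simp only [if_neg hlj] at hl ⊢
      rcases hl with h1 | h1
      · left; linarith
      · right; linarith)
  have e : c i0 j + (w - c i0 j) = w := by ring
  rw [e] at key
  exact key

/-- partially parked configuration -/
def conf {n : ℕ} (a : Fin n → Fin 3 → ℚ) (L : ℚ) (S : Finset (Fin n)) (i : Fin n) : Fin 3 → ℚ :=
  if i ∈ S then park L i else a i

theorem disjoint_box_gap (c h c' h' : Fin 3 → ℚ) (hh : ∀ j, 0 < h j) (hh' : ∀ j, 0 < h' j)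
    (hd : Disjoint (box c h) (box c' h')) :
    ∃ l, c l + h l < c' l - h' l ∨ c' l + h' l < c l - h l := by
  by_contra hcon
  push Not at hcon
  -- build a common point
  have hpt : ∀ l : Fin 3, ∃ x : ℝ, |x - (c l : ℝ)| ≤ (h l : ℝ) ∧ |x - (c' l : ℝ)| ≤ (h' l : ℝ) := by
    intro l
    obtain ⟨h1, h2⟩ := hcon l
    have h1' : ((c' l : ℝ) - (h' l : ℝ)) ≤ (c l : ℝ) + (h l : ℝ) := by exact_mod_cast h1
    have h2' : ((c l : ℝ) - (h l : ℝ)) ≤ (c' l : ℝ) + (h' l : ℝ) := by exact_mod_cast h2
    have hp : (0 : ℝ) < (h l : ℝ) := by exact_mod_cast hh l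
    have hp' : (0 : ℝ) < (h' l : ℝ) := by exact_mod_cast hh' l
    refine ⟨max ((c l : ℝ) - (h l : ℝ)) ((c' l : ℝ) - (h' l : ℝ)), ?_, ?_⟩
    · rw [abs_le]
      constructor
      · have := le_max_left ((c l : ℝ) - (h l : ℝ)) ((c' l : ℝ) - (h' l : ℝ)); linarith
      · have : max ((c l : ℝ) - (h l : ℝ)) ((c' l : ℝ) - (h' l : ℝ)) ≤ (c l : ℝ) + (h l : ℝ) :=
          max_le (by linarith) h1'
        linarith
    · rw [abs_le]
      constructor
      · have := le_max_right ((c l : ℝ) - (h l : ℝ)) ((c' l : ℝ) - (h' l : ℝ)); linarith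
      · have : max ((c l : ℝ) - (h l : ℝ)) ((c' l : ℝ) - (h' l : ℝ)) ≤ (c' l : ℝ) + (h' l : ℝ) :=
          max_le h2' (by linarith)
        linarith
  choose x hx using hpt
  have m1 : (fun l => x l) ∈ box c h := fun l => (hx l).1
  have m2 : (fun l => x l) ∈ box c' h' := fun l => (hx l).2
  exact Set.disjoint_left.mp hd m1 m2

/-- gap between a stationary box `(p,hp)` and the corridor of the box `(y,hy)` whose coordinate `j`
moves to `w` -/
def Gap (p hp y hy : Fin 3 → ℚ) (j : Fin 3) (w : ℚ) : Prop :=
  ∃ l, (if l = j then (p l + hp l < y l - hy l ∧ p l + hp l < w - hy l) ∨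
          (y l + hy l < p l - hp l ∧ w + hy l < p l - hp l)
       else p l + hp l < y l - hy l ∨ y l + hy l < p l - hp l)

theorem reach_step {n : ℕ} (C h : Fin n → Fin 3 → ℚ) (hh : ∀ i j, 0 < h i j)
    (i0 : Fin n) (y : Fin 3 → ℚ) (j : Fin 3) (w : ℚ)
    (hgap : ∀ i, i ≠ i0 → Gap (C i) (h i) y (h i0) j w) :
    Reach (Function.update C i0 y) h (Function.update C i0 (Function.update y j w)) h := by
  have key := Reach.moveTo (Function.update C i0 y) h hh i0 j w (fun i hi => by
    have := hgap i hi
    unfold Gap at this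
    simpa [Function.update_of_ne hi, Function.update_self] using this)
  simpa [Function.update_self, Function.update_idem] using key

theorem nat_gap {n : ℕ} (L : ℚ) (hL : 0 < L) (i i0 : Fin n) (hi : i ≠ i0) :
    L * ((i : ℕ) + 1 : ℚ) + L ≤ L * ((i0 : ℕ) + 1 : ℚ) ∨
      L * ((i0 : ℕ) + 1 : ℚ) + L ≤ L * ((i : ℕ) + 1 : ℚ) := by
  rcases lt_or_gt_of_ne (fun h => hi (Fin.ext h) : (i : ℕ) ≠ (i0 : ℕ)) with h1 | h1
  · left
    have : ((i : ℕ) : ℚ) + 1 ≤ ((i0 : ℕ) : ℚ) := by exact_mod_cast h1
    nlinarith
  · right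
    have : ((i0 : ℕ) : ℚ) + 1 ≤ ((i : ℕ) : ℚ) := by exact_mod_cast h1
    nlinarith

theorem park_one_ge {n : ℕ} (L : ℚ) (hL : 0 < L) (i : Fin n) : L ≤ park L i 1 := by
  rw [park_one]
  have : (0 : ℚ) ≤ ((i : ℕ) : ℚ) := by positivity
  nlinarith

theorem reach_insert {n : ℕ} (a h : Fin n → Fin 3 → ℚ) (hh : ∀ i j, 0 < h i j)
    (ha : Pairwise fun i i' => Disjoint (box (a i) (h i)) (box (a i') (h i')))
    (M L : ℚ) (hM1 : ∀ i j, a i j + h i j ≤ M) (hM2 : ∀ i j, -M ≤ a i j - h i j)
    (hL : 2 * M < L) (S : Finset (Fin n)) (i0 : Fin n) (hi0 : i0 ∉ S)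
    (hmax : ∀ i, i ∉ S → a i 0 ≤ a i0 0) :
    Reach (conf a L S) h (conf a L (insert i0 S)) h := by
  have hhM : ∀ i j, h i j ≤ M := fun i j => by have := hM1 i j; have := hM2 i j; linarith
  have hMpos : 0 < M := lt_of_lt_of_le (hh i0 0) (hhM i0 0)
  have hLpos : 0 < L := by linarith
  set C := conf a L S with hC
  have hCS : ∀ i, i ∈ S → C i = park L i := fun i hi => by simp [hC, conf, hi]
  have hCn : ∀ i, i ∉ S → C i = a i := fun i hi => by simp [hC, conf, hi]
  have hpark1 : ∀ i : Fin n, L ≤ park L i 1 := fun i => park_one_ge L hLpos i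
  -- move 1
  have m1 : Reach (Function.update C i0 (a i0)) h
      (Function.update C i0 (Function.update (a i0) 0 (2 * L))) h := by
    apply reach_step C h hh
    intro i hi
    by_cases hiS : i ∈ S
    · rw [hCS i hiS]
      refine ⟨1, ?_⟩
      rw [if_neg (by decide)]
      right
      have h1 := hM1 i0 1
      have h2 := hhM i 1
      have h3 := hpark1 i
      linarith
    · rw [hCn i hiS]
      obtain ⟨l, hl⟩ := disjoint_box_gap (a i) (h i) (a i0) (h i0) (hh i) (hh i0) (ha hi)
      refine ⟨l, ?_⟩
      by_cases hl0 : l = 0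
      · subst hl0
        rw [if_pos rfl]
        rcases hl with hl | hl
        · left
          refine ⟨hl, ?_⟩
          have h1 := hM1 i 0
          have h2 := hhM i0 0
          linarith
        · exfalso
          have h1 := hmax i hiS
          have h2 := hh i 0
          have h3 := hh i0 0
          linarith
      · rw [if_neg hl0]
        exact hl
  -- general gap in coordinate 0 at height 2L
  have hgap0 : ∀ (y : Fin 3 → ℚ) (j : Fin 3) (w : ℚ), j ≠ 0 → y 0 = 2 * L → ∀ i, i ≠ i0 →
      Gap (C i) (h i) y (h i0) j w := by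
    intro y j w hj hy i hi
    refine ⟨0, ?_⟩
    rw [if_neg (fun h => hj h.symm)]
    left
    rw [hy]
    have h2 := hhM i0 0
    have h4 := hhM i 0
    by_cases hiS : i ∈ S
    · rw [hCS i hiS, park_zero]
      linarith
    · rw [hCn i hiS]
      have h1 := hM1 i 0
      linarith
  set y1 := Function.update (a i0) 0 (2 * L) with hy1
  have hy10 : y1 0 = 2 * L := by simp [hy1]
  have m2 : Reach (Function.update C i0 y1) h
      (Function.update C i0 (Function.update y1 2 0)) h :=
    reach_step C h hh i0 y1 2 0 (hgap0 y1 2 0 (by decide) hy10)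
  set y2 := Function.update y1 2 0 with hy2
  have hy20 : y2 0 = 2 * L := by rw [hy2, Function.update_of_ne (by decide)]; exact hy10
  have m3 : Reach (Function.update C i0 y2) h
      (Function.update C i0 (Function.update y2 1 (park L i0 1))) h :=
    reach_step C h hh i0 y2 1 _ (hgap0 y2 1 _ (by decide) hy20)
  set y3 := Function.update y2 1 (park L i0 1) with hy3
  have hy31 : y3 1 = park L i0 1 := by simp [hy3]
  have m4 : Reach (Function.update C i0 y3) h
      (Function.update C i0 (Function.update y3 0 L)) h := by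
    apply reach_step C h hh
    intro i hi
    refine ⟨1, ?_⟩
    rw [if_neg (by decide), hy31]
    have h2 := hhM i0 1
    have h4 := hhM i 1
    by_cases hiS : i ∈ S
    · rw [hCS i hiS]
      simp only [park_one]
      rcases nat_gap L hLpos i i0 hi with hg | hg
      · left; linarith
      · right; linarith
    · rw [hCn i hiS]
      left
      have h1 := hM1 i 1
      have h3 := hpark1 i0
      linarith
  have e0 : Function.update C i0 (a i0) = C := by
    rw [← hCn i0 hi0]; exact Function.update_eq_self i0 C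
  have e4 : Function.update C i0 (Function.update y3 0 L) = conf a L (insert i0 S) := by
    funext i
    by_cases hii : i = i0
    · subst hii
      rw [Function.update_self]
      simp only [conf, Finset.mem_insert_self, if_true]
      funext l
      fin_cases l
      · simp [park]
      · simp [hy3, park]
      · simp [hy3, hy2, park]
    · rw [Function.update_of_ne hii]
      simp [hC, conf, hii]
  rw [e0] at m1
  rw [e4] at m4
  exact Reach.trans hh hh (Reach.trans hh hh (Reach.trans hh hh m1 m2) m3) m4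

theorem reach_conf_univ {n : ℕ} (a h : Fin n → Fin 3 → ℚ) (hh : ∀ i j, 0 < h i j)
    (ha : Pairwise fun i i' => Disjoint (box (a i) (h i)) (box (a i') (h i')))
    (M L : ℚ) (hM1 : ∀ i j, a i j + h i j ≤ M) (hM2 : ∀ i j, -M ≤ a i j - h i j)
    (hL : 2 * M < L) : ∀ (m : ℕ) (S : Finset (Fin n)), (Sᶜ).card = m →
    Reach (conf a L S) h (conf a L Finset.univ) h := by
  intro m
  induction m with
  | zero =>
    intro S hS
    have : S = Finset.univ := by
      have h1 : Sᶜ = ∅ := Finset.card_eq_zero.mp hS
      simpa using h1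
    rw [this]
    exact Reach.refl _ h hh
  | succ m ih =>
    intro S hS
    have hne : (Sᶜ).Nonempty := by
      rw [← Finset.card_pos]; omega
    obtain ⟨i0, hi0, hmax⟩ := Finset.exists_max_image Sᶜ (fun i => a i 0) hne
    have hi0S : i0 ∉ S := by simpa using hi0
    have h1 := reach_insert a h hh ha M L hM1 hM2 hL S i0 hi0S
      (fun i hi => hmax i (by simpa using hi))
    have hcard : ((insert i0 S)ᶜ).card = m := by
      have h2 := Finset.card_compl_add_card (insert i0 S)
      have h3 := Finset.card_compl_add_card S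
      rw [Finset.card_insert_of_notMem hi0S] at h2
      omega
    exact Reach.trans hh hh h1 (ih _ hcard)

theorem exists_bound {n : ℕ} (f : Fin n → Fin 3 → ℚ) : ∃ M : ℚ, 0 ≤ M ∧ ∀ i j, f i j ≤ M := by
  refine ⟨∑ i, ∑ j, |f i j|, Finset.sum_nonneg fun i _ => Finset.sum_nonneg fun j _ => abs_nonneg _,
    fun i j => ?_⟩
  calc f i j ≤ |f i j| := le_abs_self _
    _ ≤ ∑ j, |f i j| := Finset.single_le_sum (f := fun j => |f i j|)
        (fun j _ => abs_nonneg _) (Finset.mem_univ j)
    _ ≤ ∑ i, ∑ j, |f i j| := Finset.single_le_sum (f := fun i => ∑ j, |f i j|)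
        (fun i _ => Finset.sum_nonneg fun j _ => abs_nonneg _) (Finset.mem_univ i)

theorem reach_park {n : ℕ} (a h : Fin n → Fin 3 → ℚ) (hh : ∀ i j, 0 < h i j)
    (ha : Pairwise fun i i' => Disjoint (box (a i) (h i)) (box (a i') (h i'))) :
    ∃ L0 : ℚ, ∀ L : ℚ, L0 ≤ L → Reach a h (fun i => park L i) h := by
  obtain ⟨M1, hM1p, hM1⟩ := exists_bound (fun i j => a i j + h i j)
  obtain ⟨M2, hM2p, hM2⟩ := exists_bound (fun i j => -(a i j - h i j))
  refine ⟨2 * (M1 + M2) + 1, fun L hL => ?_⟩
  have key := reach_conf_univ a h hh ha (M1 + M2) L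
    (fun i j => by have := hM1 i j; linarith)
    (fun i j => by have := hM2 i j; linarith)
    (by linarith) _ ∅ rfl
  have e1 : conf a L ∅ = a := by funext i; simp [conf]
  have e2 : conf a L Finset.univ = fun i => park L i := by funext i; simp [conf]
  rw [e1, e2] at key
  exact key

theorem boxMap_self (c h : Fin 3 → ℚ) (hh : ∀ j, 0 < h j) (x : E3) : boxMap c h c h x = x := by
  funext j
  have : h j / h j = 1 := div_self (ne_of_gt (hh j))
  simp [boxMap, this]

/-- partially scaled half-widths -/
def hconf {n : ℕ} (h k : Fin n → Fin 3 → ℚ) (S : Finset (Fin n)) (i : Fin n) : Fin 3 → ℚ :=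
  if i ∈ S then k i else h i

theorem reach_scale_park {n : ℕ} (h k : Fin n → Fin 3 → ℚ) (hh : ∀ i j, 0 < h i j)
    (hk : ∀ i j, 0 < k i j) (hvol : ∀ i, ∏ j : Fin 3, k i j / h i j = 1) :
    ∃ L0 : ℚ, ∀ L : ℚ, L0 ≤ L → Reach (fun i => park L i) h (fun i => park L i) k := by
  choose M hMpos hM using fun i => exists_scale (h i) (k i) (hh i) (hk i) (hvol i)
  obtain ⟨B1, hB1p, hB1⟩ := exists_bound (fun i (_ : Fin 3) => M i)
  obtain ⟨B2, hB2p, hB2⟩ := exists_bound h
  obtain ⟨B3, hB3p, hB3⟩ := exists_bound k
  refine ⟨B1 + B2 + B3 + 1, fun L hL => ?_⟩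
  have hLpos : 0 < L := by linarith
  have hpos : ∀ S : Finset (Fin n), ∀ i j, 0 < hconf h k S i j := by
    intro S i j
    unfold hconf
    split_ifs
    · exact hk i j
    · exact hh i j
  have hle : ∀ S : Finset (Fin n), ∀ i j, hconf h k S i j ≤ B2 + B3 := by
    intro S i j
    unfold hconf
    split_ifs
    · have := hB3 i j; linarith
    · have := hB2 i j; linarith
  have key : ∀ S : Finset (Fin n),
      Reach (fun i => park L i) h (fun i => park L i) (hconf h k S) := by
    intro S
    induction S using Finset.induction_on with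
    | empty =>
      have : hconf h k ∅ = h := by funext i; simp [hconf]
      rw [this]
      exact Reach.refl _ h hh
    | insert i0 S hi0 ih =>
      refine Reach.trans hh (hpos S) ih ?_
      obtain ⟨U, hU, ⟨O, hO, hOb, hOc⟩, hout⟩ := hM i0 (park L i0)
      have e1 : hconf h k S i0 = h i0 := by simp [hconf, hi0]
      have e2 : hconf h k (insert i0 S) i0 = k i0 := by simp [hconf]
      refine ⟨U, hU, fun i => ?_⟩
      by_cases hii : i = i0
      · subst hii
        refine ⟨O, hO, ?_, ?_⟩
        · beta_reduce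
          rw [e1]; exact hOb
        · intro x hx
          beta_reduce
          rw [e1, e2]
          exact hOc x hx
      · have e3 : hconf h k (insert i0 S) i = hconf h k S i := by simp [hconf, hii]
        have hMi : M i0 ≤ B1 := hB1 i0 0
        have hhi := hle S i 1
        rcases nat_gap L hLpos i i0 hii with hg | hg
        · -- `i` below `i0`
          refine ⟨{x | x 1 < ((park L i0 1 : ℚ) : ℝ) - (M i0 : ℝ)}, ?_, ?_, ?_⟩
          · exact isOpen_lt (continuous_apply 1) continuous_const
          · intro x hx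
            have hx1 := (abs_le.mp (hx 1)).2
            show x 1 < _
            have h1 : park L i 1 + hconf h k S i 1 < park L i0 1 - M i0 := by
              simp only [park_one]
              linarith
            have h2 : ((park L i 1 : ℚ) : ℝ) + ((hconf h k S i 1 : ℚ) : ℝ)
                < ((park L i0 1 : ℚ) : ℝ) - ((M i0 : ℚ) : ℝ) := by exact_mod_cast h1
            linarith
          · intro x hx
            simp only [e3]
            rw [boxMap_self _ _ (hpos S i)]
            exact hout x ⟨1, Or.inl (le_of_lt hx)⟩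
        · refine ⟨{x | ((park L i0 1 : ℚ) : ℝ) + (M i0 : ℝ) < x 1}, ?_, ?_, ?_⟩
          · exact isOpen_lt continuous_const (continuous_apply 1)
          · intro x hx
            have hx1 := (abs_le.mp (hx 1)).1
            show _ < x 1
            have h1 : park L i0 1 + M i0 < park L i 1 - hconf h k S i 1 := by
              simp only [park_one]
              linarith
            have h2 : ((park L i0 1 : ℚ) : ℝ) + ((M i0 : ℚ) : ℝ)
                < ((park L i 1 : ℚ) : ℝ) - ((hconf h k S i 1 : ℚ) : ℝ) := by exact_mod_cast h1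
            linarith
          · intro x hx
            simp only [e3]
            rw [boxMap_self _ _ (hpos S i)]
            exact hout x ⟨1, Or.inr (le_of_lt hx)⟩
  have := key Finset.univ
  have e : hconf h k Finset.univ = k := by funext i; simp [hconf]
  rw [e] at this
  exact this

/-- The whole geometric part. -/
theorem reach_all {n : ℕ} (a b h k : Fin n → Fin 3 → ℚ)
    (hh : ∀ i j, 0 < h i j) (hk : ∀ i j, 0 < k i j)
    (ha : Pairwise fun i i' => Disjoint (box (a i) (h i)) (box (a i') (h i')))
    (hb : Pairwise fun i i' => Disjoint (box (b i) (k i)) (box (b i') (k i')))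
    (hvol : ∀ i, ∏ j : Fin 3, k i j / h i j = 1) : Reach a h b k := by
  obtain ⟨L1, h1⟩ := reach_park a h hh ha
  obtain ⟨L2, h2⟩ := reach_park b k hk hb
  obtain ⟨L3, h3⟩ := reach_scale_park h k hh hk hvol
  set L := max L1 (max L2 L3)
  have r1 := h1 L (le_max_left _ _)
  have r2 := h2 L (le_trans (le_max_left _ _) (le_max_right _ _))
  have r3 := h3 L (le_trans (le_max_right _ _) (le_max_right _ _))
  exact Reach.trans hh hk (Reach.trans hh hh r1 r3) (Reach.symm hk hk r2)

end Crest.Agent.S0170
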