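import Mathlib
import Crest.Prelude.Def_BoxFlow
import Crest.Agent.S0170_Defs

/-! S0170: exact statements of the chunks (all `sorry`; the final proof does NOT import this file).
Each chunk goes in its own file, same theorem name, namespace `Crest.Agent.S0170`. -/

set_option autoImplicit false

namespace Crest.Agent.S0170.Spec

open Crest.AnalysisR.BoxFlow Crest.Agent.S0170
open scoped ContDiff

/-! ### Chunk STEP (file S0170_Step.lean, helper75): base smooth step (Fabius function) -/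

theorem exists_step : ∃ β : ℝ → ℝ, EU β ∧ (∀ x ≤ 0, β x = 0) ∧ (∀ x, 1 ≤ x → β x = 1) := sorry

/-! ### Chunk RAT (file S0170_Rat.lean, helper2): Computable arithmetic on ℚ -/

theorem rat_add_comp : Computable₂ (fun a b : ℚ => a + b) := sorry
theorem rat_mul_comp : Computable₂ (fun a b : ℚ => a * b) := sorry
theorem rat_neg_comp : Computable (fun a : ℚ => -a) := sorry
theorem rat_inv_comp : Computable (fun a : ℚ => a⁻¹) := sorry
theorem rat_natCast_comp : Computable (fun a : ℕ => (a : ℚ)) := sorry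
theorem rat_intCast_comp : Computable (fun a : ℤ => (a : ℚ)) := sorry
theorem rat_natCeil_comp : Computable (fun a : ℚ => ⌈a⌉₊) := sorry
theorem rat_natFloor_comp : Computable (fun a : ℚ => ⌊a⌋₊) := sorry
theorem rat_num_comp : Computable (fun a : ℚ => a.num) := sorry
theorem rat_den_comp : Computable (fun a : ℚ => a.den) := sorry
theorem rat_le_comp : Computable (fun p : ℚ × ℚ => decide (p.1 ≤ p.2)) := sorry
theorem rat_sum_range_comp {α : Type} [Primcodable α] (f : α → ℕ → ℚ) (N : α → ℕ)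
    (hf : Computable₂ f) (hN : Computable N) :
    Computable (fun a => ∑ i ∈ Finset.range (N a), f a i) := sorry

/-! ### Chunk EU (file S0170_EU.lean, helper2 or helper75): closure of univariate class -/

theorem EU.const (c : ℚ) : EU (fun _ => (c : ℝ)) := sorry
theorem EU.add {f g : ℝ → ℝ} (hf : EU f) (hg : EU g) : EU (fun x => f x + g x) := sorry
theorem EU.mul {f g : ℝ → ℝ} (hf : EU f) (hg : EU g) : EU (fun x => f x * g x) := sorry
theorem EU.affine {f : ℝ → ℝ} (hf : EU f) (r s : ℚ) : EU (fun x => f ((r : ℝ) * x + (s : ℝ))) := sorry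
theorem EU.deriv {f : ℝ → ℝ} (hf : EU f) : EU (_root_.deriv f) := sorry
theorem EU.id_mul {f : ℝ → ℝ} (hf : EU f) (R : ℕ) (hR : ∀ x, (R : ℝ) ≤ |x| → f x = 0) :
    EU (fun x => x * f x) := sorry

/-! ### Chunk EFF (file S0170_Eff.lean): from univariate to fields -/

theorem EffS.sep (g : Fin 4 → ℝ → ℝ) (hg : ∀ k, EU (g k)) : EffS (S0170.sep g) := sorry
theorem EffS.add {f g : ℝ × E3 → ℝ} (hf : EffS f) (hg : EffS g) : EffS (fun p => f p + g p) := sorry
theorem EffS.zero : EffS (fun _ => (0 : ℝ)) := sorry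
theorem EffS.neg {f : ℝ × E3 → ℝ} (hf : EffS f) : EffS (fun p => - f p) := sorry
theorem EffS.timeAffine {f : ℝ × E3 → ℝ} (hf : EffS f) (c r s : ℚ) :
    EffS (fun p => (c : ℝ) * f ((r : ℝ) * p.1 + (s : ℝ), p.2)) := sorry
theorem effective_of_effS (U : Field) (h : ∀ j, EffS (fun p => U p j)) : Effective U := sorry
theorem effS_of_effective (U : Field) (hU : ContDiff ℝ ∞ U) (h : Effective U) (j : Fin 3) :
    EffS (fun p => U p j) := sorry

/-! ### Chunk ODE (file S0170_ODE.lean, helper70) -/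

/-- Global flow. -/
theorem exists_flow (U : Field) (hU : Nice U) :
    ∃ Φ : ℝ → E3 → E3, IsFlow U Φ ∧ ∀ x y, Carry U x y → Φ 1 x = y := sorry
theorem nice_zero : Nice (0 : Field) := sorry
theorem carry_zero (x : E3) : Carry (0 : Field) x x := sorry
/-- Run `U` in time window [1/4,1/2], then `V` in [1/2,3/4]:
`W (t,x) = 2 U(2t-1/4,x) + 2 V(2t-3/4,x)`. -/
theorem nice_comp (U V : Field) (hU : Nice U) (hV : Nice V) :
    ∃ W : Field, Nice W ∧ ∀ x y z, Carry U x y → Carry V y z → Carry W x z := sorry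
/-- Time reversal: `W (t,x) = - U(1-t,x)`. -/
theorem nice_rev (U : Field) (hU : Nice U) :
    ∃ W : Field, Nice W ∧ ∀ x y, Carry U x y → Carry W y x := sorry

/-! ### Chunk ELEM (file S0170_Elem.lean, helper69) -/

/-- Elementary cut-off shear/translation: `x_i += c0 + c1 x_j` inside the rational region
`[p,q]`, identity outside its `δ`-enlargement. -/
theorem exists_elem (i j : Fin 3) (hij : i ≠ j) (p q : Fin 3 → ℚ) (δ : ℚ) (hδ : 0 < δ)
    (c0 c1 : ℚ) :
    ∃ U : Field, Nice U ∧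
      (∀ x : E3, (∀ k, (p k : ℝ) ≤ x k ∧ x k ≤ (q k : ℝ)) →
        ((p i : ℝ) ≤ x i + ((c0 : ℝ) + (c1 : ℝ) * x j) ∧
          x i + ((c0 : ℝ) + (c1 : ℝ) * x j) ≤ (q i : ℝ)) →
        Carry U x (Function.update x i (x i + ((c0 : ℝ) + (c1 : ℝ) * x j)))) ∧
      (∀ x : E3, (∃ k, x k ≤ (p k : ℝ) - (δ : ℝ) ∨ (q k : ℝ) + (δ : ℝ) ≤ x k) → Carry U x x) := sorry

/-! ### Chunk SCALE/TRANSL (file S0170_Scale.lean, helper69) -/

/-- Scaling one box about its centre; support in the cube of radius `M` (independent of `c`). -/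
theorem exists_scale (h k : Fin 3 → ℚ) (hh : ∀ j, 0 < h j) (hk : ∀ j, 0 < k j)
    (hvol : ∏ j, k j / h j = 1) :
    ∃ M : ℚ, 0 < M ∧ ∀ c : Fin 3 → ℚ, ∃ U : Field, Nice U ∧
      (∃ O : Set E3, IsOpen O ∧ box c h ⊆ O ∧ ∀ x ∈ O, Carry U x (boxMap c h c k x)) ∧
      (∀ x : E3, (∃ j, x j ≤ (c j : ℝ) - (M : ℝ) ∨ (c j : ℝ) + (M : ℝ) ≤ x j) → Carry U x x) := sorry

/-- Translating one box along the axis `j` by `v`, identity outside the `δ`-enlarged corridor. -/
theorem exists_translate (j : Fin 3) (c h : Fin 3 → ℚ) (hh : ∀ l, 0 < h l) (v δ : ℚ)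
    (hδ : 0 < δ) :
    ∃ U : Field, Nice U ∧
      (∃ O : Set E3, IsOpen O ∧ box c h ⊆ O ∧
        ∀ x ∈ O, Carry U x (Function.update x j (x j + (v : ℝ)))) ∧
      (∀ x : E3,
        (∃ l, x l ≤ ((c l - h l - (if l = j then max 0 (-v) else 0) - δ : ℚ) : ℝ) ∨
          ((c l + h l + (if l = j then max 0 v else 0) + δ : ℚ) : ℝ) ≤ x l) → Carry U x x) := sorry

/-! ### Chunk STEER (file S0170_Steer.lean, helper69) -/

/-- Configurations: centres `c`, half-widths `h` to centres `c'`, half-widths `k`. -/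
def Reach {n : ℕ} (c h c' k : Fin n → Fin 3 → ℚ) : Prop :=
  Steer (fun i => box (c i) (h i)) (fun i => boxMap (c i) (h i) (c' i) (k i))

theorem Reach.trans {n : ℕ} {c h c' h' c'' h'' : Fin n → Fin 3 → ℚ}
    (hh : ∀ i j, 0 < h i j) (hh' : ∀ i j, 0 < h' i j)
    (h1 : Reach c h c' h') (h2 : Reach c' h' c'' h'') : Reach c h c'' h'' := sorry

theorem Reach.symm {n : ℕ} {c h c' h' : Fin n → Fin 3 → ℚ}
    (hh : ∀ i j, 0 < h i j) (hh' : ∀ i j, 0 < h' i j)
    (h1 : Reach c h c' h') : Reach c' h' c h := sorry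

theorem Reach.refl {n : ℕ} (c h : Fin n → Fin 3 → ℚ) (hh : ∀ i j, 0 < h i j) : Reach c h c h := sorry

/-- One box `i0` moves along axis `j` by `v`; every other box has, in some coordinate `l`, a
strictly positive gap from the closed corridor. -/
theorem Reach.move {n : ℕ} (c h : Fin n → Fin 3 → ℚ) (hh : ∀ i j, 0 < h i j)
    (i0 : Fin n) (j : Fin 3) (v : ℚ)
    (hgap : ∀ i, i ≠ i0 → ∃ l,
      c i l + h i l < c i0 l - h i0 l - (if l = j then max 0 (-v) else 0) ∨
      c i0 l + h i0 l + (if l = j then max 0 v else 0) < c i l - h i l) :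
    Reach c h (Function.update c i0 (Function.update (c i0) j (c i0 j + v))) h := sorry

/-! ### Chunk GEOM (file S0170_Geom.lean, helper12): uses only Reach.refl/trans/move -/

/-- parking positions -/
def park {n : ℕ} (L : ℚ) (i : Fin n) : Fin 3 → ℚ := ![L, L * ((i : ℕ) + 1 : ℚ), 0]

theorem reach_park {n : ℕ} (a h : Fin n → Fin 3 → ℚ) (hh : ∀ i j, 0 < h i j)
    (ha : Pairwise fun i i' => Disjoint (box (a i) (h i)) (box (a i') (h i'))) :
    ∃ L0 : ℚ, ∀ L : ℚ, L0 ≤ L → Reach a h (fun i => park L i) h := sorry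

/-- scaling all boxes at the parking positions (induction over boxes) -/
theorem reach_scale_park {n : ℕ} (h k : Fin n → Fin 3 → ℚ) (hh : ∀ i j, 0 < h i j)
    (hk : ∀ i j, 0 < k i j) (hvol : ∀ i, ∏ j : Fin 3, k i j / h i j = 1) :
    ∃ L0 : ℚ, ∀ L : ℚ, L0 ≤ L → Reach (fun i => park L i) h (fun i => park L i) k := sorry

end Crest.Agent.S0170.Spec
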