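import Crest.Statements.S0179
import Crest.Agent.Crz.CB

set_option autoImplicit false
open Crest Crest.AnalysisR

namespace Crest.Agent.S0179

open Polynomial in
/-- The finite-dimensional reduction. -/
theorem reduction
    {H : Type*} [NormedAddCommGroup H] [InnerProductSpace ℂ H] [CompleteSpace H]
    (A : H →L[ℂ] H) (m d : ℕ) (B : Fin (d + 1) → Matrix (Fin m) (Fin m) ℂ) (M : ℝ)
    (hM : ∀ x : H, ‖x‖ = 1 →
      ‖Matrix.toEuclideanCLM (n := Fin m) (𝕜 := ℂ)
          (∑ k : Fin (d + 1), (inner ℂ x (A x)) ^ (k : ℕ) • B k)‖ ≤ M)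
    (hcb : ∀ (E : Submodule ℂ H) (_ : FiniteDimensional ℂ E) (T : E →L[ℂ] E)
      (P : Matrix (Fin m) (Fin m) ℂ[X]),
      (∀ x : E, ‖x‖ = 1 → Crz.evNorm P (inner ℂ x (T x)) ≤ M) →
      ∀ v : PiLp 2 (fun _ : Fin m => E), ‖Crz.opAct T P v‖ ≤ 2 * M * ‖v‖)
    (v : PiLp 2 (fun _ : Fin m => H)) :
    ‖(WithLp.toLp 2 (fun i : Fin m => ∑ j : Fin m, ∑ k : Fin (d + 1), B k i j • (A ^ (k : ℕ)) (v j))
        : PiLp 2 (fun _ : Fin m => H))‖ ≤ 2 * M * ‖v‖ := by
  classical
  -- the finite dimensional subspace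
  set s : Set H := Set.range (fun p : Fin (d + 1) × Fin m => (A ^ (p.1 : ℕ)) (v p.2)) with hs
  set E : Submodule ℂ H := Submodule.span ℂ s with hE
  have hfd : FiniteDimensional ℂ E := FiniteDimensional.span_of_finite ℂ (Set.finite_range _)
  have hmem : ∀ (k : ℕ) (j : Fin m), k < d + 1 → (A ^ k) (v j) ∈ E := by
    intro k j hk
    exact Submodule.subset_span ⟨(⟨k, hk⟩, j), rfl⟩
  set T : E →L[ℂ] E := (E.orthogonalProjectionOnto) ∘L (A ∘L E.subtypeL) with hT
  -- powers of the compression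
  have hTx : ∀ x : E, A (x : H) ∈ E → ((T x : E) : H) = A (x : H) := by
    intro x hx
    rw [hT]
    simp only [ContinuousLinearMap.comp_apply]
    exact Submodule.starProjection_eq_self_iff.mpr hx
  have hv : ∀ j, v j ∈ E := by
    intro j
    have := hmem 0 j (Nat.succ_pos d)
    simpa using this
  set w : PiLp 2 (fun _ : Fin m => E) := WithLp.toLp 2 (fun j => (⟨v j, hv j⟩ : E)) with hw
  have hpow : ∀ (k : ℕ) (j : Fin m), k < d + 1 → (((T ^ k) (w j) : E) : H) = (A ^ k) (v j) := by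
    intro k j
    induction k with
    | zero => intro _; simp [hw]
    | succ k ih =>
      intro hk
      have h1 := ih (by omega)
      have h2 : (T ^ (k + 1)) (w j) = T ((T ^ k) (w j)) := by
        rw [pow_succ']; rfl
      have h3 : (A ^ (k + 1)) (v j) = A ((A ^ k) (v j)) := by
        rw [pow_succ']; rfl
      rw [h2, hTx, h1, h3]
      rw [h1, ← h3]
      exact hmem (k + 1) j hk
  -- the matrix polynomial
  set P : Matrix (Fin m) (Fin m) ℂ[X] :=
    Matrix.of fun i j => ∑ k : Fin (d + 1), C (B k i j) * X ^ (k : ℕ) with hP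
  have hev : ∀ z : ℂ, P.map (fun p => p.eval z) = ∑ k : Fin (d + 1), z ^ (k : ℕ) • B k := by
    intro z
    ext i j
    rw [Matrix.map_apply, hP, Matrix.of_apply, eval_finsetSum, Matrix.sum_apply]
    refine Finset.sum_congr rfl (fun k _ => ?_)
    rw [eval_mul, eval_C, eval_pow, eval_X, Matrix.smul_apply, smul_eq_mul]
    exact mul_comm (B k i j) (z ^ (k : ℕ))
  have hbound : ∀ x : E, ‖x‖ = 1 → Crz.evNorm P (inner ℂ x (T x)) ≤ M := by
    intro x hx
    have h1 : (inner ℂ x (T x) : ℂ) = inner ℂ (x : H) (A (x : H)) := by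
      rw [hT]
      simp only [ContinuousLinearMap.comp_apply]
      exact Submodule.inner_orthogonalProjectionOnto_eq_of_mem_left x (A (x : H))
    unfold Crz.evNorm
    rw [hev, h1]
    exact hM (x : H) (by simpa using hx)
  have hmain := hcb E hfd T P hbound w
  have hnw : ‖w‖ = ‖v‖ := by
    have : ‖w‖ ^ 2 = ‖v‖ ^ 2 := by
      rw [PiLp.norm_sq_eq_of_L2, PiLp.norm_sq_eq_of_L2]
      rfl
    exact (pow_left_inj₀ (norm_nonneg _) (norm_nonneg _) two_ne_zero).mp this
  have hno : ‖Crz.opAct T P w‖ = ‖(WithLp.toLp 2 (fun i : Fin m => ∑ j : Fin m,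
      ∑ k : Fin (d + 1), B k i j • (A ^ (k : ℕ)) (v j)) : PiLp 2 (fun _ : Fin m => H))‖ := by
    have : ‖Crz.opAct T P w‖ ^ 2 = ‖(WithLp.toLp 2 (fun i : Fin m => ∑ j : Fin m,
      ∑ k : Fin (d + 1), B k i j • (A ^ (k : ℕ)) (v j)) : PiLp 2 (fun _ : Fin m => H))‖ ^ 2 := by
      rw [PiLp.norm_sq_eq_of_L2, PiLp.norm_sq_eq_of_L2]
      refine Finset.sum_congr rfl (fun i _ => ?_)
      have h2 : ((Crz.opAct T P w i : E) : H)
          = ∑ j : Fin m, ∑ k : Fin (d + 1), B k i j • (A ^ (k : ℕ)) (v j) := by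
        change ((∑ j : Fin m, (aeval T (P i j) : E →L[ℂ] E) (w j) : E) : H) = _
        rw [Submodule.coe_sum]
        refine Finset.sum_congr rfl (fun j _ => ?_)
        rw [hP, Matrix.of_apply, map_sum, _root_.sum_apply, Submodule.coe_sum]
        refine Finset.sum_congr rfl (fun k _ => ?_)
        rw [map_mul, aeval_C, map_pow, aeval_X, Algebra.algebraMap_eq_smul_one, smul_mul_assoc,
          one_mul, _root_.smul_apply, Submodule.coe_smul, hpow k j k.2]
      change ‖((Crz.opAct T P w i : E) : H)‖ ^ 2 = _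
      rw [h2]
    exact (pow_left_inj₀ (norm_nonneg _) (norm_nonneg _) two_ne_zero).mp this
  rw [← hno, ← hnw]
  exact hmain

/-- Let A be a bounded operator on a complex Hilbert space H, m ≥ 0, and P(z) = ∑_{k ≤ d} z^k B_k a polynomial with m × m complex matrix coefficients. Suppose M bounds the operator norm (on Euclidean ℂ^m) of P(z) for every z in the numerical range {⟨x, A x⟩ : ‖x‖ = 1}. Then the operator P[A] = ∑_k A^k ⊗ B_k on H ⊗ ℂ^m, written in coordinates as (v_j)_{j<m} ↦ (∑_j ∑_k (B_k)_{ij} A^k v_j)_{i<m} with the ℓ²-norm of the component norms, satisfies ‖P[A] v‖ ≤ 2 M ‖v‖ for every v. -/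
theorem result
    {H : Type*} [NormedAddCommGroup H] [InnerProductSpace ℂ H] [CompleteSpace H]
    (A : H →L[ℂ] H) (m d : ℕ) (B : Fin (d + 1) → Matrix (Fin m) (Fin m) ℂ) (M : ℝ)
    (hM : ∀ x : H, ‖x‖ = 1 →
      ‖Matrix.toEuclideanCLM (n := Fin m) (𝕜 := ℂ)
          (∑ k : Fin (d + 1), (inner ℂ x (A x)) ^ (k : ℕ) • B k)‖ ≤ M)
    (v : PiLp 2 (fun _ : Fin m => H)) :
    ‖(WithLp.toLp 2 (fun i : Fin m => ∑ j : Fin m, ∑ k : Fin (d + 1), B k i j • (A ^ (k : ℕ)) (v j))
        : PiLp 2 (fun _ : Fin m => H))‖ ≤ 2 * M * ‖v‖ := by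
  exact reduction A m d B M hM
    (fun _ hfd T P hP w => haveI := hfd; Crz.crouzeix_finite T m P M hP w) v

end Crest.Agent.S0179
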