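import Crest.Statements.S0181
import Crest.Agent.Crz.Dens4

set_option autoImplicit false
open scoped ComplexOrder
open Crest.AnalysisR.NumRange
open Crest Crest.AnalysisR Crest.AnalysisR.NumRange
open Crest.Agent.Crz.Dens

namespace Crest.Agent.S0181

/-- Setting of the optimal-metric statement; also G is holomorphic and injective on {t : r < ‖t‖} for some r < 1 with G({t : 1 < ‖t‖}) the complement of the closure of Ω, (H, κ²) is an optimal metric pair for f(A), and S ≽ 0 with S² = H. Then one continuous 2π-periodic positive semidefinite density Λ of mean I gives, for all m ≥ 1 and m × m matrix-valued v holomorphic near the closure of Ω, v[SAS⁻¹] = (1/2π) ∫ Λ(θ) ⊗ v(G(e^{iθ})) dθ entrywise, and ‖v[A]‖ ≤ κ sup ‖v‖ over the closure of Ω. -/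
theorem result
    (n : ℕ) (hn : 1 ≤ n) (A : Matrix (Fin n) (Fin n) ℂ)
    (Ω U : Set ℂ) (hΩ₁ : IsOpen Ω) (hΩ₂ : Bornology.IsBounded Ω) (hΩ₃ : Convex ℝ Ω)
    (hU : IsOpen U) (hΩU : closure Ω ⊆ U)
    (f : ℂ → ℂ) (hf₁ : DifferentiableOn ℂ f U) (hf₂ : Set.InjOn f U)
    (hf₃ : f '' Ω = Metric.ball 0 1)
    (G : ℂ → ℂ) (r : ℝ) (hr₁ : 0 < r) (hr₂ : r < 1)
    (hG₁ : DifferentiableOn ℂ G {t : ℂ | r < ‖t‖}) (hG₂ : Set.InjOn G {t : ℂ | r < ‖t‖})
    (hG₃ : G '' {t : ℂ | 1 < ‖t‖} = (closure Ω)ᶜ)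
    (hA : numRange A ⊆ Ω) (p : Polynomial ℂ) (hp : AgreesOnSpectrum A f p)
    (H : Matrix (Fin n) (Fin n) ℂ) (κsq : ℝ) (hH : IsOptimalMetric (Polynomial.aeval A p) H κsq)
    (S : Matrix (Fin n) (Fin n) ℂ) (hS₁ : S.PosSemidef) (hS₂ : S * S = H) :
    ∃ Λ : ℝ → Matrix (Fin n) (Fin n) ℂ, Continuous Λ ∧ Function.Periodic Λ (2 * Real.pi) ∧
      (∀ θ, (Λ θ).PosSemidef) ∧
      (∀ a b, (2 * Real.pi : ℂ)⁻¹ * (∫ θ in (0 : ℝ)..2 * Real.pi, Λ θ a b)
        = (1 : Matrix (Fin n) (Fin n) ℂ) a b) ∧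
      ∀ (m : ℕ), 1 ≤ m → ∀ (V : Set ℂ), IsOpen V → closure Ω ⊆ V →
        ∀ v : ℂ → Matrix (Fin m) (Fin m) ℂ, (∀ c d, DifferentiableOn ℂ (fun z => v z c d) V) →
        ∀ q : Fin m → Fin m → Polynomial ℂ,
          (∀ c d, AgreesOnSpectrum A (fun z => v z c d) (q c d)) →
          (∀ a b c d, Polynomial.aeval (S * A * S⁻¹) (q c d) a b =
              (2 * Real.pi : ℂ)⁻¹ * (∫ θ in (0 : ℝ)..2 * Real.pi,
                Λ θ a b * v (G (Complex.exp ((θ : ℂ) * Complex.I))) c d)) ∧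
          ∀ M : ℝ, (∀ z ∈ closure Ω, ‖Matrix.toEuclideanCLM (n := Fin m) (𝕜 := ℂ) (v z)‖ ≤ M) →
            ‖Matrix.toEuclideanCLM (n := Fin n × Fin m) (𝕜 := ℂ)
                (Matrix.of fun (i : Fin n × Fin m) (j : Fin n × Fin m) =>
                  Polynomial.aeval A (q i.2 j.2) i.1 j.1)‖ ≤ Real.sqrt κsq * M := by
  open Matrix in
  open scoped Kronecker in
  have hs : Setup Ω U f G r := ⟨hΩ₁, hΩ₂, hU, hΩU, hf₁, hf₂, hf₃, hr₁, hr₂, hG₁, hG₂, hG₃⟩
  have hspecA : ∀ μ ∈ spectrum ℂ A, μ ∈ Ω := fun μ hμ => hA (spectrum_subset_numRange A μ hμ)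
  obtain ⟨⟨hH1, hH2, hH3⟩, -⟩ := hH
  -- `S` is invertible
  have hSh : S.conjTranspose = S := hS₁.isHermitian
  have hHpd : H.PosDef := by
    have h1 : (H - 1 + 1).PosDef := Matrix.PosDef.posSemidef_add hH1 Matrix.PosDef.one
    simpa using h1
  have hSdet : IsUnit S.det := by
    have h1 : IsUnit H := hHpd.isUnit
    rw [Matrix.isUnit_iff_isUnit_det, ← hS₂, Matrix.det_mul, IsUnit.mul_iff] at h1
    exact h1.1
  have hSS : S * S⁻¹ = 1 := Matrix.mul_nonsing_inv _ hSdet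
  have hSS' : S⁻¹ * S = 1 := Matrix.nonsing_inv_mul _ hSdet
  have hSih : (S⁻¹).conjTranspose = S⁻¹ := by rw [Matrix.conjTranspose_nonsing_inv, hSh]
  set T := S * Polynomial.aeval A p * S⁻¹ with hT
  have hTspec : ∀ μ ∈ spectrum ℂ T, ‖μ‖ < 1 := by
    rw [hT, spectrum_conj _ S hSdet]
    exact spectrum_aeval_lt hn A hf₃ hA p hp
  have hTc : (1 - T.conjTranspose * T).PosSemidef := by
    have h1 := hH3.conjTranspose_mul_mul_same S⁻¹
    have h2 : (S⁻¹).conjTranspose * (H - (Polynomial.aeval A p).conjTranspose * H *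
        Polynomial.aeval A p) * S⁻¹ = 1 - T.conjTranspose * T := by
      rw [hT, Matrix.conjTranspose_mul, Matrix.conjTranspose_mul, hSih, hSh, ← hS₂]
      set B := Polynomial.aeval A p
      calc S⁻¹ * (S * S - B.conjTranspose * (S * S) * B) * S⁻¹
          = (S⁻¹ * S) * (S * S⁻¹) - S⁻¹ * (B.conjTranspose * S) * (S * B * S⁻¹) := by
            simp only [mul_sub, sub_mul, mul_assoc]
        _ = _ := by rw [hSS, hSS', one_mul]
    rw [h2] at h1
    exact h1
  -- the density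
  set Λ : ℝ → Matrix (Fin n) (Fin n) ℂ := fun θ => (lam f G θ : ℂ) • Pk T (f (G (ce θ))) with hΛ
  have hΛe : ∀ θ a b, Λ θ a b = (lam f G θ : ℂ) * Pk T (f (G (ce θ))) a b := fun θ a b => by
    simp [hΛ]
  have hΛc : ∀ a b, Continuous fun θ => Λ θ a b := by
    intro a b
    simp only [hΛe]
    refine (Complex.continuous_ofReal.comp hs.continuous_lam).mul ?_
    exact (continuousOn_Pk T hTspec a b).comp_continuous hs.continuous_FG
      (fun θ => by simp [hs.norm_F (norm_ce θ)])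
  have hΛpsd : ∀ θ, (Λ θ).PosSemidef := by
    intro θ
    apply (posSemidef_Pk T hTspec hTc (hs.norm_F (norm_ce θ))).smul
    exact_mod_cast hs.lam_nonneg θ
  have hπ : (2 * Real.pi : ℂ) ≠ 0 := by
    simp [Real.pi_ne_zero]
  -- the representation
  have hrep : ∀ (V : Set ℂ), IsOpen V → closure Ω ⊆ V → ∀ v : ℂ → ℂ, DifferentiableOn ℂ v V →
      ∀ q : Polynomial ℂ, AgreesOnSpectrum A v q → ∀ a b,
        Polynomial.aeval (S * A * S⁻¹) q a b =
          (2 * Real.pi : ℂ)⁻¹ * (∫ θ in (0 : ℝ)..2 * Real.pi, Λ θ a b * v (G (ce θ))) := by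
    intro V hV hΩV v hv q hq a b
    simp only [hΛe]
    rw [repr_scalar hs A hspecA p hp S hSdet hTspec V hV hΩV v hv q hq a b, ← mul_assoc,
      inv_mul_cancel₀ hπ, one_mul]
  have hmean : ∀ a b, (2 * Real.pi : ℂ)⁻¹ * (∫ θ in (0 : ℝ)..2 * Real.pi, Λ θ a b)
        = (1 : Matrix (Fin n) (Fin n) ℂ) a b := by
    intro a b
    have h1 := hrep Set.univ isOpen_univ (Set.subset_univ _) (fun _ => 1)
      (differentiableOn_const _) 1 (by intro μ _ j _; simp) a b
    simp only [map_one, mul_one] at h1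
    exact h1.symm
  refine ⟨Λ, continuous_pi fun a => continuous_pi fun b => hΛc a b, ?_, hΛpsd, hmean, ?_⟩
  · intro θ
    have hce : ce (θ + 2 * Real.pi) = ce θ := by
      simp only [ce]
      rw [show (((θ + 2 * Real.pi : ℝ) : ℂ) * Complex.I) =
        (θ : ℂ) * Complex.I + 2 * Real.pi * Complex.I by push_cast; ring, Complex.exp_add,
        Complex.exp_two_pi_mul_I, mul_one]
    simp only [hΛ, lam, hce]
  · intro m hm V hV hΩV v hv q hq
    have hrepm : ∀ a b c d, Polynomial.aeval (S * A * S⁻¹) (q c d) a b =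
              (2 * Real.pi : ℂ)⁻¹ * (∫ θ in (0 : ℝ)..2 * Real.pi,
                Λ θ a b * v (G (ce θ)) c d) := fun a b c d =>
      hrep V hV hΩV (fun z => v z c d) (hv c d) (q c d) (hq c d) a b
    refine ⟨hrepm, ?_⟩
    intro M hM
    have hM0 : 0 ≤ M := (norm_nonneg _).trans (hM _ (hs.G_mem (norm_ce 0)))
    -- the norm of `v[SAS⁻¹]`
    set B : Matrix (Fin n × Fin m) (Fin n × Fin m) ℂ := Matrix.of fun i j =>
      Polynomial.aeval (S * A * S⁻¹) (q i.2 j.2) i.1 j.1 with hB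
    have hvc : ∀ c d, Continuous fun θ => v (G (ce θ)) c d := by
      intro c d
      have h1 : ContinuousOn (fun z => v z c d) (closure Ω) := ((hv c d).mono hΩV).continuousOn
      exact h1.comp_continuous hs.continuous_G (fun θ => hs.G_mem (norm_ce θ))
    have hBn : ‖CL B‖ ≤ M := by
      refine avg_norm_le Λ hΛc hΛpsd hmean (fun θ => v (G (ce θ))) hvc hM0
        (fun θ => hM _ (hs.G_mem (norm_ce θ))) B ?_
      intro i j
      simp only [hB, Matrix.of_apply]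
      exact hrepm i.1 j.1 i.2 j.2
    have hκ : 0 ≤ κsq := by
      have h1 := hH1.diag_nonneg (i := ⟨0, hn⟩)
      have h2 := hH2.diag_nonneg (i := ⟨0, hn⟩)
      have h3 := add_nonneg h1 h2
      simp only [Matrix.sub_apply, Matrix.smul_apply, Matrix.one_apply_eq, smul_eq_mul,
        mul_one] at h3
      have h4 : (0 : ℂ) ≤ ((κsq - 1 : ℝ) : ℂ) := by
        have : (H ⟨0, hn⟩ ⟨0, hn⟩ - 1 + (κsq - H ⟨0, hn⟩ ⟨0, hn⟩) : ℂ) = ((κsq - 1 : ℝ) : ℂ) := by
          push_cast; ring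
        rw [← this]; exact h3
      have h5 : (0 : ℝ) ≤ κsq - 1 := by exact_mod_cast h4
      linarith
    have hSn : ‖CL S‖ ≤ Real.sqrt κsq := by
      rw [← psd_iff_norm_le _ (Real.sqrt_nonneg _), Real.sq_sqrt hκ, hSh, hS₂]
      exact hH2
    have hSin : ‖CL S⁻¹‖ ≤ 1 := by
      rw [← psd_iff_norm_le _ zero_le_one, hSih]
      have h1 := hH1.conjTranspose_mul_mul_same S⁻¹
      have h2 : (S⁻¹).conjTranspose * (H - 1) * S⁻¹ =
          (((1 : ℝ) ^ 2 : ℝ) : ℂ) • (1 : Matrix (Fin n) (Fin n) ℂ) - S⁻¹ * S⁻¹ := by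
        rw [hSih, ← hS₂, mul_sub, sub_mul]
        have : S⁻¹ * (S * S) * S⁻¹ = (S⁻¹ * S) * (S * S⁻¹) := by simp only [mul_assoc]
        rw [this, hSS, hSS']
        simp
      rw [h2] at h1
      exact h1
    have hfac : (Matrix.of fun (i : Fin n × Fin m) (j : Fin n × Fin m) =>
        Polynomial.aeval A (q i.2 j.2) i.1 j.1) =
        Matrix.kroneckerMap (· * ·) S⁻¹ (1 : Matrix (Fin m) (Fin m) ℂ) * (B *
          Matrix.kroneckerMap (· * ·) S (1 : Matrix (Fin m) (Fin m) ℂ)) := by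
      ext ⟨i, c⟩ ⟨j, d⟩
      have h1 : Polynomial.aeval A (q c d) = S⁻¹ * (Polynomial.aeval (S * A * S⁻¹) (q c d) * S) := by
        rw [aeval_conj A S hSdet, mul_assoc, mul_assoc, hSS', mul_one, ← mul_assoc, hSS', one_mul]
      simp only [Matrix.of_apply, Matrix.mul_apply, Matrix.kroneckerMap_apply,
        Fintype.sum_prod_type, hB, Matrix.one_apply, mul_ite, mul_one, mul_zero, ite_mul, zero_mul,
        Finset.sum_ite_eq, Finset.sum_ite_eq', Finset.mem_univ, if_true]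
      rw [h1]
      simp only [Matrix.mul_apply]
    rw [hfac, map_mul, map_mul]
    calc _ ≤ ‖CL (Matrix.kroneckerMap (· * ·) S⁻¹ (1 : Matrix (Fin m) (Fin m) ℂ))‖ *
          ‖CL B * CL (Matrix.kroneckerMap (· * ·) S (1 : Matrix (Fin m) (Fin m) ℂ))‖ :=
            norm_mul_le _ _
      _ ≤ ‖CL (Matrix.kroneckerMap (· * ·) S⁻¹ (1 : Matrix (Fin m) (Fin m) ℂ))‖ *
          (‖CL B‖ * ‖CL (Matrix.kroneckerMap (· * ·) S (1 : Matrix (Fin m) (Fin m) ℂ))‖) := by
            gcongr; exact norm_mul_le _ _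
      _ ≤ 1 * (M * Real.sqrt κsq) := by
            gcongr
            · exact norm_kron_one _ zero_le_one hSin
            · exact norm_kron_one _ (Real.sqrt_nonneg _) hSn
      _ = Real.sqrt κsq * M := by ring

end Crest.Agent.S0181
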