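import Crest.Statements.S0323
import Crest.Agent.ED.Final

set_option autoImplicit false
open Crest.GeometryTopology.EditDistance
open Crest Crest.GeometryTopology Crest.GeometryTopology.EditDistance

namespace Crest.Agent.S0323

/-- There are constants `c > 0` and `d₀` such that for every `d ≥ d₀` some length `n ≤ d` has the following property: any map `f` from binary words into real `ℓ¹` that, after a common rescaling `s > 0`, satisfies `s · ed(x,y) ≤ ‖f x - f y‖ ≤ D · s · ed(x,y)` for all distinct binary words `x`, `y` of length exactly `n`, has `D ≥ exp (c √(log d · log log d))`. Here `ed` is unit-cost edit distance (insertions, deletions, substitutions, intermediate words of any length). -/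
theorem result :
    ∃ c : ℝ, 0 < c ∧ ∃ d₀ : ℕ, ∀ d : ℕ, d₀ ≤ d → ∃ n : ℕ, n ≤ d ∧
      ∀ (f : List Bool → lp (fun _ : ℕ => ℝ) 1) (s D : ℝ), 0 < s →
        (∀ x y : List Bool, x.length = n → y.length = n → x ≠ y →
          s * (editDist x y : ℝ) ≤ ‖f x - f y‖ ∧ ‖f x - f y‖ ≤ D * s * (editDist x y : ℝ)) →
        Real.exp (c * Real.sqrt (Real.log d * Real.log (Real.log d))) ≤ D := by
  obtain ⟨c, hc, hfin⟩ := Crest.Agent.ED.num_final
  obtain ⟨K₁, hK₁⟩ := Crest.Agent.ED.num_large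
  obtain ⟨K₂, hK₂⟩ := Crest.Agent.ED.exists_moduli
  obtain ⟨d₀, hd₀⟩ := hfin (max K₁ K₂)
  refine ⟨c, hc, d₀, fun d hd => ?_⟩
  obtain ⟨K, hK, hKd, hexp⟩ := hd₀ d hd
  obtain ⟨h8, hn1, hn2⟩ := hK₁ K ((le_max_left _ _).trans hK)
  obtain ⟨m, hm2, hmQ, hcop⟩ := hK₂ K ((le_max_right _ _).trans hK)
  refine ⟨_, hKd, ?_⟩
  intro f s D hs hf
  have hmain := Crest.Agent.ED.main_large h8 hn1 hn2 m hm2 hmQ hcop f s D hs hf
  have hKpos : (0 : ℝ) < K := by
    have : 0 < K := by omega
    exact_mod_cast this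
  have hX : (0 : ℝ) < 10 ^ K * (((2 * (K : ℝ) ^ 2 + 3) * (2 * (2 * (K : ℝ) ^ 2 + 3) + 1)) *
        (2 * (4 / (K : ℝ)) ^ K)) := by positivity
  exact le_of_mul_le_mul_right (hexp.trans hmain) hX

end Crest.Agent.S0323
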