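import Crest.Statements.S0359
import Crest.Agent.LpDim.Iso

set_option autoImplicit false
open MeasureTheory
open scoped ENNReal
open Crest Crest.GeometryTopology

namespace Crest.Agent.S0359

open Crest.Agent.LpDim in
/-- transfer of the Clarkson defects -/
private theorem transfer {α : Type} [Fintype α] {d : ℕ} {q : ℝ} (hq : 1 < q) (hq2 : q ≠ 2) (T : Set (α → ℝ))
    (Z : (α → ℝ) → Fin d → ℝ) (s : ℝ) (hs : 0 < s)
    (hZ0 : ∀ r, Z 0 r = 0)
    (hZ : ∀ φ ψ, φ ∈ T → ψ ∈ T → ∑ r, |Z φ r - Z ψ r| ^ q = s ^ q * ∑ a, |φ a - ψ a| ^ q)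
    (h0 : (0 : α → ℝ) ∈ T) (φ ψ : α → ℝ) (hφ : φ ∈ T) (hφ' : -φ ∈ T) (hψ : ψ ∈ T) (hψ' : -ψ ∈ T) :
    (∀ r, Z φ r = 0 ∨ Z ψ r = 0) ↔ (∀ a, φ a = 0 ∨ ψ a = 0) := by
  have hq0 : 0 < q := by linarith
  have hn : ∀ φ, φ ∈ T → ∑ r, |Z φ r| ^ q = s ^ q * ∑ a, |φ a| ^ q := by
    intro φ hφ
    have := hZ φ 0 hφ h0
    simpa [hZ0] using this
  have hopp : ∀ φ, φ ∈ T → -φ ∈ T → ∀ r, Z (-φ) r = - Z φ r := by
    intro φ hφ hφ' r
    refine opp_of_norms hq (Z φ) (Z (-φ)) (s ^ q * ∑ a, |φ a| ^ q) (hn φ hφ) ?_ ?_ r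
    · rw [hn _ hφ']
      simp
    · rw [hZ _ _ hφ hφ']
      have : ∀ a, |φ a - (-φ) a| ^ q = 2 ^ q * |φ a| ^ q := by
        intro a
        rw [← Real.mul_rpow (by norm_num) (abs_nonneg _)]
        congr 1
        rw [show φ a - (-φ) a = 2 * φ a by simp; ring, abs_mul]
        norm_num
      simp only [this]
      rw [← Finset.mul_sum]
      ring
  rw [← sum_cdef_eq_zero_iff hq0 hq2 (Z φ) (Z ψ), ← sum_cdef_eq_zero_iff hq0 hq2 φ ψ]
  have key : ∑ r, cdef q (Z φ r) (Z ψ r) = s ^ q * ∑ a, cdef q (φ a) (ψ a) := by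
    unfold cdef
    simp only [Finset.sum_sub_distrib, Finset.sum_add_distrib, ← Finset.mul_sum]
    have e1 : ∑ r, |Z φ r + Z ψ r| ^ q = s ^ q * ∑ a, |φ a + ψ a| ^ q := by
      have := hZ φ (-ψ) hφ hψ'
      simp only [hopp ψ hψ hψ', sub_neg_eq_add, Pi.neg_apply] at this
      exact this
    rw [e1, hZ φ ψ hφ hψ, hn φ hφ, hn ψ hψ]
    ring
  rw [key]
  have : s ^ q ≠ 0 := (Real.rpow_pos_of_pos hs q).ne'
  simp [this]

open Crest.Agent.LpDim in
/-- Fix an exponent 1 < p < ∞ with p ≠ 2 and n ≥ 9. If d is a dimension such that every n distinct points of any real L^p space can be mapped to the d-dimensional real ℓ^p space with all pairwise distances multiplied by one common factor s > 0 (an isometric embedding up to scaling), then ⌊(n − 1)/4⌋² ≤ d. -/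
theorem result
    (p : ℝ≥0∞) [Fact (1 ≤ p)] (hp1 : 1 < p) (hptop : p ≠ ⊤) (hp2 : p ≠ 2)
    (n : ℕ) (hn : 9 ≤ n) (d : ℕ)
    (hd : ∀ (α : Type) [MeasurableSpace α] (μ : Measure α) (x : Fin n → Lp ℝ p μ),
      Function.Injective x →
      ∃ (y : Fin n → PiLp p (fun _ : Fin d => ℝ)) (s : ℝ), 0 < s ∧
        ∀ i j, ‖y i - y j‖ = s * ‖x i - x j‖) :
    ((n - 1) / 4) ^ 2 ≤ d := by
  classical
  obtain ⟨m, hm⟩ : ∃ m, m = (n - 1) / 4 := ⟨_, rfl⟩
  rw [← hm]
  have hm0 : 0 < m := by omega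
  have h4m : 4 * m + 1 ≤ n := by omega
  have hp0 : p ≠ 0 := (zero_lt_one.trans hp1).ne'
  have hq1 : 1 < p.toReal := by
    have := (ENNReal.toReal_lt_toReal ENNReal.one_ne_top hptop).2 hp1
    simpa using this
  have hq0 : 0 < p.toReal := by linarith
  have hq2 : p.toReal ≠ 2 := by
    intro h
    apply hp2
    rw [← ENNReal.ofReal_toReal hptop, h]
    simp
  let f : Fin m → (Fin m × Fin m → ℝ) := fun i a => if a.1 = i then 1 else 0
  let g : Fin m → (Fin m × Fin m → ℝ) := fun j a => if a.2 = j then 1 else 0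
  let F : (Fin m × Fin m → ℝ) → Lp ℝ p (Measure.count : Measure (Fin m × Fin m)) := ofFun p
  have hFsub : ∀ φ ψ, ‖F φ - F ψ‖ ^ p.toReal = ∑ a, |φ a - ψ a| ^ p.toReal := by
    intro φ ψ
    show ‖ofFun p φ - ofFun p ψ‖ ^ p.toReal = _
    rw [ofFun_sub, ofFun_norm p hp0 hptop]
  let S : Finset (Lp ℝ p (Measure.count : Measure (Fin m × Fin m))) :=
    insert (F 0) ((((Finset.univ : Finset (Fin m)).image (fun i => F (f i))) ∪
      ((Finset.univ : Finset (Fin m)).image (fun i => F (-f i)))) ∪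
      (((Finset.univ : Finset (Fin m)).image (fun i => F (g i))) ∪
      ((Finset.univ : Finset (Fin m)).image (fun i => F (-g i)))))
  have hScard : S.card ≤ n := by
    have h1 : ∀ h : Fin m → Lp ℝ p (Measure.count : Measure (Fin m × Fin m)),
        ((Finset.univ : Finset (Fin m)).image h).card ≤ m := fun h => by
      simpa using Finset.card_image_le (s := (Finset.univ : Finset (Fin m))) (f := h)
    refine (Finset.card_insert_le _ _).trans ?_
    have h2 := Finset.card_union_le ((((Finset.univ : Finset (Fin m)).image (fun i => F (f i))) ∪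
      ((Finset.univ : Finset (Fin m)).image (fun i => F (-f i)))))
      (((Finset.univ : Finset (Fin m)).image (fun i => F (g i))) ∪
      ((Finset.univ : Finset (Fin m)).image (fun i => F (-g i))))
    have h3 := Finset.card_union_le ((Finset.univ : Finset (Fin m)).image (fun i => F (f i)))
      ((Finset.univ : Finset (Fin m)).image (fun i => F (-f i)))
    have h4 := Finset.card_union_le ((Finset.univ : Finset (Fin m)).image (fun i => F (g i)))
      ((Finset.univ : Finset (Fin m)).image (fun i => F (-g i)))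
    have := h1 (fun i => F (f i))
    have := h1 (fun i => F (-f i))
    have := h1 (fun i => F (g i))
    have := h1 (fun i => F (-g i))
    omega
  have hne : F (f ⟨0, hm0⟩) ≠ 0 := by
    intro h
    have h1 := ofFun_norm p hp0 hptop (f ⟨0, hm0⟩)
    change ‖F (f ⟨0, hm0⟩)‖ ^ p.toReal = _ at h1
    rw [h, norm_zero, Real.zero_rpow hq0.ne'] at h1
    have h2 := (Finset.sum_eq_zero_iff_of_nonneg (fun a _ => Real.rpow_nonneg (abs_nonneg _) _)).1 h1.symm
      (⟨0, hm0⟩, ⟨0, hm0⟩) (Finset.mem_univ _)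
    simp [f] at h2
  haveI : Infinite (Lp ℝ p (Measure.count : Measure (Fin m × Fin m))) :=
    Infinite.of_injective (fun t : ℝ => t • F (f ⟨0, hm0⟩)) (smul_left_injective ℝ hne)
  obtain ⟨t, hSt, htn⟩ := Infinite.exists_superset_card_eq S n hScard
  let e : t ≃ Fin n := t.equivFinOfCardEq htn
  obtain ⟨y, s, hs, hy⟩ := hd (Fin m × Fin m) Measure.count (fun i => ((e.symm i : t) : Lp ℝ p (Measure.count : Measure (Fin m × Fin m))))
    (Subtype.val_injective.comp e.symm.injective)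
  let Y : Lp ℝ p (Measure.count : Measure (Fin m × Fin m)) → PiLp p (fun _ : Fin d => ℝ) :=
    fun v => if h : v ∈ t then y (e ⟨v, h⟩) else 0
  have hY : ∀ u v, u ∈ t → v ∈ t → ‖Y u - Y v‖ = s * ‖u - v‖ := by
    intro u v hu hv
    have := hy (e ⟨u, hu⟩) (e ⟨v, hv⟩)
    simp only [Equiv.symm_apply_apply] at this
    simp only [Y, dif_pos hu, dif_pos hv]
    exact this
  let T : Set (Fin m × Fin m → ℝ) := {φ | F φ ∈ t}
  let Z : (Fin m × Fin m → ℝ) → Fin d → ℝ := fun φ r => (Y (F φ)) r - (Y (F 0)) r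
  have hZ : ∀ φ ψ, φ ∈ T → ψ ∈ T →
      ∑ r, |Z φ r - Z ψ r| ^ p.toReal = s ^ p.toReal * ∑ a, |φ a - ψ a| ^ p.toReal := by
    intro φ ψ hφ hψ
    rw [← hFsub, ← Real.mul_rpow hs.le (norm_nonneg _), ← hY _ _ hφ hψ, piLp_norm_rpow p hq0]
    refine Finset.sum_congr rfl fun r _ => ?_
    congr 2
    simp only [Z, PiLp.sub_apply]
    ring
  have hT0 : (0 : Fin m × Fin m → ℝ) ∈ T := hSt (Finset.mem_insert_self _ _)
  have hTf : ∀ i, f i ∈ T := fun i => hSt (by simp [S])
  have hTf' : ∀ i, -f i ∈ T := fun i => hSt (by simp [S])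
  have hTg : ∀ i, g i ∈ T := fun i => hSt (by simp [S])
  have hTg' : ∀ i, -g i ∈ T := fun i => hSt (by simp [S])
  have hZ0 : ∀ r, Z 0 r = 0 := fun r => by simp [Z]
  have tr := transfer hq1 hq2 T Z s hs hZ0 hZ hT0
  have hff : ∀ i i', i ≠ i' → ∀ r, Z (f i) r = 0 ∨ Z (f i') r = 0 := by
    intro i i' hii
    rw [tr _ _ (hTf i) (hTf' i) (hTf i') (hTf' i')]
    intro a
    by_cases h : a.1 = i
    · right
      have : a.1 ≠ i' := fun h' => hii (h.symm.trans h')
      simp [f, this]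
    · left
      simp [f, h]
  have hgg : ∀ i i', i ≠ i' → ∀ r, Z (g i) r = 0 ∨ Z (g i') r = 0 := by
    intro i i' hii
    rw [tr _ _ (hTg i) (hTg' i) (hTg i') (hTg' i')]
    intro a
    by_cases h : a.2 = i
    · right
      have : a.2 ≠ i' := fun h' => hii (h.symm.trans h')
      simp [g, this]
    · left
      simp [g, h]
  have hfg : ∀ e : Fin m × Fin m, ∃ r, Z (f e.1) r ≠ 0 ∧ Z (g e.2) r ≠ 0 := by
    intro e
    by_contra hcon
    have h1 : ∀ r, Z (f e.1) r = 0 ∨ Z (g e.2) r = 0 := by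
      intro r
      by_contra h2
      rw [not_or] at h2
      exact hcon ⟨r, h2⟩
    rw [tr _ _ (hTf e.1) (hTf' e.1) (hTg e.2) (hTg' e.2)] at h1
    have := h1 e
    simp [f, g] at this
  choose r hr using hfg
  have hinj : Function.Injective r := by
    intro a b hab
    have h1 := hr a
    have h2 := hr b
    rw [← hab] at h2
    refine Prod.ext ?_ ?_
    · by_contra h
      rcases hff _ _ h (r a) with h3 | h3
      · exact h1.1 h3
      · exact h2.1 h3
    · by_contra h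
      rcases hgg _ _ h (r a) with h3 | h3
      · exact h1.2 h3
      · exact h2.2 h3
  have hcard := Fintype.card_le_of_injective r hinj
  rw [Fintype.card_prod, Fintype.card_fin, Fintype.card_fin] at hcard
  rw [pow_two]
  exact hcard

end Crest.Agent.S0359
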