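import Crest.Prelude.Def_CubeNoise

/-!
Noise semigroup on the cube: the derivative of `information (noise ρ u)` in `ρ` is
`production (noise ρ u) / ρ`, and the comparison argument giving the sharp information bound
from the instantaneous production bound.
-/

set_option autoImplicit false
open Crest.CubeNoise

namespace Crest.Agent.S0470Aux

open Finset

lemma spin_not (b : Bool) : spin (!b) = - spin b := by
  cases b <;> simp [spin]

lemma spin_mul_self (b : Bool) : spin b * spin b = 1 := by
  cases b <;> simp [spin]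

lemma abs_spin (b : Bool) : |spin b| = 1 := by
  cases b <;> simp [spin]

/-- the noise kernel -/
noncomputable def ker {n : ℕ} (ρ : ℝ) (x y : Fin n → Bool) : ℝ :=
  ∏ i, (1 + ρ * spin (x i) * spin (y i)) / 2

lemma noise_eq {n : ℕ} (ρ : ℝ) (u : (Fin n → Bool) → ℝ) (x : Fin n → Bool) :
    noise ρ u x = ∑ y, ker ρ x y * u y := rfl

lemma ker_symm {n : ℕ} (ρ : ℝ) (x y : Fin n → Bool) : ker ρ x y = ker ρ y x := by
  unfold ker
  refine Finset.prod_congr rfl fun i _ => ?_
  ring

lemma sum_ker {n : ℕ} (ρ : ℝ) (x : Fin n → Bool) : ∑ y, ker ρ x y = 1 := by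
  unfold ker
  have h := (Finset.prod_univ_sum (R := ℝ) (fun _ : Fin n => (Finset.univ : Finset Bool))
    (fun i b => (1 + ρ * spin (x i) * spin b) / 2))
  rw [Fintype.piFinset_univ] at h
  rw [← h]
  apply Finset.prod_eq_one
  intro i _
  simp [spin]
  ring

lemma sum_ker' {n : ℕ} (ρ : ℝ) (y : Fin n → Bool) : ∑ x, ker ρ x y = 1 := by
  simp_rw [ker_symm ρ _ y]
  exact sum_ker ρ y

lemma abs_mul_spin_mul_spin (ρ : ℝ) (a b : Bool) : |ρ * spin a * spin b| = |ρ| := by
  rw [abs_mul, abs_mul, abs_spin, abs_spin]; ring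

lemma ker_nonneg {n : ℕ} {ρ : ℝ} (hρ : |ρ| ≤ 1) (x y : Fin n → Bool) : 0 ≤ ker ρ x y := by
  apply Finset.prod_nonneg
  intro i _
  have := abs_mul_spin_mul_spin ρ (x i) (y i)
  have h2 := neg_abs_le (ρ * spin (x i) * spin (y i))
  linarith

lemma ker_pos {n : ℕ} {ρ : ℝ} (hρ : |ρ| < 1) (x y : Fin n → Bool) : 0 < ker ρ x y := by
  apply Finset.prod_pos
  intro i _
  have := abs_mul_spin_mul_spin ρ (x i) (y i)
  have h2 := neg_abs_le (ρ * spin (x i) * spin (y i))
  linarith

lemma cubeAverage_noise {n : ℕ} (ρ : ℝ) (u : (Fin n → Bool) → ℝ) :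
    cubeAverage (noise ρ u) = cubeAverage u := by
  unfold cubeAverage
  congr 1
  calc ∑ x, noise ρ u x = ∑ x, ∑ y, ker ρ x y * u y := rfl
    _ = ∑ y, ∑ x, ker ρ x y * u y := Finset.sum_comm
    _ = ∑ y, u y := by
        refine Finset.sum_congr rfl fun y _ => ?_
        rw [← Finset.sum_mul, sum_ker', one_mul]

lemma abs_noise_le {n : ℕ} {ρ : ℝ} (hρ : |ρ| ≤ 1) {u : (Fin n → Bool) → ℝ}
    (hu : ∀ x, |u x| ≤ 1) (x : Fin n → Bool) : |noise ρ u x| ≤ 1 := by
  rw [noise_eq]
  calc |∑ y, ker ρ x y * u y| ≤ ∑ y, |ker ρ x y * u y| := Finset.abs_sum_le_sum_abs _ _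
    _ ≤ ∑ y, ker ρ x y := by
        refine Finset.sum_le_sum fun y _ => ?_
        rw [abs_mul, abs_of_nonneg (ker_nonneg hρ x y)]
        exact mul_le_of_le_one_right (ker_nonneg hρ x y) (hu y)
    _ = 1 := sum_ker ρ x

lemma noise_lt_one {n : ℕ} {ρ : ℝ} (hρ : |ρ| < 1) {u : (Fin n → Bool) → ℝ}
    (hu : ∀ x, |u x| ≤ 1) (hne : ∃ z, u z < 1) (x : Fin n → Bool) : noise ρ u x < 1 := by
  obtain ⟨z, hz⟩ := hne
  rw [noise_eq, ← sum_ker ρ x]
  refine Finset.sum_lt_sum (fun y _ => ?_) ⟨z, Finset.mem_univ _, ?_⟩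
  · exact mul_le_of_le_one_right (ker_pos hρ x y).le ((le_abs_self _).trans (hu y))
  · exact mul_lt_of_lt_one_right (ker_pos hρ x z) hz

lemma noise_neg_right {n : ℕ} (ρ : ℝ) (u : (Fin n → Bool) → ℝ) (x : Fin n → Bool) :
    noise ρ (fun y => - u y) x = - noise ρ u x := by
  rw [noise_eq, noise_eq, ← Finset.sum_neg_distrib]
  refine Finset.sum_congr rfl fun y _ => ?_
  ring

lemma neg_one_lt_noise {n : ℕ} {ρ : ℝ} (hρ : |ρ| < 1) {u : (Fin n → Bool) → ℝ}
    (hu : ∀ x, |u x| ≤ 1) (hne : ∃ z, -1 < u z) (x : Fin n → Bool) : -1 < noise ρ u x := by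
  have h := noise_lt_one (u := fun y => - u y) hρ (fun y => by rw [abs_neg]; exact hu y)
    (by obtain ⟨z, hz⟩ := hne; exact ⟨z, by linarith⟩) x
  rw [noise_neg_right] at h
  linarith

/-! derivative in ρ -/

lemma hasDerivAt_ker {n : ℕ} (ρ : ℝ) (x y : Fin n → Bool) :
    HasDerivAt (fun ρ => ker ρ x y)
      (∑ i, (∏ j ∈ Finset.univ.erase i, (1 + ρ * spin (x j) * spin (y j)) / 2)
        * (spin (x i) * spin (y i) / 2)) ρ := by
  unfold ker
  have h := HasDerivAt.fun_finsetProd (𝕜 := ℝ) (u := (Finset.univ : Finset (Fin n)))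
    (f := fun i ρ => (1 + ρ * spin (x i) * spin (y i)) / 2)
    (f' := fun i => spin (x i) * spin (y i) / 2) (x := ρ) (fun i _ => by
      have h1 : HasDerivAt (fun ρ : ℝ => (1 + ρ * (spin (x i) * spin (y i))) / 2)
          ((1 * (spin (x i) * spin (y i))) / 2) ρ :=
        (((hasDerivAt_id ρ).mul_const _).const_add 1).div_const 2
      simpa [mul_assoc, one_mul] using h1)
  simpa [smul_eq_mul] using h

lemma ker_sub_flip {n : ℕ} (ρ : ℝ) (x y : Fin n → Bool) (i : Fin n) :
    ker ρ x y - ker ρ (flipBit i x) y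
      = (∏ j ∈ Finset.univ.erase i, (1 + ρ * spin (x j) * spin (y j)) / 2)
        * (ρ * (spin (x i) * spin (y i))) := by
  unfold ker
  rw [← Finset.prod_erase_mul _ _ (Finset.mem_univ i),
    ← Finset.prod_erase_mul Finset.univ (fun j => (1 + ρ * spin (flipBit i x j) * spin (y j)) / 2)
      (Finset.mem_univ i)]
  have h1 : ∏ j ∈ Finset.univ.erase i, (1 + ρ * spin (flipBit i x j) * spin (y j)) / 2
      = ∏ j ∈ Finset.univ.erase i, (1 + ρ * spin (x j) * spin (y j)) / 2 := by
    refine Finset.prod_congr rfl fun j hj => ?_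
    have hji : j ≠ i := Finset.ne_of_mem_erase hj
    simp [flipBit, Function.update_of_ne hji]
  rw [h1]
  have h2 : flipBit i x i = !x i := by simp [flipBit]
  rw [h2, spin_not]
  ring

lemma hasDerivAt_noise {n : ℕ} (ρ : ℝ) (u : (Fin n → Bool) → ℝ) (x : Fin n → Bool) :
    ∃ d : ℝ, HasDerivAt (fun ρ => noise ρ u x) d ρ ∧
      ρ * d = (∑ i, (noise ρ u x - noise ρ u (flipBit i x))) / 2 := by
  refine ⟨∑ y, (∑ i, (∏ j ∈ Finset.univ.erase i, (1 + ρ * spin (x j) * spin (y j)) / 2)
        * (spin (x i) * spin (y i) / 2)) * u y, ?_, ?_⟩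
  · have : HasDerivAt (fun ρ => ∑ y, ker ρ x y * u y) (∑ y, (∑ i, (∏ j ∈ Finset.univ.erase i,
        (1 + ρ * spin (x j) * spin (y j)) / 2) * (spin (x i) * spin (y i) / 2)) * u y) ρ :=
      HasDerivAt.fun_sum fun y _ => (hasDerivAt_ker ρ x y).mul_const _
    exact this
  · have h1 : ∀ i : Fin n, noise ρ u x - noise ρ u (flipBit i x)
        = ∑ y, ((∏ j ∈ Finset.univ.erase i, (1 + ρ * spin (x j) * spin (y j)) / 2)
        * (ρ * (spin (x i) * spin (y i)))) * u y := by
      intro i
      rw [noise_eq, noise_eq, ← Finset.sum_sub_distrib]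
      refine Finset.sum_congr rfl fun y _ => ?_
      rw [← ker_sub_flip, sub_mul]
    simp_rw [h1]
    rw [Finset.sum_comm, Finset.mul_sum, Finset.sum_div]
    refine Finset.sum_congr rfl fun y _ => ?_
    rw [Finset.sum_mul, Finset.mul_sum, Finset.sum_div]
    refine Finset.sum_congr rfl fun i _ => ?_
    ring

/-! sign entropy -/

lemma continuous_signEntropy : Continuous signEntropy := by
  unfold signEntropy
  fun_prop

lemma artanh_eq {r : ℝ} (h1 : -1 < r) (h2 : r < 1) :
    Real.artanh r = (Real.log (1 + r) - Real.log (1 - r)) / 2 := by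
  rw [Real.artanh_eq_half_log ⟨h1.le, h2.le⟩, Real.log_div (by linarith) (by linarith)]
  ring

lemma hasDerivAt_signEntropy {r : ℝ} (h1 : -1 < r) (h2 : r < 1) :
    HasDerivAt signEntropy (- Real.artanh r) r := by
  have ha : HasDerivAt (fun r : ℝ => (1 + r) / 2) (1 / 2) r :=
    ((hasDerivAt_id r).const_add 1).div_const 2
  have hb := (Real.hasDerivAt_binEntropy (p := (1 + r) / 2) (by linarith) (by linarith)).comp r ha
  have hc : (Real.log (1 - (1 + r) / 2) - Real.log ((1 + r) / 2)) * (1 / 2) = - Real.artanh r := by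
    rw [artanh_eq h1 h2]
    have e1 : 1 - (1 + r) / 2 = (1 - r) / 2 := by ring
    rw [e1, Real.log_div (by linarith) (by norm_num), Real.log_div (by linarith) (by norm_num)]
    ring
  rw [hc] at hb
  exact hb

lemma signEntropy_neg (r : ℝ) : signEntropy (-r) = signEntropy r := by
  unfold signEntropy
  have : (1 + -r) / 2 = 1 - (1 + r) / 2 := by ring
  rw [this, Real.binEntropy_one_sub]

lemma signEntropy_abs (r : ℝ) : signEntropy |r| = signEntropy r := by
  rcases abs_cases r with ⟨h, _⟩ | ⟨h, _⟩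
  · rw [h]
  · rw [h, signEntropy_neg]

lemma signEntropy_zero : signEntropy 0 = Real.log 2 := by
  unfold signEntropy
  have : ((1 : ℝ) + 0) / 2 = 2⁻¹ := by norm_num
  rw [this, Real.binEntropy_two_inv]

lemma signEntropy_one : signEntropy 1 = 0 := by
  unfold signEntropy
  have : ((1 : ℝ) + 1) / 2 = 1 := by norm_num
  rw [this, Real.binEntropy_one]

lemma signEntropy_le_log_two (r : ℝ) : signEntropy r ≤ Real.log 2 := Real.binEntropy_le_log_two

lemma signEntropy_nonneg {r : ℝ} (h : |r| ≤ 1) : 0 ≤ signEntropy r := by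
  rw [abs_le] at h
  exact Real.binEntropy_nonneg (by linarith [h.1]) (by linarith [h.2])

lemma signEntropy_pos {r : ℝ} (h : |r| < 1) : 0 < signEntropy r := by
  rw [abs_lt] at h
  exact Real.binEntropy_pos (by linarith [h.1]) (by linarith [h.2])

lemma signEntropy_strictAnti : StrictAntiOn signEntropy (Set.Icc 0 1) := by
  intro a ha b hb hab
  unfold signEntropy
  refine Real.binEntropy_strictAntiOn ?_ ?_ ?_
  · constructor <;> norm_num <;> linarith [ha.1, ha.2]
  · constructor <;> norm_num <;> linarith [hb.1, hb.2]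
  · linarith

lemma exists_signEntropy_eq {v : ℝ} (h0 : 0 < v) (h1 : v ≤ Real.log 2) :
    ∃ s : ℝ, 0 ≤ s ∧ s < 1 ∧ signEntropy s = v := by
  have hc : ContinuousOn signEntropy (Set.Icc (0 : ℝ) 1) := continuous_signEntropy.continuousOn
  have := intermediate_value_Icc' (by norm_num : (0 : ℝ) ≤ 1) hc
  rw [signEntropy_zero, signEntropy_one] at this
  obtain ⟨s, hs, hsv⟩ := this ⟨h0.le, h1⟩
  refine ⟨s, hs.1, lt_of_le_of_ne hs.2 ?_, hsv⟩
  rintro rfl
  rw [signEntropy_one] at hsv
  linarith

/-! information along noise -/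

lemma continuous_information_noise {n : ℕ} (u : (Fin n → Bool) → ℝ) :
    Continuous (fun ρ => information (noise ρ u)) := by
  unfold information
  have h1 : ∀ x : Fin n → Bool, Continuous (fun ρ => noise ρ u x) := by
    intro x
    exact continuous_iff_continuousAt.2 fun ρ => by
      obtain ⟨d, hd, _⟩ := hasDerivAt_noise ρ u x
      exact hd.continuousAt
  refine Continuous.sub ?_ ?_
  · have : (fun ρ => signEntropy (cubeAverage (noise ρ u))) = fun _ => signEntropy (cubeAverage u) := by
      funext ρ; rw [cubeAverage_noise]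
    rw [this]; exact continuous_const
  · unfold cubeAverage
    refine Continuous.div_const ?_ _
    exact continuous_finsetSum _ fun x _ => continuous_signEntropy.comp (h1 x)

lemma hasDerivAt_information_noise {n : ℕ} {u : (Fin n → Bool) → ℝ} {ρ : ℝ} (hρ0 : ρ ≠ 0)
    (h : ∀ x, |noise ρ u x| < 1) :
    HasDerivAt (fun ρ => information (noise ρ u)) (production (noise ρ u) / ρ) ρ := by
  choose d hd1 hd2 using fun x => hasDerivAt_noise ρ u x
  have e1 : (fun ρ => information (noise ρ u))
      = fun ρ => signEntropy (cubeAverage u) - cubeAverage (fun x => signEntropy (noise ρ u x)) := by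
    funext ρ'
    unfold information
    rw [cubeAverage_noise]
  rw [e1]
  have h2 : ∀ x, HasDerivAt (fun ρ => signEntropy (noise ρ u x))
      (- Real.artanh (noise ρ u x) * d x) ρ := by
    intro x
    have hx := abs_lt.1 (h x)
    exact HasDerivAt.comp (h₂ := signEntropy) ρ (hasDerivAt_signEntropy hx.1 hx.2) (hd1 x)
  have h3 : HasDerivAt (fun ρ => cubeAverage (fun x => signEntropy (noise ρ u x)))
      ((∑ x, - Real.artanh (noise ρ u x) * d x) / 2 ^ n) ρ := by
    unfold cubeAverage
    exact (HasDerivAt.fun_sum fun x _ => h2 x).div_const _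
  have h4 := (hasDerivAt_const ρ (signEntropy (cubeAverage u))).sub h3
  have e2 : 0 - (∑ x, - Real.artanh (noise ρ u x) * d x) / 2 ^ n = production (noise ρ u) / ρ := by
    unfold production cubeAverage
    rw [zero_sub, ← neg_div, ← Finset.sum_neg_distrib, div_right_comm, Finset.sum_div _ _ ρ]
    congr 1
    refine Finset.sum_congr rfl fun x _ => ?_
    rw [← hd2 x]
    field_simp
  rw [e2] at h4
  exact h4

/-! the comparison argument -/

/-- If `u` is not constantly `1` nor constantly `-1`, the sharp bound for `0 < ρ < 1`. -/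
lemma main_interior {n : ℕ}
    (H : ∀ g : (Fin n → Bool) → ℝ, (∀ x, |g x| < 1) →
      ∀ r : ℝ, 0 ≤ r → r < 1 → Real.log 2 - signEntropy r = information g →
        r * Real.artanh r ≤ production g)
    {u : (Fin n → Bool) → ℝ} (hu : ∀ x, |u x| ≤ 1) (hn1 : ∃ z, u z < 1) (hn2 : ∃ z, -1 < u z)
    {r : ℝ} (hr : 0 ≤ r) (hr1 : r ≤ 1)
    (hI : information u = Real.log 2 - signEntropy r)
    {ρ₁ : ℝ} (h0 : 0 < ρ₁) (h1 : ρ₁ < 1) :
    information (noise ρ₁ u) ≤ Real.log 2 - signEntropy (ρ₁ * r) := by
  by_contra hcon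
  push Not at hcon
  set D : ℝ → ℝ := fun ρ => information (noise ρ u) - (Real.log 2 - signEntropy (ρ * r)) with hD
  have hDcont : Continuous D := by
    refine (continuous_information_noise u).sub (continuous_const.sub ?_)
    exact continuous_signEntropy.comp (continuous_id.mul continuous_const)
  have hD1 : D ρ₁ > 0 := by simp only [hD]; linarith
  have hone : noise 1 u = u := by
    funext x
    rw [noise_eq]
    have hk : ∀ y, ker 1 x y = if y = x then 1 else 0 := by
      intro y
      by_cases hy : y = x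
      · subst hy
        simp only [if_true]
        unfold ker
        apply Finset.prod_eq_one
        intro i _
        rw [one_mul, spin_mul_self]; norm_num
      · rw [if_neg hy]
        obtain ⟨i, hi⟩ := Function.ne_iff.1 hy
        unfold ker
        apply Finset.prod_eq_zero (Finset.mem_univ i)
        have : x i = !(y i) := by
          revert hi; cases x i <;> cases y i <;> simp
        rw [this, spin_not]
        have := spin_mul_self (y i)
        linarith
    simp_rw [hk]
    simp
  have hDone : D 1 ≤ 0 := by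
    simp only [hD]
    rw [hone, hI, one_mul, sub_self]
  -- the first point after ρ₁ where D ≤ 0
  set S : Set ℝ := {ρ | ρ ∈ Set.Icc ρ₁ 1 ∧ D ρ ≤ 0} with hS
  have hSne : S.Nonempty := ⟨1, ⟨h1.le, le_refl 1⟩, hDone⟩
  have hSclosed : IsClosed S := by
    have : S = Set.Icc ρ₁ 1 ∩ {ρ | D ρ ≤ 0} := rfl
    rw [this]
    exact isClosed_Icc.inter (isClosed_le hDcont continuous_const)
  have hSbdd : BddBelow S := ⟨ρ₁, fun ρ hρ => hρ.1.1⟩
  set ρ₀ := sInf S with hρ₀
  have hρ₀S : ρ₀ ∈ S := hSclosed.csInf_mem hSne hSbdd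
  have hρ₁₀ : ρ₁ < ρ₀ := by
    refine lt_of_le_of_ne hρ₀S.1.1 ?_
    intro h
    have := hρ₀S.2
    rw [← h] at this
    linarith
  have hpos : ∀ ρ, ρ ∈ Set.Ico ρ₁ ρ₀ → 0 < D ρ := by
    intro ρ hρ
    by_contra hle
    push Not at hle
    have : ρ ∈ S := ⟨⟨hρ.1, hρ.2.le.trans hρ₀S.1.2⟩, hle⟩
    have := csInf_le hSbdd this
    rw [← hρ₀] at this
    linarith [hρ.2]
  -- derivative of D nonneg on (ρ₁, ρ₀)
  have hmono : MonotoneOn D (Set.Icc ρ₁ ρ₀) := by
    have hder : ∀ ρ ∈ Set.Ioo ρ₁ ρ₀, ∃ d, HasDerivAt D d ρ ∧ 0 ≤ d := by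
      intro ρ hρ
      have hρpos : 0 < ρ := h0.trans hρ.1
      have hρlt : ρ < 1 := hρ.2.trans_le hρ₀S.1.2
      have habs : |ρ| < 1 := by rw [abs_of_pos hρpos]; exact hρlt
      have hg : ∀ x, |noise ρ u x| < 1 := fun x =>
        abs_lt.2 ⟨neg_one_lt_noise habs hu hn2 x, noise_lt_one habs hu hn1 x⟩
      have hd1 := hasDerivAt_information_noise hρpos.ne' hg
      have hρr0 : 0 ≤ ρ * r := mul_nonneg hρpos.le hr
      have hρr1 : ρ * r < 1 := by
        calc ρ * r ≤ ρ * 1 := mul_le_mul_of_nonneg_left hr1 hρpos.le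
          _ < 1 := by linarith
      have hd2 : HasDerivAt (fun ρ : ℝ => Real.log 2 - signEntropy (ρ * r))
          (Real.artanh (ρ * r) * r) ρ := by
        have ha : HasDerivAt (fun ρ : ℝ => ρ * r) r ρ := by
          simpa using (hasDerivAt_id ρ).mul_const r
        have hb := HasDerivAt.comp (h₂ := signEntropy) ρ (hasDerivAt_signEntropy (by linarith) hρr1) ha
        have hc := (hasDerivAt_const ρ (Real.log 2)).sub hb
        have e : 0 - -Real.artanh (ρ * r) * r = Real.artanh (ρ * r) * r := by ring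
        rw [e] at hc
        exact hc
      refine ⟨_, hd1.sub hd2, ?_⟩
      -- find s with ψ(s) = information
      have hv0 : 0 < Real.log 2 - information (noise ρ u) := by
        -- information ≤ log 2 - average of signEntropy, strictly
        have hA : 0 < cubeAverage (fun x => signEntropy (noise ρ u x)) := by
          unfold cubeAverage
          refine div_pos (Finset.sum_pos (fun x _ => signEntropy_pos (hg x)) Finset.univ_nonempty)
            (by positivity)
        have hB := signEntropy_le_log_two (cubeAverage (noise ρ u))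
        unfold information
        linarith
      have hDpos := hpos ρ ⟨hρ.1.le, hρ.2⟩
      have hv1 : Real.log 2 - information (noise ρ u) ≤ Real.log 2 := by
        have : 0 < information (noise ρ u) - (Real.log 2 - signEntropy (ρ * r)) := hDpos
        have h5 := signEntropy_le_log_two (ρ * r)
        linarith
      obtain ⟨s, hs0, hs1, hs⟩ := exists_signEntropy_eq hv0 hv1
      have hprod := H (noise ρ u) hg s hs0 hs1 (by rw [hs]; ring)
      have hsgt : ρ * r < s := by
        by_contra hle
        push Not at hle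
        have h6 : signEntropy (ρ * r) ≤ signEntropy s :=
          signEntropy_strictAnti.antitoneOn ⟨hs0, hs1.le⟩ ⟨hρr0, hρr1.le⟩ hle
        have : 0 < information (noise ρ u) - (Real.log 2 - signEntropy (ρ * r)) := hDpos
        linarith
      have hart : Real.artanh (ρ * r) ≤ Real.artanh s :=
        Real.artanh_le_artanh (by linarith) hs1 hsgt.le
      have hart0 : 0 ≤ Real.artanh (ρ * r) := Real.artanh_nonneg hρr0
      have h7 : ρ * r * Real.artanh (ρ * r) ≤ s * Real.artanh s :=
        mul_le_mul hsgt.le hart hart0 hs0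
      have h8 : Real.artanh (ρ * r) * r ≤ production (noise ρ u) / ρ := by
        rw [le_div_iff₀ hρpos]
        calc Real.artanh (ρ * r) * r * ρ = ρ * r * Real.artanh (ρ * r) := by ring
          _ ≤ _ := h7.trans hprod
      linarith
    refine monotoneOn_of_deriv_nonneg (convex_Icc _ _) hDcont.continuousOn ?_ ?_
    · rw [interior_Icc]
      intro ρ hρ
      obtain ⟨d, hd, _⟩ := hder ρ hρ
      exact hd.differentiableAt.differentiableWithinAt
    · rw [interior_Icc]
      intro ρ hρ
      obtain ⟨d, hd, hd0⟩ := hder ρ hρ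
      rw [hd.deriv]
      exact hd0
  have h9 := hmono ⟨le_refl _, hρ₁₀.le⟩ ⟨hρ₁₀.le, le_refl _⟩ hρ₁₀.le
  have h10 := hρ₀S.2
  linarith

lemma information_const {n : ℕ} (c : ℝ) : information (fun _ : Fin n → Bool => c) = 0 := by
  unfold information cubeAverage
  simp

lemma noise_one {n : ℕ} (u : (Fin n → Bool) → ℝ) : noise 1 u = u := by
  funext x
  rw [noise_eq]
  have hk : ∀ y, ker 1 x y = if y = x then 1 else 0 := by
    intro y
    by_cases hy : y = x
    · subst hy
      simp only [if_true]
      unfold ker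
      apply Finset.prod_eq_one
      intro i _
      rw [one_mul, spin_mul_self]; norm_num
    · rw [if_neg hy]
      obtain ⟨i, hi⟩ := Function.ne_iff.1 hy
      unfold ker
      apply Finset.prod_eq_zero (Finset.mem_univ i)
      have : x i = !(y i) := by
        revert hi; cases x i <;> cases y i <;> simp
      rw [this, spin_not]
      have := spin_mul_self (y i)
      linarith
  simp_rw [hk]
  simp

lemma noise_zero {n : ℕ} (u : (Fin n → Bool) → ℝ) : noise 0 u = fun _ => cubeAverage u := by
  funext x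
  rw [noise_eq]
  unfold ker cubeAverage
  simp [div_eq_inv_mul, Finset.mul_sum]

lemma noise_const {n : ℕ} (ρ c : ℝ) : noise ρ (fun _ : Fin n → Bool => c) = fun _ => c := by
  funext x
  rw [noise_eq, ← Finset.sum_mul, sum_ker, one_mul]

/-- complementing all bits -/
def compl {n : ℕ} (x : Fin n → Bool) : Fin n → Bool := fun i => !x i

lemma compl_compl {n : ℕ} (x : Fin n → Bool) : compl (compl x) = x := by
  funext i; simp [compl]

def complEquiv (n : ℕ) : (Fin n → Bool) ≃ (Fin n → Bool) where
  toFun := compl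
  invFun := compl
  left_inv := compl_compl
  right_inv := compl_compl

lemma noise_neg {n : ℕ} (ρ : ℝ) (u : (Fin n → Bool) → ℝ) (x : Fin n → Bool) :
    noise (-ρ) u x = noise ρ u (compl x) := by
  rw [noise_eq, noise_eq]
  refine Finset.sum_congr rfl fun y _ => ?_
  congr 1
  unfold ker
  refine Finset.prod_congr rfl fun i _ => ?_
  simp only [compl, spin_not]
  ring

lemma cubeAverage_compl {n : ℕ} (g : (Fin n → Bool) → ℝ) :
    cubeAverage (fun x => g (compl x)) = cubeAverage g := by
  unfold cubeAverage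
  congr 1
  exact Equiv.sum_comp (complEquiv n) g

lemma information_noise_neg {n : ℕ} (ρ : ℝ) (u : (Fin n → Bool) → ℝ) :
    information (noise (-ρ) u) = information (noise ρ u) := by
  unfold information
  rw [cubeAverage_noise, cubeAverage_noise]
  simp_rw [noise_neg]
  rw [cubeAverage_compl (fun x => signEntropy (noise ρ u x))]

lemma information_noise_abs {n : ℕ} (ρ : ℝ) (u : (Fin n → Bool) → ℝ) :
    information (noise |ρ| u) = information (noise ρ u) := by
  rcases abs_cases ρ with ⟨h, _⟩ | ⟨h, _⟩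
  · rw [h]
  · rw [h, information_noise_neg]

/-- The full statement S0470 from the instantaneous bound. -/
theorem of_production {n : ℕ}
    (H : ∀ g : (Fin n → Bool) → ℝ, (∀ x, |g x| < 1) →
      ∀ r : ℝ, 0 ≤ r → r < 1 → Real.log 2 - signEntropy r = information g →
        r * Real.artanh r ≤ production g)
    (u : (Fin n → Bool) → ℝ)
    (hu : ∀ x, |u x| ≤ 1) (ρ : ℝ) (hρ : |ρ| ≤ 1) (r : ℝ) (hr : 0 ≤ r) (hr1 : r ≤ 1)
    (hI : information u = Real.log 2 - signEntropy r) :
    information (noise ρ u) ≤ Real.log 2 - signEntropy (|ρ| * r) := by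
  rw [← information_noise_abs]
  have h0 : 0 ≤ |ρ| := abs_nonneg ρ
  generalize |ρ| = ρ' at hρ h0
  rcases h0.eq_or_lt with h | h
  · subst h
    rw [noise_zero, information_const]
    have := signEntropy_le_log_two (0 * r)
    linarith
  rcases hρ.eq_or_lt with h' | h'
  · subst h'
    rw [noise_one, hI, one_mul]
  by_cases hn1 : ∃ z, u z < 1
  · by_cases hn2 : ∃ z, -1 < u z
    · exact main_interior H hu hn1 hn2 hr hr1 hI h h'
    · push Not at hn2
      have : u = fun _ => -1 := by
        funext z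
        have := abs_le.1 (hu z)
        linarith [hn2 z, this.1]
      rw [this, noise_const, information_const]
      have := signEntropy_le_log_two (ρ' * r)
      linarith
  · push Not at hn1
    have : u = fun _ => 1 := by
      funext z
      have := abs_le.1 (hu z)
      linarith [hn1 z, this.2]
    rw [this, noise_const, information_const]
    have := signEntropy_le_log_two (ρ' * r)
    linarith

end Crest.Agent.S0470Aux
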