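import Crest.Prelude.Def_CubeNoise

/-!
Induction on the dimension for lower bounds of `production` by a functional of the mean and of the
average sign entropy.
-/

set_option autoImplicit false
open Crest.CubeNoise

namespace Crest.Agent.S0472Induct

open Finset

/-- one-edge cost -/
noncomputable def cost (a b : ℝ) : ℝ := (a - b) * (Real.artanh a - Real.artanh b) / 4

/-- restriction to a facet of the first coordinate -/
def facet {n : ℕ} (b : Bool) (g : (Fin (n + 1) → Bool) → ℝ) : (Fin n → Bool) → ℝ :=
  fun x => g (Fin.cons b x)

lemma sum_succ {n : ℕ} (g : (Fin (n + 1) → Bool) → ℝ) :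
    ∑ x, g x = ∑ x : Fin n → Bool, g (Fin.cons true x) + ∑ x : Fin n → Bool, g (Fin.cons false x) := by
  rw [← Equiv.sum_comp (Fin.consEquiv (fun _ => Bool)) g, Fintype.sum_prod_type]
  simp [Fin.consEquiv]

lemma cubeAverage_succ {n : ℕ} (g : (Fin (n + 1) → Bool) → ℝ) :
    cubeAverage g = (cubeAverage (facet true g) + cubeAverage (facet false g)) / 2 := by
  unfold cubeAverage facet
  rw [sum_succ, pow_succ]
  field_simp

lemma flipBit_zero_cons {n : ℕ} (b : Bool) (x : Fin n → Bool) :
    flipBit 0 (Fin.cons b x : Fin (n + 1) → Bool) = Fin.cons (!b) x := by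
  unfold flipBit
  funext j
  refine Fin.cases ?_ (fun j => ?_) j
  · simp
  · simp

lemma flipBit_succ_cons {n : ℕ} (i : Fin n) (b : Bool) (x : Fin n → Bool) :
    flipBit i.succ (Fin.cons b x : Fin (n + 1) → Bool) = Fin.cons b (flipBit i x) := by
  unfold flipBit
  funext j
  refine Fin.cases ?_ (fun j => ?_) j
  · simp [Function.update_of_ne (Fin.succ_ne_zero i).symm]
  · by_cases h : j = i
    · subst h; simp
    · have : j.succ ≠ i.succ := fun h' => h (Fin.succ_injective _ h')
      simp [Function.update_of_ne this, Function.update_of_ne h]

lemma production_succ {n : ℕ} (g : (Fin (n + 1) → Bool) → ℝ) :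
    production g = (production (facet true g) + production (facet false g)) / 2
      + cubeAverage (fun x => cost (facet true g x) (facet false g x)) := by
  unfold production
  rw [cubeAverage_succ]
  unfold cubeAverage facet
  simp only [Fin.sum_univ_succ, flipBit_zero_cons, flipBit_succ_cons, Bool.not_true, Bool.not_false]
  rw [← add_div, ← add_div, div_div, div_div]
  have key : (∑ x : Fin n → Bool, Real.artanh (g (Fin.cons true x)) *
            ((g (Fin.cons true x) - g (Fin.cons false x) +
                ∑ i : Fin n, (g (Fin.cons true x) - g (Fin.cons true (flipBit i x)))) / 2) +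
        ∑ x : Fin n → Bool, Real.artanh (g (Fin.cons false x)) *
            ((g (Fin.cons false x) - g (Fin.cons true x) +
                ∑ i : Fin n, (g (Fin.cons false x) - g (Fin.cons false (flipBit i x)))) / 2))
      = (∑ x : Fin n → Bool, Real.artanh (g (Fin.cons true x)) *
            ((∑ i : Fin n, (g (Fin.cons true x) - g (Fin.cons true (flipBit i x)))) / 2) +
        ∑ x : Fin n → Bool, Real.artanh (g (Fin.cons false x)) *
            ((∑ i : Fin n, (g (Fin.cons false x) - g (Fin.cons false (flipBit i x)))) / 2))
        + 2 * ∑ x : Fin n → Bool, cost (g (Fin.cons true x)) (g (Fin.cons false x)) := by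
    rw [← Finset.sum_add_distrib, ← Finset.sum_add_distrib, Finset.mul_sum,
      ← Finset.sum_add_distrib]
    refine Finset.sum_congr rfl fun x _ => ?_
    unfold cost
    ring
  rw [key]
  field_simp

/-- Induction principle: a functional `Q m A` of the mean and the average entropy which vanishes
(or is nonpositive) on one-point fields and satisfies the two-facet inequality is a lower bound for
`production`. -/
theorem production_ge (Q : ℝ → ℝ → ℝ)
    (h0 : ∀ m : ℝ, |m| < 1 → Q m (signEntropy m) ≤ 0)
    (hstep : ∀ (n : ℕ) (a b : (Fin n → Bool) → ℝ), (∀ x, |a x| < 1) → (∀ x, |b x| < 1) →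
      Q ((cubeAverage a + cubeAverage b) / 2)
        ((cubeAverage (fun x => signEntropy (a x)) + cubeAverage (fun x => signEntropy (b x))) / 2)
      ≤ (Q (cubeAverage a) (cubeAverage (fun x => signEntropy (a x)))
          + Q (cubeAverage b) (cubeAverage (fun x => signEntropy (b x)))) / 2
        + cubeAverage (fun x => cost (a x) (b x)))
    (n : ℕ) (g : (Fin n → Bool) → ℝ) (hg : ∀ x, |g x| < 1) :
    Q (cubeAverage g) (cubeAverage (fun x => signEntropy (g x))) ≤ production g := by
  induction n with
  | zero =>
    have h1 : ∀ h : (Fin 0 → Bool) → ℝ, cubeAverage h = h default := by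
      intro h
      unfold cubeAverage
      rw [Fintype.sum_unique, pow_zero, div_one]
      exact congrArg h (Subsingleton.elim _ _)
    have h2 : production g = 0 := by
      unfold production
      rw [h1]
      simp
    rw [h2, h1, h1]
    exact h0 _ (hg _)
  | succ n ih =>
    rw [production_succ, cubeAverage_succ g, cubeAverage_succ (fun x => signEntropy (g x))]
    have ha : ∀ x, |facet true g x| < 1 := fun x => hg _
    have hb : ∀ x, |facet false g x| < 1 := fun x => hg _
    have h1 := ih (facet true g) ha
    have h2 := ih (facet false g) hb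
    have h3 := hstep n (facet true g) (facet false g) ha hb
    have e1 : facet true (fun x => signEntropy (g x)) = fun x => signEntropy (facet true g x) := rfl
    have e2 : facet false (fun x => signEntropy (g x)) = fun x => signEntropy (facet false g x) := rfl
    rw [e1, e2]
    linarith

end Crest.Agent.S0472Induct
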