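import Crest.Statements.S0488
import Crest.Agent.CHR.FinD

set_option autoImplicit false
open Crest Crest.LogicCS

namespace Crest.Agent.S0488

/-- Deciding the truth of a well-formed sentence ∃ x ∈ ℝ^r ∀ y ∈ ℝ^s Φ(x, y), presented as a bit string, where Φ is a Boolean combination of atoms p = 0 and p > 0 and each p is an integer polynomial in x, y given by an arithmetic circuit with binary constants and sharing, evaluated exactly in ℝ, lies in a fixed level of the counting hierarchy (level 0 is P; the level after a class holds the problems defined from one of its members by a majority count over all strings of a polynomial length). -/
theorem result :
    ∃ j : ℕ, Crest.RealEA.EATR ∈ Crest.CountHier.level j := by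
  exact Crest.Agent.CHR.EATR_level

end Crest.Agent.S0488
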