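import Crest.Statements.S0501
import Crest.Agent.FC.Final
import Crest.Agent.FC.Circuit

set_option autoImplicit false
open Crest Crest.LogicCS

namespace Crest.Agent.S0501

/-- For some constant C and threshold N₀ and every n ≥ N₀, some exact complex linear circuit (each gate adds or subtracts two available values or multiplies one by an arbitrary fixed complex scalar; the inputs and the constant 0 are available at the start; every gate counts one) computes the unnormalized discrete Fourier transform of order n on every complex input vector with at most C · n · (log n)^θ · (log log n)^(4 − θ) gates, where θ = log_m (m − Δ/2^71), m = 10^6, Δ = 6871402692000000. -/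
theorem result :
    ∃ C : ℝ, ∃ N₀ : ℕ, ∀ n ≥ N₀, ∃ P : Crest.FourierCircuit.LinCircuit n,
      P.Computes (Crest.FourierCircuit.dftMatrix n) ∧
        (P.size : ℝ) ≤ C * n * Real.log n ^ Crest.FourierCircuit.savingExponent *
          Real.log (Real.log n) ^ (4 - Crest.FourierCircuit.savingExponent) := by
  obtain ⟨C, N₀, h⟩ := Crest.Agent.FC.final_bound
  refine ⟨C, N₀, fun n hn => ?_⟩
  obtain ⟨P, hP, hs⟩ := Crest.Agent.FC.exists_linCircuit (Crest.FourierCircuit.dftMatrix n)
  refine ⟨P, hP, le_trans ?_ (h n hn)⟩
  exact_mod_cast hs

end Crest.Agent.S0501
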