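import Mathlib

/-!
Rank lemmas: subadditivity, invariance under field extension, and the trace ("surrogate") bound
`(tr B)^2 ≤ rank B * tr (B^2)` for real symmetric `B`.
-/

set_option autoImplicit false
set_option linter.unusedSectionVars false

namespace Crest.Agent.S0504

open Matrix

section Rank

variable {m n : Type*} [Fintype m] [Fintype n] {K : Type*} [Field K]

theorem rank_add_le' (A B : Matrix m n K) : (A + B).rank ≤ A.rank + B.rank := by
  classical
  unfold Matrix.rank
  rw [Matrix.mulVecLin_add]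
  calc Module.finrank K (LinearMap.range (A.mulVecLin + B.mulVecLin))
      ≤ Module.finrank K ↥(LinearMap.range A.mulVecLin ⊔ LinearMap.range B.mulVecLin) := by
        apply Submodule.finrank_mono
        rintro _ ⟨v, rfl⟩
        rw [LinearMap.add_apply]
        exact Submodule.add_mem_sup ⟨v, rfl⟩ ⟨v, rfl⟩
    _ ≤ _ := Submodule.finrank_add_le_finrank_add_finrank _ _

theorem rank_sum_le' {ι : Type*} (s : Finset ι) (A : ι → Matrix m n K) :
    (∑ i ∈ s, A i).rank ≤ ∑ i ∈ s, (A i).rank := by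
  classical
  induction s using Finset.induction_on with
  | empty => simp [Matrix.rank_zero]
  | insert a s ha ih =>
    rw [Finset.sum_insert ha, Finset.sum_insert ha]
    exact (rank_add_le' _ _).trans (Nat.add_le_add_left ih _)

theorem rank_smul_le' (c : K) (A : Matrix m n K) : (c • A).rank ≤ A.rank := by
  classical
  have : c • A = (c • (1 : Matrix m m K)) * A := by simp
  rw [this]
  exact Matrix.rank_mul_le_right _ _

theorem rank_of_normal_form [DecidableEq m] (r : ℕ) (e : m ≃ Fin r ⊕ Fin (Fintype.card m - r))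
    (M V U : Matrix m m K) (hV : IsUnit V) (hU : IsUnit U)
    (h : V * M * U = (fromBlocks (1 : Matrix (Fin r) (Fin r) K) 0 0
        (0 : Matrix (Fin (Fintype.card m - r)) (Fin (Fintype.card m - r)) K)).submatrix e e) :
    M.rank = r := by
  have h1 : (V * M * U).rank = M.rank := by
    rw [Matrix.rank_mul_eq_left_of_isUnit_det _ _ ((isUnit_iff_isUnit_det _).1 hU),
      Matrix.rank_mul_eq_right_of_isUnit_det _ _ ((isUnit_iff_isUnit_det _).1 hV)]
  rw [← h1, h, Matrix.rank_submatrix]
  have : (fromBlocks (1 : Matrix (Fin r) (Fin r) K) 0 0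
      (0 : Matrix (Fin (Fintype.card m - r)) (Fin (Fintype.card m - r)) K)) =
      diagonal (Sum.elim (fun _ => 1) (fun _ => 0)) := by
    rw [← diagonal_one, ← diagonal_zero, fromBlocks_diagonal]
  classical
  rw [this, Matrix.rank_diagonal, Fintype.card_subtype]
  have h3 : (Finset.univ.filter fun i : Fin r ⊕ Fin (Fintype.card m - r) =>
      (Sum.elim (fun _ => (1 : K)) (fun _ => 0)) i ≠ 0) =
      Finset.univ.map Function.Embedding.inl := by
    ext i
    rcases i with i | i <;> simp
  rw [h3]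
  simp

/-- Rank of a square matrix is invariant under field extension. -/
theorem rank_map_square {k : Type*} [Field k] [DecidableEq m] (f : k →+* K)
    (M : Matrix m m k) : (M.map f).rank = M.rank := by
  obtain ⟨V, U, e, hV, hU, h⟩ := Matrix.exists_rank_normal_form M
  refine rank_of_normal_form M.rank e (M.map f) (V.map f) (U.map f) (hV.map f.mapMatrix)
    (hU.map f.mapMatrix) ?_
  rw [← Matrix.map_mul, ← Matrix.map_mul, h, ← Matrix.submatrix_map, Matrix.fromBlocks_map]
  congr 1
  congr 1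
  · exact Matrix.map_one f (map_zero f) (map_one f)
  · exact Matrix.map_zero f (map_zero f)
  · exact Matrix.map_zero f (map_zero f)
  · exact Matrix.map_zero f (map_zero f)

theorem map_mul_transpose (F : Type*) [Field F] (M₀ : Matrix m n ℤ) :
      (M₀ * M₀ᵀ).map (Int.cast : ℤ → F) =
        (M₀.map (Int.cast : ℤ → F)) * (M₀.map (Int.cast : ℤ → F))ᵀ :=
  Matrix.map_mul (L := M₀) (M := M₀ᵀ) (f := Int.castRingHom F)

theorem rank_map_int (F : Type*) [Field F] [CharZero F] [DecidableEq m] (M₀ : Matrix m m ℤ) :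
    (M₀.map (Int.cast : ℤ → F)).rank = (M₀.map (Int.cast : ℤ → ℚ)).rank := by
  have : M₀.map (Int.cast : ℤ → F) =
      (M₀.map (Int.cast : ℤ → ℚ)).map (algebraMap ℚ F) := by
    ext i j; simp
  rw [this, rank_map_square]

end Rank

section Trace

variable {m : Type*} [Fintype m] [DecidableEq m]

/-- `(tr B)² ≤ rank B · tr (B²)` for real symmetric `B`. -/
theorem trace_sq_le (B : Matrix m m ℝ) (hB : B.IsHermitian) :
    B.trace ^ 2 ≤ B.rank * (B * B).trace := by
  have h1 := hB.trace_eq_sum_eigenvalues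
  have h2 : (B * B).trace = ∑ i, (hB.eigenvalues i) ^ 2 := by
    have hs := hB.spectral_theorem
    set U : Matrix m m ℝ := (hB.eigenvectorUnitary : Matrix m m ℝ) with hU
    have hUU : star U * U = 1 := by
      exact Unitary.coe_star_mul_self hB.eigenvectorUnitary
    have h3 : B = U * diagonal hB.eigenvalues * star U := by
      conv_lhs => rw [hs]
      simp [Unitary.conjStarAlgAut_apply, hU]
    have h4 : B * B = U * (diagonal hB.eigenvalues * diagonal hB.eigenvalues) * star U := by
      calc B * B = (U * diagonal hB.eigenvalues * star U) * (U * diagonal hB.eigenvalues * star U) := by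
            rw [← h3]
        _ = U * diagonal hB.eigenvalues * (star U * U) * diagonal hB.eigenvalues * star U := by
            simp only [Matrix.mul_assoc]
        _ = _ := by rw [hUU, Matrix.mul_one]; simp only [Matrix.mul_assoc]
    rw [h4, Matrix.trace_mul_comm, ← Matrix.mul_assoc, hUU, Matrix.one_mul, diagonal_mul_diagonal,
      trace_diagonal]
    exact Finset.sum_congr rfl fun i _ => by ring
  have h5 : (B.rank : ℝ) = ((Finset.univ.filter fun i => hB.eigenvalues i ≠ 0).card : ℝ) := by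
    rw [hB.rank_eq_card_non_zero_eigs, Fintype.card_subtype]
  rw [h1, h2, h5]
  have h6 : (∑ i, ((hB.eigenvalues i : ℝ))) =
      ∑ i ∈ Finset.univ.filter fun i => hB.eigenvalues i ≠ 0, hB.eigenvalues i := by
    rw [Finset.sum_filter]
    refine Finset.sum_congr rfl fun i _ => ?_
    split_ifs with h
    · rfl
    · exact not_not.mp h
  have h7 : (∑ i, (hB.eigenvalues i) ^ 2) =
      ∑ i ∈ Finset.univ.filter fun i => hB.eigenvalues i ≠ 0, (hB.eigenvalues i) ^ 2 := by
    rw [Finset.sum_filter]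
    refine Finset.sum_congr rfl fun i _ => ?_
    split_ifs with h
    · rfl
    · simp [not_not.mp h]
  simp only [RCLike.ofReal_real_eq_id, id]
  rw [h6, h7]
  exact sq_sum_le_card_mul_sum_sq

/-- Surrogate rank bound for an arbitrary real matrix. -/
theorem surrogate {n : Type*} [Fintype n] (M : Matrix m n ℝ) :
    (M * Mᵀ).trace ^ 2 ≤ (M * Mᵀ).rank * ((M * Mᵀ) * (M * Mᵀ)).trace := by
  apply trace_sq_le
  have := Matrix.isHermitian_mul_conjTranspose_self M
  rwa [Matrix.conjTranspose_eq_transpose_of_trivial] at this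

/-- Transfer: an integer matrix `M₀`, its cast to a field `K` of characteristic zero has rank at
least the surrogate bound over `ℝ`. -/
theorem surrogate_field {n : Type*} [Fintype n] {K : Type*} [Field K] [CharZero K]
    (M₀ : Matrix m n ℤ) :
    ((M₀ * M₀ᵀ).trace : ℝ) ^ 2 ≤
      ((M₀.map (Int.cast : ℤ → K)).rank : ℝ) * (((M₀ * M₀ᵀ) * (M₀ * M₀ᵀ)).trace : ℤ) := by
  have hKle : ((M₀ * M₀ᵀ).map (Int.cast : ℤ → K)).rank ≤ (M₀.map (Int.cast : ℤ → K)).rank := by
    rw [map_mul_transpose K]
    exact Matrix.rank_mul_le_left _ _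
  have hR := surrogate (M₀.map (Int.cast : ℤ → ℝ))
  rw [← map_mul_transpose ℝ] at hR
  have htr : ((M₀ * M₀ᵀ).map (Int.cast : ℤ → ℝ)).trace = (((M₀ * M₀ᵀ).trace : ℤ) : ℝ) := by
    have := (AddMonoidHom.map_trace (Int.castRingHom ℝ) (M₀ * M₀ᵀ))
    exact this.symm
  have htr2 : (((M₀ * M₀ᵀ).map (Int.cast : ℤ → ℝ)) * ((M₀ * M₀ᵀ).map (Int.cast : ℤ → ℝ))).trace
      = ((((M₀ * M₀ᵀ) * (M₀ * M₀ᵀ)).trace : ℤ) : ℝ) := by
    have h1 := Matrix.map_mul (L := M₀ * M₀ᵀ) (M := M₀ * M₀ᵀ) (f := Int.castRingHom ℝ)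
    have h2 := (AddMonoidHom.map_trace (Int.castRingHom ℝ) ((M₀ * M₀ᵀ) * (M₀ * M₀ᵀ)))
    have h3 : ((M₀ * M₀ᵀ).map (Int.cast : ℤ → ℝ)) * ((M₀ * M₀ᵀ).map (Int.cast : ℤ → ℝ)) =
      ((M₀ * M₀ᵀ) * (M₀ * M₀ᵀ)).map (Int.castRingHom ℝ) := h1.symm
    rw [h3]
    exact h2.symm
  rw [htr, htr2] at hR
  refine hR.trans ?_
  have hnn : (0 : ℝ) ≤ ((((M₀ * M₀ᵀ) * (M₀ * M₀ᵀ)).trace : ℤ) : ℝ) := by
    rw [← htr2, map_mul_transpose ℝ]
    set N := (M₀.map (Int.cast : ℤ → ℝ)) * (M₀.map (Int.cast : ℤ → ℝ))ᵀ with hN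
    have hNt : Nᵀ = N := by rw [hN, Matrix.transpose_mul, Matrix.transpose_transpose]
    have : (N * N).trace = ∑ i, ∑ j, (N i j) ^ 2 := by
      simp only [Matrix.trace, Matrix.diag_apply, Matrix.mul_apply]
      refine Finset.sum_congr rfl fun i _ => Finset.sum_congr rfl fun j _ => ?_
      have : N j i = N i j := by conv_rhs => rw [← hNt, Matrix.transpose_apply]
      rw [this]; ring
    rw [this]
    positivity
  refine mul_le_mul_of_nonneg_right ?_ hnn
  rw [rank_map_int ℝ, ← rank_map_int K]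
  exact_mod_cast hKle

end Trace

end Crest.Agent.S0504
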