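import Mathlib
import Crest.Agent.S0504P1

/-!
The bigraded multilinear multiplication matrix of a polynomial and the rank bound for products.
-/

set_option autoImplicit false
set_option linter.unusedSectionVars false

namespace Crest.Agent.S0504

open Matrix MvPolynomial

section Meas

variable {X : Type*} [Fintype X] [DecidableEq X] {K : Type*} [Field K]

/-- The exponent vector of a multilinear monomial. -/
noncomputable def ind (U : Finset X) : X →₀ ℕ := Finsupp.indicator U (fun _ _ => 1)

theorem ind_apply (U : Finset X) (x : X) : ind U x = if x ∈ U then 1 else 0 := by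
  simp [ind, Finsupp.indicator_apply]

theorem ind_support (U : Finset X) : (ind U).support = U := by
  ext x
  simp [Finsupp.mem_support_iff, ind_apply]

theorem ind_injective : Function.Injective (ind : Finset X → (X →₀ ℕ)) := by
  intro U V h
  rw [← ind_support U, ← ind_support V, h]

theorem ind_add_of_disjoint {U V : Finset X} (h : Disjoint U V) : ind U + ind V = ind (U ∪ V) := by
  ext x
  simp only [Finsupp.add_apply, ind_apply, Finset.mem_union]
  by_cases h1 : x ∈ U <;> by_cases h2 : x ∈ V
  · exact absurd h2 (Finset.disjoint_left.mp h h1)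
  all_goals simp [h1, h2]

/-- The multiplication matrix on multilinear monomials. -/
noncomputable def mulMat (F : MvPolynomial X K) : Matrix (Finset X) (Finset X) K :=
  fun S S' => if S ⊆ S' then coeff (ind (S' \ S)) F else 0

theorem mulMat_mul (F G : MvPolynomial X K) : mulMat (F * G) = mulMat F * mulMat G := by
  ext S S'
  rw [Matrix.mul_apply]
  unfold mulMat
  by_cases hSS : S ⊆ S'
  · rw [if_pos hSS, coeff_mul]
    have h1 : (∑ T : Finset X, (if S ⊆ T then coeff (ind (T \ S)) F else 0) *
        (if T ⊆ S' then coeff (ind (S' \ T)) G else 0)) =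
        ∑ T ∈ Finset.univ.filter (fun T : Finset X => S ⊆ T ∧ T ⊆ S'),
          coeff (ind (T \ S)) F * coeff (ind (S' \ T)) G := by
      rw [Finset.sum_filter]
      refine Finset.sum_congr rfl fun T _ => ?_
      by_cases h1 : S ⊆ T <;> by_cases h2 : T ⊆ S' <;> simp [h1, h2]
    rw [h1]
    refine Finset.sum_bij' (fun x _ => S ∪ x.1.support)
      (fun T _ => (ind (T \ S), ind (S' \ T))) ?_ ?_ ?_ ?_ ?_
    · intro x hx
      rw [Finset.HasAntidiagonal.mem_antidiagonal] at hx
      simp only [Finset.mem_filter, Finset.mem_univ, true_and]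
      refine ⟨Finset.subset_union_left, Finset.union_subset hSS ?_⟩
      intro y hy
      have h2 : x.1 y + x.2 y = ind (S' \ S) y := by rw [← hx]; rfl
      rw [Finsupp.mem_support_iff] at hy
      rw [ind_apply] at h2
      split_ifs at h2 with h3
      · exact (Finset.mem_sdiff.mp h3).1
      · omega
    · intro T hT
      simp only [Finset.mem_filter, Finset.mem_univ, true_and] at hT
      rw [Finset.HasAntidiagonal.mem_antidiagonal]
      simp only
      rw [ind_add_of_disjoint]
      · congr 1
        ext y
        simp only [Finset.mem_union, Finset.mem_sdiff]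
        constructor
        · rintro (⟨h1, h2⟩ | ⟨h1, h2⟩)
          · exact ⟨hT.2 h1, h2⟩
          · exact ⟨h1, fun h => h2 (hT.1 h)⟩
        · rintro ⟨h1, h2⟩
          by_cases h3 : y ∈ T
          · exact Or.inl ⟨h3, h2⟩
          · exact Or.inr ⟨h1, h3⟩
      · rw [Finset.disjoint_left]
        intro y hy hy'
        exact (Finset.mem_sdiff.mp hy').2 (Finset.mem_sdiff.mp hy).1
    · intro x hx
      rw [Finset.HasAntidiagonal.mem_antidiagonal] at hx
      have key : ∀ y, x.1 y + x.2 y = if y ∈ S' \ S then 1 else 0 := by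
        intro y
        rw [← ind_apply, ← hx]; rfl
      ext y
      · simp only
        rw [ind_apply]
        have := key y
        simp only [Finset.mem_sdiff, Finset.mem_union, Finsupp.mem_support_iff]
        by_cases h1 : y ∈ S
        · simp only [Finset.mem_sdiff, h1, not_true_eq_false, and_false, if_false] at this
          simp [h1]; omega
        · by_cases h2 : x.1 y = 0
          · simp [h1, h2]
          · split_ifs at this with h3
            · simp [h1, h2]; omega
            · omega
      · simp only
        rw [ind_apply]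
        have := key y
        simp only [Finset.mem_sdiff, Finset.mem_union, Finsupp.mem_support_iff]
        by_cases h1 : y ∈ S
        · simp only [Finset.mem_sdiff, h1, not_true_eq_false, and_false, if_false] at this
          simp [h1]; omega
        · by_cases h3 : y ∈ S'
          · simp only [Finset.mem_sdiff, h1, h3, not_false_eq_true, and_self, if_true] at this
            by_cases h2 : x.1 y = 0
            · simp [h1, h2, h3]; omega
            · simp [h1, h2, h3]; omega
          · simp only [Finset.mem_sdiff, h1, h3, false_and, if_false] at this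
            simp [h1, h3]; omega
    · intro T hT
      simp only [Finset.mem_filter, Finset.mem_univ, true_and] at hT
      simp only [ind_support]
      exact Finset.union_sdiff_of_subset hT.1
    · intro x hx
      rw [Finset.HasAntidiagonal.mem_antidiagonal] at hx
      have key : ∀ y, x.1 y + x.2 y = if y ∈ S' \ S then 1 else 0 := by
        intro y
        rw [← ind_apply, ← hx]; rfl
      congr 1
      · congr 1
        ext y
        rw [ind_apply]
        have := key y
        simp only [Finset.mem_sdiff, Finset.mem_union, Finsupp.mem_support_iff]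
        by_cases h1 : y ∈ S
        · simp only [Finset.mem_sdiff, h1, not_true_eq_false, and_false, if_false] at this
          simp [h1]; omega
        · by_cases h2 : x.1 y = 0
          · simp [h1, h2]
          · split_ifs at this with h3
            · simp [h1, h2]; omega
            · omega
      · congr 1
        ext y
        rw [ind_apply]
        have := key y
        simp only [Finset.mem_sdiff, Finset.mem_union, Finsupp.mem_support_iff]
        by_cases h1 : y ∈ S
        · simp only [Finset.mem_sdiff, h1, not_true_eq_false, and_false, if_false] at this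
          simp [h1]; omega
        · by_cases h3 : y ∈ S'
          · simp only [Finset.mem_sdiff, h1, h3, not_false_eq_true, and_self, if_true] at this
            by_cases h2 : x.1 y = 0
            · simp [h1, h2, h3]; omega
            · simp [h1, h2, h3]; omega
          · simp only [Finset.mem_sdiff, h1, h3, false_and, if_false] at this
            simp [h1, h3]; omega
  · rw [if_neg hSS]
    symm
    apply Finset.sum_eq_zero
    intro T _
    by_cases h1 : S ⊆ T
    · by_cases h2 : T ⊆ S'
      · exact absurd (h1.trans h2) hSS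
      · simp [h2]
    · simp [h1]

theorem mulMat_add (F G : MvPolynomial X K) : mulMat (F + G) = mulMat F + mulMat G := by
  ext S S'
  simp only [mulMat, Matrix.add_apply, coeff_add]
  split_ifs <;> simp

theorem mulMat_smul (a : K) (F : MvPolynomial X K) : mulMat (a • F) = a • mulMat F := by
  ext S S'
  simp only [mulMat, Matrix.smul_apply, coeff_smul]
  split_ifs <;> simp

theorem mulMat_sum {ι : Type*} (s : Finset ι) (F : ι → MvPolynomial X K) :
    mulMat (∑ i ∈ s, F i) = ∑ i ∈ s, mulMat (F i) := by
  ext S S'
  simp only [mulMat, Matrix.sum_apply, coeff_sum]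
  split_ifs <;> simp

variable (c : X → Prop) [DecidablePred c]

/-- Subsets with `i` elements satisfying `c` and `j` others. -/
def Lv (i j : ℕ) : Finset (Finset X) :=
  Finset.univ.filter (fun S => (S.filter c).card = i ∧ (S.filter (fun x => ¬ c x)).card = j)

theorem mem_Lv {i j : ℕ} {S : Finset X} :
    S ∈ Lv c i j ↔ (S.filter c).card = i ∧ (S.filter (fun x => ¬ c x)).card = j := by
  simp [Lv]

/-- The block of the multiplication matrix between two levels. -/
noncomputable def blk (F : MvPolynomial X K) (s t s' t' : ℕ) :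
    Matrix {S // S ∈ Lv c s t} {S // S ∈ Lv c s' t'} K :=
  (mulMat F).submatrix (fun a => a.1) (fun b => b.1)

theorem blk_apply (F : MvPolynomial X K) (s t s' t' : ℕ) (a : {S // S ∈ Lv c s t})
    (b : {S // S ∈ Lv c s' t'}) : blk c F s t s' t' a b = mulMat F a.1 b.1 := rfl

/-- weight of the `c`-variables -/
def wY (x : X) : ℕ := if c x then 1 else 0

/-- weight of the other variables -/
def wZ (x : X) : ℕ := if c x then 0 else 1

/-- Bihomogeneous polynomials. -/
def BiHom (F : MvPolynomial X K) (i j : ℕ) : Prop :=
  IsWeightedHomogeneous (wY c) F i ∧ IsWeightedHomogeneous (wZ c) F j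

variable {c}

theorem BiHom.mul {F G : MvPolynomial X K} {i j i' j' : ℕ} (hF : BiHom c F i j)
    (hG : BiHom c G i' j') : BiHom c (F * G) (i + i') (j + j') :=
  ⟨hF.1.mul hG.1, hF.2.mul hG.2⟩

theorem BiHom.one : BiHom c (1 : MvPolynomial X K) 0 0 :=
  ⟨isWeightedHomogeneous_one _ _, isWeightedHomogeneous_one _ _⟩

theorem weight_wY_ind (U : Finset X) : Finsupp.weight (wY c) (ind U) = (U.filter c).card := by
  rw [Finsupp.weight_apply, Finsupp.sum_fintype _ _ (by simp)]
  simp only [ind_apply, wY, smul_eq_mul]
  rw [Finset.card_filter, ← Finset.sum_subset (Finset.subset_univ U)]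
  · exact Finset.sum_congr rfl fun x hx => by simp [hx]
  · intro x _ hx
    simp [hx]

theorem weight_wZ_ind (U : Finset X) :
    Finsupp.weight (wZ c) (ind U) = (U.filter (fun x => ¬ c x)).card := by
  rw [Finsupp.weight_apply, Finsupp.sum_fintype _ _ (by simp)]
  simp only [ind_apply, wZ, smul_eq_mul]
  rw [Finset.card_filter, ← Finset.sum_subset (Finset.subset_univ U)]
  · exact Finset.sum_congr rfl fun x hx => by by_cases h : c x <;> simp [hx, h]
  · intro x _ hx
    simp [hx]

theorem mulMat_ne_zero {F : MvPolynomial X K} {i j : ℕ} (hF : BiHom c F i j) {S S' : Finset X}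
    (h : mulMat F S S' ≠ 0) :
    (S'.filter c).card = (S.filter c).card + i ∧
      (S'.filter (fun x => ¬ c x)).card = (S.filter (fun x => ¬ c x)).card + j := by
  unfold mulMat at h
  split_ifs at h with hSS
  · have h1 := hF.1 h
    have h2 := hF.2 h
    rw [weight_wY_ind] at h1
    rw [weight_wZ_ind] at h2
    rw [← h1, ← h2]
    have h3 : ∀ (p : X → Prop) [DecidablePred p],
        (S'.filter p).card = (S.filter p).card + ((S' \ S).filter p).card := by
      intro p _
      have : S'.filter p = (S.filter p) ∪ ((S' \ S).filter p) := by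
        rw [← Finset.filter_union, Finset.union_sdiff_of_subset hSS]
      rw [this, Finset.card_union_of_disjoint]
      exact Finset.disjoint_filter_filter Finset.disjoint_sdiff
    exact ⟨h3 c, h3 _⟩
  · exact absurd rfl h

theorem blk_mul {F G : MvPolynomial X K} {i j : ℕ} (hF : BiHom c F i j) (s t s' t' : ℕ) :
    blk c (F * G) s t s' t' = blk c F s t (s + i) (t + j) * blk c G (s + i) (t + j) s' t' := by
  ext a b
  rw [blk_apply, mulMat_mul, Matrix.mul_apply, Matrix.mul_apply]
  have h0 : ∑ T : {S // S ∈ Lv c (s + i) (t + j)}, blk c F s t (s + i) (t + j) a T *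
      blk c G (s + i) (t + j) s' t' T b =
      ∑ T ∈ Lv c (s + i) (t + j), mulMat F a.1 T * mulMat G T b.1 :=
    Finset.sum_coe_sort (Lv c (s + i) (t + j)) (fun T => mulMat F a.1 T * mulMat G T b.1)
  rw [h0]
  symm
  apply Finset.sum_subset (Finset.subset_univ _)
  intro T _ hT
  by_cases h : mulMat F a.1 T = 0
  · rw [h, zero_mul]
  · exfalso
    apply hT
    have h1 := mulMat_ne_zero hF h
    have h2 := (mem_Lv c).mp a.2
    rw [mem_Lv, h1.1, h1.2, h2.1, h2.2]
    exact ⟨rfl, rfl⟩

theorem rank_blk_mul_le {F G : MvPolynomial X K} {i j : ℕ} (hF : BiHom c F i j)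
    (s t s' t' : ℕ) : (blk c (F * G) s t s' t').rank ≤ (Lv c (s + i) (t + j)).card := by
  rw [blk_mul hF]
  refine (Matrix.rank_mul_le_left _ _).trans ((Matrix.rank_le_card_width _).trans ?_)
  simp

theorem blk_eq_zero {F : MvPolynomial X K} {i j : ℕ} (hF : BiHom c F i j) {s t k k' : ℕ}
    (h : i ≠ k) : blk c F s t (s + k) (t + k') = 0 := by
  ext a b
  rw [blk_apply, Matrix.zero_apply]
  by_contra h1
  have h2 := mulMat_ne_zero hF h1
  have h3 := (mem_Lv c).mp a.2
  have h4 := (mem_Lv c).mp b.2
  omega

/-- decomposition of a homogeneous polynomial into bihomogeneous parts -/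
theorem biHom_decomp {F : MvPolynomial X K} {d : ℕ} (hF : F.IsHomogeneous d) :
    ∃ G : ℕ → MvPolynomial X K, (∀ j ∈ Finset.range (d + 1), BiHom c (G j) j (d - j)) ∧
      F = ∑ j ∈ Finset.range (d + 1), G j := by
  refine ⟨fun j => weightedHomogeneousComponent (wY c) j F, ?_, ?_⟩
  · intro j hj
    rw [Finset.mem_range] at hj
    refine ⟨weightedHomogeneousComponent_isWeightedHomogeneous _ _, ?_⟩
    intro m hm
    rw [coeff_weightedHomogeneousComponent] at hm
    split_ifs at hm with h1
    · have h2 := hF hm
      have h3 : Finsupp.weight (wY c) m + Finsupp.weight (wZ c) m = Finsupp.weight 1 m := by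
        rw [Finsupp.weight_apply, Finsupp.weight_apply, Finsupp.weight_apply, ← Finsupp.sum_add]
        apply Finsupp.sum_congr
        intro x _
        simp only [wY, wZ, smul_eq_mul, Pi.one_apply]
        split_ifs <;> simp
      omega
    · exact absurd rfl hm
  · ext m
    rw [coeff_sum]
    simp only [coeff_weightedHomogeneousComponent]
    by_cases h : coeff m F = 0
    · simp [h]
    · have h2 := hF h
      have h3 : Finsupp.weight (wY c) m + Finsupp.weight (wZ c) m = Finsupp.weight 1 m := by
        rw [Finsupp.weight_apply, Finsupp.weight_apply, Finsupp.weight_apply, ← Finsupp.sum_add]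
        apply Finsupp.sum_congr
        intro x _
        simp only [wY, wZ, smul_eq_mul, Pi.one_apply]
        split_ifs <;> simp
      rw [Finset.sum_ite_eq, if_pos]
      rw [Finset.mem_range]
      omega


/-- The local factor. -/
noncomputable def Phi (lamP lamQ : ℝ) (d : ℕ) : ℝ :=
  ∑ j ∈ Finset.range (d + 1),
    Real.exp (-(1 / 2) * |((d - j : ℕ) : ℝ) * lamQ - (j : ℝ) * lamP|)

theorem Phi_nonneg (lamP lamQ : ℝ) (d : ℕ) : 0 ≤ Phi lamP lamQ d :=
  Finset.sum_nonneg fun _ _ => (Real.exp_pos _).le

theorem rank_bound {lamP lamQ W : ℝ} {s t k k' : ℕ} (hW0 : 0 ≤ W)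
    (hW : ∀ i j : ℕ, ((Lv c (s + i) (t + j)).card : ℝ) ≤
      W * Real.exp ((j : ℝ) * lamQ - (i : ℝ) * lamP))
    (hbal : (k : ℝ) * lamP = (k' : ℝ) * lamQ)
    (l : Multiset (MvPolynomial X K × ℕ)) (hl : ∀ g ∈ l, g.1.IsHomogeneous g.2) :
    ∀ (U V : MvPolynomial X K) (u1 u2 v1 v2 : ℕ), BiHom c U u1 u2 → BiHom c V v1 v2 →
      u1 + v1 + (u2 + v2) + (l.map Prod.snd).sum = k + k' →
      ((blk c (U * V * (l.map Prod.fst).prod) s t (s + k) (t + k')).rank : ℝ) ≤
        W * Real.exp ((1 / 2) * (((u2 : ℝ) * lamQ - (u1 : ℝ) * lamP) -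
          ((v2 : ℝ) * lamQ - (v1 : ℝ) * lamP))) * (l.map fun g => Phi lamP lamQ g.2).prod := by
  induction l using Multiset.induction_on with
  | empty =>
    intro U V u1 u2 v1 v2 hU hV hd
    simp only [Multiset.map_zero, Multiset.prod_zero, Multiset.sum_zero, mul_one, add_zero] at hd ⊢
    by_cases h : u1 + v1 = k
    · have h' : u2 + v2 = k' := by omega
      have h1 : (k' : ℝ) * lamQ - (k : ℝ) * lamP = 0 := by rw [hbal]; ring
      rw [← h, ← h'] at h1
      push_cast at h1
      have h2 : (1 / 2 : ℝ) * (((u2 : ℝ) * lamQ - (u1 : ℝ) * lamP) -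
          ((v2 : ℝ) * lamQ - (v1 : ℝ) * lamP)) = (u2 : ℝ) * lamQ - (u1 : ℝ) * lamP := by
        linarith
      rw [h2]
      refine le_trans ?_ (hW u1 u2)
      exact_mod_cast rank_blk_mul_le hU s t (s + k) (t + k')
    · rw [blk_eq_zero (hU.mul hV) h, Matrix.rank_zero]
      simp only [Nat.cast_zero]
      positivity
  | cons g l ih =>
    intro U V u1 u2 v1 v2 hU hV hd
    obtain ⟨G, hG, hGsum⟩ := biHom_decomp (c := c) (hl g (Multiset.mem_cons_self _ _))
    have ih' := ih (fun g hg => hl g (Multiset.mem_cons_of_mem hg))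
    simp only [Multiset.map_cons, Multiset.prod_cons, Multiset.sum_cons] at hd ⊢
    have hsplit : blk c (U * V * (g.1 * (l.map Prod.fst).prod)) s t (s + k) (t + k') =
        ∑ j ∈ Finset.range (g.2 + 1),
          blk c (U * V * (G j * (l.map Prod.fst).prod)) s t (s + k) (t + k') := by
      rw [hGsum, Finset.sum_mul, Finset.mul_sum]
      ext a b
      simp only [blk_apply, mulMat_sum, Matrix.sum_apply]
    rw [hsplit]
    have h1 : ((∑ j ∈ Finset.range (g.2 + 1),
          blk c (U * V * (G j * (l.map Prod.fst).prod)) s t (s + k) (t + k')).rank : ℝ) ≤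
        ∑ j ∈ Finset.range (g.2 + 1),
          ((blk c (U * V * (G j * (l.map Prod.fst).prod)) s t (s + k) (t + k')).rank : ℝ) := by
      exact_mod_cast rank_sum_le' _ _
    refine h1.trans ?_
    have h2 : ∀ j ∈ Finset.range (g.2 + 1),
        ((blk c (U * V * (G j * (l.map Prod.fst).prod)) s t (s + k) (t + k')).rank : ℝ) ≤
        W * Real.exp ((1 / 2) * (((u2 : ℝ) * lamQ - (u1 : ℝ) * lamP) -
          ((v2 : ℝ) * lamQ - (v1 : ℝ) * lamP))) *
          (Real.exp (-(1 / 2) * |((g.2 - j : ℕ) : ℝ) * lamQ - (j : ℝ) * lamP|) *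
            (l.map fun g => Phi lamP lamQ g.2).prod) := by
      intro j hj
      have hjle : j ≤ g.2 := by rw [Finset.mem_range] at hj; omega
      rcases le_total (((g.2 - j : ℕ) : ℝ) * lamQ - (j : ℝ) * lamP) 0 with hs | hs
      · -- absorb in U
        have h3 := ih' (U * G j) V (u1 + j) (u2 + (g.2 - j)) v1 v2 (hU.mul (hG j hj)) hV
          (by omega)
        have h4 : U * V * (G j * (l.map Prod.fst).prod) = U * G j * V * (l.map Prod.fst).prod := by
          ring
        rw [h4]
        refine h3.trans (le_of_eq ?_)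
        have h5 : Real.exp ((1 / 2) * ((((u2 + (g.2 - j) : ℕ) : ℝ) * lamQ - ((u1 + j : ℕ) : ℝ) * lamP) -
          ((v2 : ℝ) * lamQ - (v1 : ℝ) * lamP))) =
            Real.exp ((1 / 2) * (((u2 : ℝ) * lamQ - (u1 : ℝ) * lamP) -
              ((v2 : ℝ) * lamQ - (v1 : ℝ) * lamP))) *
            Real.exp (-(1 / 2) * |((g.2 - j : ℕ) : ℝ) * lamQ - (j : ℝ) * lamP|) := by
          rw [← Real.exp_add]
          congr 1
          rw [abs_of_nonpos hs]
          push_cast
          ring
        rw [h5]
        ring
      · have h3 := ih' U (V * G j) u1 u2 (v1 + j) (v2 + (g.2 - j)) hU (hV.mul (hG j hj))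
          (by omega)
        have h4 : U * V * (G j * (l.map Prod.fst).prod) = U * (V * G j) * (l.map Prod.fst).prod := by
          ring
        rw [h4]
        refine h3.trans (le_of_eq ?_)
        have h5 : Real.exp ((1 / 2) * (((u2 : ℝ) * lamQ - (u1 : ℝ) * lamP) -
          (((v2 + (g.2 - j) : ℕ) : ℝ) * lamQ - ((v1 + j : ℕ) : ℝ) * lamP))) =
            Real.exp ((1 / 2) * (((u2 : ℝ) * lamQ - (u1 : ℝ) * lamP) -
              ((v2 : ℝ) * lamQ - (v1 : ℝ) * lamP))) *
            Real.exp (-(1 / 2) * |((g.2 - j : ℕ) : ℝ) * lamQ - (j : ℝ) * lamP|) := by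
          rw [← Real.exp_add]
          congr 1
          rw [abs_of_nonneg hs]
          push_cast
          ring
        rw [h5]
        ring
    refine (Finset.sum_le_sum h2).trans (le_of_eq ?_)
    rw [← Finset.mul_sum, ← Finset.sum_mul]
    rfl

/-- The product bound with trivial accumulators. -/
theorem rank_bound' {lamP lamQ W : ℝ} {s t k k' : ℕ} (hW0 : 0 ≤ W)
    (hW : ∀ i j : ℕ, ((Lv c (s + i) (t + j)).card : ℝ) ≤
      W * Real.exp ((j : ℝ) * lamQ - (i : ℝ) * lamP))
    (hbal : (k : ℝ) * lamP = (k' : ℝ) * lamQ)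
    (l : Multiset (MvPolynomial X K × ℕ)) (hl : ∀ g ∈ l, g.1.IsHomogeneous g.2)
    (hd : (l.map Prod.snd).sum = k + k') :
    ((blk c ((l.map Prod.fst).prod) s t (s + k) (t + k')).rank : ℝ) ≤
        W * (l.map fun g => Phi lamP lamQ g.2).prod := by
  have h := rank_bound (c := c) hW0 hW hbal l hl 1 1 0 0 0 0 BiHom.one BiHom.one (by simpa using hd)
  simpa using h

end Meas

end Crest.Agent.S0504
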