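import Mathlib
import Crest.Agent.S0504P2
import Crest.Prelude.Def_SPSPS

/-!
Upper bound on the rank for homogeneous depth-five circuits.
-/

set_option autoImplicit false
set_option linter.unusedSectionVars false

namespace Crest.Agent.S0504

open Matrix MvPolynomial

section Hom

variable {ι K : Type*} [CommSemiring K]

theorem multiset_prod_hom (l : Multiset (MvPolynomial ι K × ℕ))
    (hl : ∀ g ∈ l, g.1.IsHomogeneous g.2) :
    ((l.map Prod.fst).prod).IsHomogeneous ((l.map Prod.snd).sum) := by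
  induction l using Multiset.induction_on with
  | empty => simpa using isHomogeneous_one ι K
  | cons g l ih =>
    rw [Multiset.map_cons, Multiset.map_cons, Multiset.prod_cons, Multiset.sum_cons]
    exact (hl g (Multiset.mem_cons_self _ _)).mul
      (ih fun g hg => hl g (Multiset.mem_cons_of_mem hg))

theorem multiset_map_prod_hom {α : Type*} (l : Multiset α) (f : α → MvPolynomial ι K) (d : α → ℕ)
    (hl : ∀ a ∈ l, (f a).IsHomogeneous (d a)) :
    ((l.map f).prod).IsHomogeneous ((l.map d).sum) := by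
  have := multiset_prod_hom (l.map fun a => (f a, d a)) (by
    intro g hg
    obtain ⟨a, ha, rfl⟩ := Multiset.mem_map.mp hg
    exact hl a ha)
  simpa [Multiset.map_map, Function.comp_def] using this

end Hom

section Gates

open Crest.ArithCircuit

variable {K ι L B P S R : Type*} [CommSemiring K] (C : SPSPS K ι L B P S R)

theorem leafVal_hom (l : L) : (C.leafVal l).IsHomogeneous (C.leafDeg l) := by
  unfold SPSPS.leafVal SPSPS.leafDeg
  rcases C.leaf l with x | c
  · exact isHomogeneous_X K x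
  · exact isHomogeneous_C ι c

theorem leafDeg_le (l : L) : C.leafDeg l ≤ 1 := by
  unfold SPSPS.leafDeg
  rcases C.leaf l with x | c <;> simp

theorem degB_le (b : B) : C.degB b ≤ 1 := by
  unfold SPSPS.degB
  exact Finset.sup_le fun l _ => leafDeg_le C l

theorem smul_hom {f : MvPolynomial ι K} {n : ℕ} (hf : f.IsHomogeneous n) (a : K) :
    (a • f).IsHomogeneous n := by
  rw [MvPolynomial.smul_eq_C_mul]
  have := (isHomogeneous_C ι a).mul hf
  rwa [zero_add] at this

theorem valB_hom (hC : C.IsHomogeneous) (b : B) : (C.valB b).IsHomogeneous (C.degB b) := by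
  unfold SPSPS.valB
  refine IsHomogeneous.sum _ _ _ fun l hl => ?_
  rw [← hC.1 b l hl]
  exact smul_hom (leafVal_hom C l) _

theorem valP_hom (hC : C.IsHomogeneous) (p : P) : (C.valP p).IsHomogeneous (C.degP p) :=
  multiset_map_prod_hom _ _ _ fun b _ => valB_hom C hC b

theorem valS_hom (hC : C.IsHomogeneous) (s : S) : (C.valS s).IsHomogeneous (C.degS s) := by
  unfold SPSPS.valS
  refine IsHomogeneous.sum _ _ _ fun p hp => ?_
  rw [← hC.2.1 s p hp]
  exact smul_hom (valP_hom C hC p) _

theorem valR_hom (hC : C.IsHomogeneous) (r : R) : (C.valR r).IsHomogeneous (C.degR r) :=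
  multiset_map_prod_hom _ _ _ fun s _ => valS_hom C hC s

theorem output_hom (hC : C.IsHomogeneous) : (C.output).IsHomogeneous C.degOut := by
  unfold SPSPS.output
  refine IsHomogeneous.sum _ _ _ fun r hr => ?_
  rw [← hC.2.2 r hr]
  exact smul_hom (valR_hom C hC r) _

end Gates

section PhiBounds

theorem Phi_le (lamP lamQ : ℝ) (d : ℕ) : Phi lamP lamQ d ≤ d + 1 := by
  unfold Phi
  calc ∑ j ∈ Finset.range (d + 1),
        Real.exp (-(1 / 2) * |((d - j : ℕ) : ℝ) * lamQ - (j : ℝ) * lamP|)
      ≤ ∑ j ∈ Finset.range (d + 1), (1 : ℝ) := by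
        refine Finset.sum_le_sum fun j _ => ?_
        rw [Real.exp_le_one_iff]
        have := abs_nonneg (((d - j : ℕ) : ℝ) * lamQ - (j : ℝ) * lamP)
        linarith
    _ = d + 1 := by simp

theorem Phi_zero (lamP lamQ : ℝ) : Phi lamP lamQ 0 = 1 := by
  simp [Phi]

theorem Phi_one (lamP lamQ : ℝ) (hP : 0 ≤ lamP) (hPQ : lamP ≤ lamQ) :
    Phi lamP lamQ 1 ≤ 2 * Real.exp (-(1 / 2) * lamP) := by
  unfold Phi
  rw [Finset.sum_range_succ, Finset.sum_range_one]
  simp only [Nat.sub_zero, Nat.cast_one, one_mul, Nat.cast_zero, zero_mul, sub_zero, Nat.sub_self,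
    zero_sub, abs_neg]
  rw [abs_of_nonneg hP, abs_of_nonneg (hP.trans hPQ)]
  have : Real.exp (-(1 / 2) * lamQ) ≤ Real.exp (-(1 / 2) * lamP) := by
    apply Real.exp_le_exp.mpr
    linarith
  linarith

theorem geo_sum (y : ℝ) (hy0 : 0 ≤ y) (hy : y ≤ 1 / 2) (d : ℕ) :
    ∑ j ∈ Finset.range (d + 1), y ^ (((d : ℤ) - 2 * j).natAbs) + y ^ d ≤ 2 := by
  induction d using Nat.twoStepInduction with
  | zero => simp; norm_num
  | one =>
    rw [Finset.sum_range_succ, Finset.sum_range_one]
    norm_num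
    linarith
  | more d ih _ =>
    rw [Finset.sum_range_succ, Finset.sum_range_succ']
    have h1 : ∑ k ∈ Finset.range (d + 1), y ^ ((((d + 2 : ℕ) : ℤ) - 2 * ((k + 1 : ℕ) : ℤ)).natAbs) =
        ∑ j ∈ Finset.range (d + 1), y ^ (((d : ℤ) - 2 * j).natAbs) := by
      refine Finset.sum_congr rfl fun j _ => ?_
      congr 2
      push_cast
      ring
    rw [h1]
    have h2 : (((d + 2 : ℕ) : ℤ) - 2 * ((0 : ℕ) : ℤ)).natAbs = d + 2 := by simp; omega
    have h3 : (((d + 2 : ℕ) : ℤ) - 2 * ((d + 1 + 1 : ℕ) : ℤ)).natAbs = d + 2 := by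
      push_cast
      omega
    rw [h2, h3]
    have h4 : y ^ (d + 2) = y ^ d * y ^ 2 := pow_add y d 2
    have h5 : y ^ 2 ≤ 1 / 4 := by nlinarith
    have h6 : 0 ≤ y ^ d := by positivity
    nlinarith

theorem Phi_small (lam kap : ℝ) (hlam : 0 ≤ lam) (hkap : 0 ≤ kap)
    (hy : Real.exp (-(lam / 4)) ≤ 1 / 2) (d : ℕ) (hd : (d : ℝ) * kap ≤ lam / 4) :
    Phi (lam - kap) (lam + kap) d ≤ 2 * Real.exp (-((d : ℝ) * kap / 2)) := by
  unfold Phi
  have h1 : ∀ j ∈ Finset.range (d + 1),
      Real.exp (-(1 / 2) * |((d - j : ℕ) : ℝ) * (lam + kap) - (j : ℝ) * (lam - kap)|) ≤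
      Real.exp (-((d : ℝ) * kap / 2)) * Real.exp (-(lam / 4)) ^ (((d : ℤ) - 2 * j).natAbs) := by
    intro j hj
    have hj' : j ≤ d := by rw [Finset.mem_range] at hj; omega
    rw [← Real.exp_nat_mul, ← Real.exp_add]
    apply Real.exp_le_exp.mpr
    rw [Nat.cast_sub hj', Nat.cast_natAbs]
    push_cast
    set u : ℝ := (d : ℝ) - 2 * j with hu
    have h2 : ((d : ℝ) - j) * (lam + kap) - (j : ℝ) * (lam - kap) = u * lam + d * kap := by
      rw [hu]; ring
    rw [h2]
    have hdk : 0 ≤ (d : ℝ) * kap := by positivity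
    rcases lt_trichotomy ((d : ℤ) - 2 * j) 0 with h | h | h
    · have h3 : u ≤ -1 := by
        rw [hu]
        have : (d : ℤ) - 2 * j ≤ -1 := by omega
        exact_mod_cast this
      rw [abs_of_neg (by linarith : u < 0), abs_of_nonpos (by nlinarith)]
      nlinarith
    · have h3 : u = 0 := by
        rw [hu]
        exact_mod_cast h
      rw [h3]
      simp only [zero_mul, zero_add, abs_zero]
      rw [abs_of_nonneg hdk]
      linarith
    · have h3 : 1 ≤ u := by
        rw [hu]
        have : 1 ≤ (d : ℤ) - 2 * j := by omega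
        exact_mod_cast this
      rw [abs_of_pos (by linarith : 0 < u), abs_of_nonneg (by nlinarith)]
      nlinarith
  refine (Finset.sum_le_sum h1).trans ?_
  rw [← Finset.mul_sum, mul_comm]
  have h2 := geo_sum (Real.exp (-(lam / 4))) (Real.exp_pos _).le hy d
  have h3 : 0 ≤ Real.exp (-(lam / 4)) ^ d := by positivity
  have h4 := Real.exp_pos (-((d : ℝ) * kap / 2))
  nlinarith

end PhiBounds

section Merge

variable {ι K : Type*} [CommSemiring K]

/-- Merging small factors. -/
theorem merge (tau : ℕ) (htau : 0 < tau) (l : Multiset (MvPolynomial ι K × ℕ))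
    (hl : ∀ g ∈ l, g.1.IsHomogeneous g.2 ∧ g.2 < tau) :
    ∃ (g0 : MvPolynomial ι K × ℕ) (l' : Multiset (MvPolynomial ι K × ℕ)),
      g0.1.IsHomogeneous g0.2 ∧ 2 * g0.2 < tau ∧
      (∀ g ∈ l', g.1.IsHomogeneous g.2 ∧ g.2 < tau ∧ tau ≤ 2 * g.2) ∧
      (g0.1 * (l'.map Prod.fst).prod = (l.map Prod.fst).prod) ∧
      (g0.2 + (l'.map Prod.snd).sum = (l.map Prod.snd).sum) := by
  induction l using Multiset.induction_on with
  | empty =>
    refine ⟨(1, 0), 0, isHomogeneous_one ι K, by simpa using htau, by simp, by simp, by simp⟩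
  | cons g l ih =>
    obtain ⟨g0, l', h1, h2, h3, h4, h5⟩ := ih fun g hg => hl g (Multiset.mem_cons_of_mem hg)
    obtain ⟨hg1, hg2⟩ := hl g (Multiset.mem_cons_self _ _)
    rcases Nat.lt_or_ge (2 * g.2) tau with hlt | hge
    · rcases Nat.lt_or_ge (2 * (g.2 + g0.2)) tau with hlt' | hge'
      · refine ⟨(g.1 * g0.1, g.2 + g0.2), l', hg1.mul h1, hlt', h3, ?_, ?_⟩
        · rw [Multiset.map_cons, Multiset.prod_cons, ← h4]; ring
        · rw [Multiset.map_cons, Multiset.sum_cons, ← h5]; ring
      · refine ⟨(1, 0), (g.1 * g0.1, g.2 + g0.2) ::ₘ l', isHomogeneous_one ι K,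
          by simpa using htau, ?_, ?_, ?_⟩
        · intro g' hg'
          rcases Multiset.mem_cons.mp hg' with rfl | h
          · exact ⟨hg1.mul h1, by simp only; omega, hge'⟩
          · exact h3 g' h
        · rw [Multiset.map_cons, Multiset.prod_cons, Multiset.map_cons, Multiset.prod_cons, ← h4]
          ring
        · rw [Multiset.map_cons, Multiset.sum_cons, Multiset.map_cons, Multiset.sum_cons, ← h5]
          ring
    · refine ⟨g0, g ::ₘ l', h1, h2, ?_, ?_, ?_⟩
      · intro g' hg'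
        rcases Multiset.mem_cons.mp hg' with rfl | h
        · exact ⟨hg1, hg2, hge⟩
        · exact h3 g' h
      · rw [Multiset.map_cons, Multiset.prod_cons, Multiset.map_cons, Multiset.prod_cons, ← h4]
        ring
      · rw [Multiset.map_cons, Multiset.sum_cons, Multiset.map_cons, Multiset.sum_cons, ← h5]
        ring

theorem card_mul_le (tau : ℕ) (l' : Multiset (MvPolynomial ι K × ℕ))
    (h : ∀ g ∈ l', tau ≤ 2 * g.2) : tau * Multiset.card l' ≤ 2 * (l'.map Prod.snd).sum := by
  induction l' using Multiset.induction_on with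
  | empty => simp
  | cons g l ih =>
    have := ih fun g hg => h g (Multiset.mem_cons_of_mem hg)
    have h2 := h g (Multiset.mem_cons_self _ _)
    rw [Multiset.card_cons, Multiset.map_cons, Multiset.sum_cons]
    linarith

theorem prod_Phi_le (lam kap : ℝ) (hlam : 0 ≤ lam) (hkap : 0 ≤ kap)
    (hy : Real.exp (-(lam / 4)) ≤ 1 / 2) (tau : ℕ) (htau : ∀ d : ℕ, d < tau → (d : ℝ) * kap ≤ lam / 4)
    (l : Multiset (MvPolynomial ι K × ℕ)) (hl : ∀ g ∈ l, g.2 < tau) :
    (l.map fun g => Phi (lam - kap) (lam + kap) g.2).prod ≤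
      2 ^ (Multiset.card l) * Real.exp (-((((l.map Prod.snd).sum : ℕ) : ℝ) * kap / 2)) := by
  induction l using Multiset.induction_on with
  | empty => simp
  | cons g l ih =>
    have h1 := ih fun g hg => hl g (Multiset.mem_cons_of_mem hg)
    have h2 := Phi_small lam kap hlam hkap hy g.2 (htau _ (hl g (Multiset.mem_cons_self _ _)))
    rw [Multiset.card_cons, Multiset.map_cons, Multiset.map_cons, Multiset.sum_cons,
      Multiset.prod_cons]
    have h3 : 0 ≤ (l.map fun g => Phi (lam - kap) (lam + kap) g.2).prod := by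
      apply Multiset.prod_nonneg
      intro x hx
      obtain ⟨g, -, rfl⟩ := Multiset.mem_map.mp hx
      exact Phi_nonneg _ _ _
    refine (mul_le_mul h2 h1 h3 (by positivity)).trans (le_of_eq ?_)
    have h4 : Real.exp (-(((g.2 + (l.map Prod.snd).sum : ℕ) : ℝ) * kap / 2)) =
        Real.exp (-((g.2 : ℝ) * kap / 2)) *
          Real.exp (-((((l.map Prod.snd).sum : ℕ) : ℝ) * kap / 2)) := by
      rw [← Real.exp_add]
      congr 1
      push_cast
      ring
    rw [h4, pow_succ]
    ring

end Merge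

end Crest.Agent.S0504
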