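import Mathlib
import Crest.Agent.S0504P9

/-!
Upper bound on the rank for homogeneous depth-five circuits, assembled.
-/

set_option autoImplicit false
set_option linter.unusedSectionVars false

namespace Crest.Agent.S0504

open Matrix MvPolynomial Crest.ArithCircuit

section Circuit

variable {K X L B P S R : Type*} [Field K] [Fintype X] [DecidableEq X]
  [Fintype L] [Fintype B] [Fintype P] [Fintype S] [Fintype R]
  (C : SPSPS K X L B P S R) {c : X → Prop} [DecidablePred c]

theorem blk_sum_smul {ι : Type*} (I : Finset ι) (a : ι → K) (F : ι → MvPolynomial X K)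
    (s t s' t' : ℕ) :
    blk c (∑ i ∈ I, a i • F i) s t s' t' = ∑ i ∈ I, a i • blk c (F i) s t s' t' := by
  ext x y
  simp only [blk_apply, mulMat_sum, mulMat_smul, Matrix.sum_apply, Matrix.smul_apply]

theorem rank_blk_sum_smul_le {ι : Type*} (I : Finset ι) (a : ι → K) (F : ι → MvPolynomial X K)
    (s t s' t' : ℕ) :
    (blk c (∑ i ∈ I, a i • F i) s t s' t').rank ≤ ∑ i ∈ I, (blk c (F i) s t s' t').rank := by
  rw [blk_sum_smul]
  exact (rank_sum_le' _ _).trans (Finset.sum_le_sum fun i _ => rank_smul_le' _ _)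

theorem rank_valR_large (hC : C.IsHomogeneous) {lam kap W : ℝ} {s t k k' tau : ℕ} (hW0 : 0 ≤ W)
    (hW : ∀ i j : ℕ, ((Lv c (s + i) (t + j)).card : ℝ) ≤
      W * Real.exp ((j : ℝ) * (lam + kap) - (i : ℝ) * (lam - kap)))
    (hbal : (k : ℝ) * (lam - kap) = (k' : ℝ) * (lam + kap))
    (hkap : 0 ≤ kap) (hlk : 0 ≤ lam - kap)
    (ha : 2 * Real.exp (-(1 / 2) * (lam - kap)) ≤ 1)
    (r : R) (hr : C.degR r = k + k') (σ : S) (hσ : σ ∈ C.inR r) (hσd : tau ≤ C.degS σ) :
    ((blk c (C.valR r) s t (s + k) (t + k')).rank : ℝ) ≤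
      Fintype.card P * (W * ((2 * Real.exp (-(1 / 2) * (lam - kap))) ^ tau * (k + k' + 1))) := by
  classical
  set a : ℝ := 2 * Real.exp (-(1 / 2) * (lam - kap)) with hadef
  have ha0 : 0 ≤ a := by rw [hadef]; positivity
  obtain ⟨rest, hrest⟩ := Multiset.exists_cons_of_mem hσ
  set F : MvPolynomial X K := (rest.map C.valS).prod with hF
  set d' : ℕ := (rest.map C.degS).sum with hd'
  have hFhom : F.IsHomogeneous d' := multiset_map_prod_hom _ _ _ fun σ' _ => valS_hom C hC σ'
  have hdeg : C.degS σ + d' = k + k' := by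
    rw [← hr]
    unfold SPSPS.degR
    rw [hrest, Multiset.map_cons, Multiset.sum_cons]
  have hval : C.valR r = ∑ p ∈ C.inS σ, C.coefS σ p • (C.valP p * F) := by
    unfold SPSPS.valR
    rw [hrest, Multiset.map_cons, Multiset.prod_cons, ← hF]
    unfold SPSPS.valS
    rw [Finset.sum_mul]
    refine Finset.sum_congr rfl fun p _ => ?_
    rw [smul_mul_assoc]
  have hterm : ∀ p ∈ C.inS σ, ((blk c (C.valP p * F) s t (s + k) (t + k')).rank : ℝ) ≤
      W * (a ^ tau * (k + k' + 1)) := by
    intro p hp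
    have hdp : C.degP p = C.degS σ := hC.2.1 σ p hp
    have h1 := rank_bound' (c := c) hW0 hW hbal
      ((F, d') ::ₘ ((C.inP p).map fun b => (C.valB b, C.degB b))) (by
        intro g hg
        rcases Multiset.mem_cons.mp hg with rfl | h
        · exact hFhom
        · obtain ⟨b, -, rfl⟩ := Multiset.mem_map.mp h
          exact valB_hom C hC b) (by
        rw [Multiset.map_cons, Multiset.sum_cons, Multiset.map_map]
        have : ((C.inP p).map (Prod.snd ∘ fun b => (C.valB b, C.degB b))).sum = C.degP p := rfl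
        rw [this, hdp]
        simp only
        omega)
    rw [Multiset.map_cons, Multiset.prod_cons, Multiset.map_map, Multiset.map_cons,
      Multiset.prod_cons, Multiset.map_map] at h1
    have h2 : (F, d').1 * ((C.inP p).map (Prod.fst ∘ fun b => (C.valB b, C.degB b))).prod =
        C.valP p * F := by
      have : ((C.inP p).map (Prod.fst ∘ fun b => (C.valB b, C.degB b))).prod = C.valP p := rfl
      rw [this]
      exact mul_comm _ _
    rw [h2] at h1
    refine h1.trans (mul_le_mul_of_nonneg_left ?_ hW0)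
    have h3 : ((C.inP p).map ((fun g : MvPolynomial X K × ℕ => Phi (lam - kap) (lam + kap) g.2) ∘
        fun b => (C.valB b, C.degB b))).prod ≤ a ^ C.degP p := by
      unfold SPSPS.degP
      generalize C.inP p = l
      induction l using Multiset.induction_on with
      | empty => simp
      | cons b l ih =>
        rw [Multiset.map_cons, Multiset.prod_cons, Multiset.map_cons, Multiset.sum_cons, pow_add]
        have h4 : Phi (lam - kap) (lam + kap) (C.degB b) ≤ a ^ C.degB b := by
          have h5 := degB_le C b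
          rcases Nat.le_one_iff_eq_zero_or_eq_one.mp h5 with h6 | h6
          · rw [h6, Phi_zero, pow_zero]
          · rw [h6, pow_one]
            exact Phi_one _ _ hlk (by linarith)
        refine mul_le_mul h4 ih ?_ (by positivity)
        apply Multiset.prod_nonneg
        intro x hx
        obtain ⟨g, -, rfl⟩ := Multiset.mem_map.mp hx
        exact Phi_nonneg _ _ _
    have h4 : a ^ C.degP p ≤ a ^ tau :=
      pow_le_pow_of_le_one ha0 ha (by rw [hdp]; exact hσd)
    have h5 : Phi (lam - kap) (lam + kap) d' ≤ (k : ℝ) + k' + 1 := by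
      have h6 := Phi_le (lam - kap) (lam + kap) d'
      have h7 : (d' : ℝ) ≤ k + k' := by exact_mod_cast (by omega : d' ≤ k + k')
      linarith
    have h6 : 0 ≤ ((C.inP p).map ((fun g : MvPolynomial X K × ℕ =>
        Phi (lam - kap) (lam + kap) g.2) ∘ fun b => (C.valB b, C.degB b))).prod := by
      apply Multiset.prod_nonneg
      intro x hx
      obtain ⟨g, -, rfl⟩ := Multiset.mem_map.mp hx
      exact Phi_nonneg _ _ _
    rw [mul_comm (a ^ tau)]
    exact mul_le_mul h5 (h3.trans h4) h6 (by positivity)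
  have h1 : ((blk c (C.valR r) s t (s + k) (t + k')).rank : ℝ) ≤
      ∑ p ∈ C.inS σ, ((blk c (C.valP p * F) s t (s + k) (t + k')).rank : ℝ) := by
    rw [hval]
    exact_mod_cast rank_blk_sum_smul_le (c := c) _ _ _ _ _ _ _
  refine h1.trans ((Finset.sum_le_sum hterm).trans ?_)
  rw [Finset.sum_const, nsmul_eq_mul]
  refine mul_le_mul_of_nonneg_right ?_ (by positivity)
  exact_mod_cast Finset.card_le_univ _

theorem rank_valR_small (hC : C.IsHomogeneous) {lam kap W : ℝ} {s t k k' tau q : ℕ} (hW0 : 0 ≤ W)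
    (hW : ∀ i j : ℕ, ((Lv c (s + i) (t + j)).card : ℝ) ≤
      W * Real.exp ((j : ℝ) * (lam + kap) - (i : ℝ) * (lam - kap)))
    (hbal : (k : ℝ) * (lam - kap) = (k' : ℝ) * (lam + kap))
    (hlam : 0 ≤ lam) (hkap : 0 ≤ kap) (hy : Real.exp (-(lam / 4)) ≤ 1 / 2) (htau0 : 0 < tau)
    (htau : ∀ d : ℕ, d < tau → (d : ℝ) * kap ≤ lam / 4)
    (hq : 2 * (k + k') < tau * q)
    (r : R) (hr : C.degR r = k + k') (hsm : ∀ σ ∈ C.inR r, C.degS σ < tau) :
    ((blk c (C.valR r) s t (s + k) (t + k')).rank : ℝ) ≤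
      W * (2 ^ q * Real.exp (-((k + k' : ℝ) * kap / 2))) := by
  obtain ⟨g0, l', h1, h2, h3, h4, h5⟩ := merge tau htau0 ((C.inR r).map fun σ => (C.valS σ, C.degS σ))
    (by
      intro g hg
      obtain ⟨σ, hσ, rfl⟩ := Multiset.mem_map.mp hg
      exact ⟨valS_hom C hC σ, hsm σ hσ⟩)
  have h6 : (((C.inR r).map fun σ => (C.valS σ, C.degS σ)).map Prod.fst).prod = C.valR r := by
    rw [Multiset.map_map]
    rfl
  have h7 : (((C.inR r).map fun σ => (C.valS σ, C.degS σ)).map Prod.snd).sum = k + k' := by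
    rw [← hr, Multiset.map_map]
    rfl
  rw [h6] at h4
  rw [h7] at h5
  have hall : ∀ g ∈ g0 ::ₘ l', g.2 < tau := by
    intro g hg
    rcases Multiset.mem_cons.mp hg with rfl | h
    · omega
    · exact (h3 g h).2.1
  have h8 := rank_bound' (c := c) hW0 hW hbal (g0 ::ₘ l') (by
      intro g hg
      rcases Multiset.mem_cons.mp hg with rfl | h
      · exact h1
      · exact (h3 g h).1) (by
      rw [Multiset.map_cons, Multiset.sum_cons]
      exact h5)
  have h9 : ((g0 ::ₘ l').map Prod.fst).prod = C.valR r := by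
    rw [Multiset.map_cons, Multiset.prod_cons]
    exact h4
  rw [h9] at h8
  refine h8.trans (mul_le_mul_of_nonneg_left ?_ hW0)
  have h10 := prod_Phi_le lam kap hlam hkap hy tau htau (g0 ::ₘ l') hall
  have h11 : ((g0 ::ₘ l').map Prod.snd).sum = k + k' := by
    rw [Multiset.map_cons, Multiset.sum_cons]
    exact h5
  rw [h11] at h10
  refine h10.trans ?_
  push_cast
  refine mul_le_mul_of_nonneg_right ?_ (Real.exp_pos _).le
  apply pow_le_pow_right₀ (by norm_num)
  rw [Multiset.card_cons]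
  have h12 := card_mul_le tau l' fun g hg => (h3 g hg).2.2
  have h13 : (l'.map Prod.snd).sum ≤ k + k' := by omega
  have h14 : tau * Multiset.card l' < tau * q := by
    calc tau * Multiset.card l' ≤ 2 * (l'.map Prod.snd).sum := h12
      _ ≤ 2 * (k + k') := by omega
      _ < tau * q := hq
  exact Nat.lt_of_mul_lt_mul_left h14

theorem rank_output_le (hC : C.IsHomogeneous) {lam kap W : ℝ} {s t k k' tau q : ℕ} (hW0 : 0 ≤ W)
    (hW : ∀ i j : ℕ, ((Lv c (s + i) (t + j)).card : ℝ) ≤
      W * Real.exp ((j : ℝ) * (lam + kap) - (i : ℝ) * (lam - kap)))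
    (hbal : (k : ℝ) * (lam - kap) = (k' : ℝ) * (lam + kap))
    (hlam : 0 ≤ lam) (hkap : 0 ≤ kap) (hlk : 0 ≤ lam - kap)
    (ha : 2 * Real.exp (-(1 / 2) * (lam - kap)) ≤ 1)
    (hy : Real.exp (-(lam / 4)) ≤ 1 / 2) (htau0 : 0 < tau)
    (htau : ∀ d : ℕ, d < tau → (d : ℝ) * kap ≤ lam / 4)
    (hq : 2 * (k + k') < tau * q) (hdeg : C.degOut = k + k') :
    ((blk c C.output s t (s + k) (t + k')).rank : ℝ) ≤
      (C.size : ℝ) ^ 2 * (W * (((2 * Real.exp (-(1 / 2) * (lam - kap))) ^ tau * (k + k' + 1)) +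
        (2 ^ q * Real.exp (-((k + k' : ℝ) * kap / 2))))) := by
  classical
  set Ba : ℝ := (2 * Real.exp (-(1 / 2) * (lam - kap))) ^ tau * (k + k' + 1) with hBa
  set Bb : ℝ := 2 ^ q * Real.exp (-((k + k' : ℝ) * kap / 2)) with hBb
  have hBa0 : 0 ≤ Ba := by rw [hBa]; positivity
  have hBb0 : 0 ≤ Bb := by rw [hBb]; positivity
  have hsizeP : (Fintype.card P : ℝ) ≤ C.size := by
    unfold SPSPS.size
    exact_mod_cast (by omega)
  have hsizeR : (Fintype.card R : ℝ) ≤ C.size := by
    unfold SPSPS.size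
    exact_mod_cast (by omega)
  have hsize1 : (1 : ℝ) ≤ C.size := by
    unfold SPSPS.size
    exact_mod_cast (by omega)
  have h1 : ((blk c C.output s t (s + k) (t + k')).rank : ℝ) ≤
      ∑ r ∈ C.inOut, ((blk c (C.valR r) s t (s + k) (t + k')).rank : ℝ) := by
    unfold SPSPS.output
    exact_mod_cast rank_blk_sum_smul_le (c := c) _ _ _ _ _ _ _
  have h2 : ∀ r ∈ C.inOut, ((blk c (C.valR r) s t (s + k) (t + k')).rank : ℝ) ≤
      C.size * (W * (Ba + Bb)) := by
    intro r hr
    have hdr : C.degR r = k + k' := (hC.2.2 r hr).trans hdeg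
    by_cases h : ∃ σ ∈ C.inR r, tau ≤ C.degS σ
    · obtain ⟨σ, hσ, hσd⟩ := h
      refine (rank_valR_large C hC hW0 hW hbal hkap hlk ha r hdr σ hσ hσd).trans ?_
      refine mul_le_mul hsizeP ?_ (by positivity) (by positivity)
      exact mul_le_mul_of_nonneg_left (by linarith) hW0
    · push Not at h
      refine (rank_valR_small C hC hW0 hW hbal hlam hkap hy htau0 htau hq r hdr h).trans ?_
      have : W * Bb ≤ 1 * (W * (Ba + Bb)) := by
        rw [one_mul]
        exact mul_le_mul_of_nonneg_left (by linarith) hW0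
      refine this.trans (mul_le_mul_of_nonneg_right hsize1 (by positivity))
  refine h1.trans ((Finset.sum_le_sum h2).trans ?_)
  rw [Finset.sum_const, nsmul_eq_mul, sq, mul_assoc]
  refine mul_le_mul_of_nonneg_right ?_ (by positivity)
  exact le_trans (by exact_mod_cast Finset.card_le_univ _) hsizeR

end Circuit

end Crest.Agent.S0504
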