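import Mathlib
import Crest.Agent.S0504P2

/-!
Binomial estimates and counts of sets in a level with prescribed inclusions and exclusions.
-/

set_option autoImplicit false
set_option linter.unusedSectionVars false

namespace Crest.Agent.S0504

theorem choose_up_p (N s : ℕ) (p : ℝ) (hp : 0 ≤ p) (h : p * ((N : ℝ) - s) ≤ s + 1) (i : ℕ) :
    (N.choose (s + i) : ℝ) * p ^ i ≤ N.choose s := by
  induction i with
  | zero => simp
  | succ i ih =>
    refine le_trans ?_ ih
    rcases Nat.lt_or_ge N (s + i) with hlt | hge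
    · rw [Nat.choose_eq_zero_of_lt (by omega : N < s + (i + 1))]
      simp only [Nat.cast_zero, zero_mul]
      positivity
    have h1 : ((N.choose (s + i + 1) : ℕ) : ℝ) * ((s + i + 1 : ℕ) : ℝ) =
        (N.choose (s + i) : ℝ) * ((N - (s + i) : ℕ) : ℝ) := by
      exact_mod_cast Nat.choose_succ_right_eq N (s + i)
    rw [Nat.cast_sub hge] at h1
    push_cast at h1
    have h2 : p * ((N : ℝ) - (s + i)) ≤ (s : ℝ) + i + 1 := by
      have : (0 : ℝ) ≤ i := Nat.cast_nonneg i
      nlinarith
    have h3 : (N.choose (s + i + 1) : ℝ) * p ≤ N.choose (s + i) := by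
      have hpos : (0 : ℝ) < (s : ℝ) + i + 1 := by positivity
      have h4 : (N.choose (s + i + 1) : ℝ) * p * ((s : ℝ) + i + 1) ≤
          N.choose (s + i) * ((s : ℝ) + i + 1) := by
        calc (N.choose (s + i + 1) : ℝ) * p * ((s : ℝ) + i + 1)
            = p * ((N.choose (s + i + 1) : ℝ) * ((s : ℝ) + i + 1)) := by ring
          _ = (N.choose (s + i) : ℝ) * (p * ((N : ℝ) - (s + i))) := by rw [h1]; ring
          _ ≤ _ := mul_le_mul_of_nonneg_left h2 (Nat.cast_nonneg _)
      exact le_of_mul_le_mul_right h4 hpos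
    calc (N.choose (s + (i + 1)) : ℝ) * p ^ (i + 1)
        = ((N.choose (s + i + 1) : ℝ) * p) * p ^ i := by rw [← add_assoc]; ring
      _ ≤ (N.choose (s + i) : ℝ) * p ^ i := mul_le_mul_of_nonneg_right h3 (by positivity)

theorem choose_up_q (N t : ℕ) (q : ℝ) (hq : 0 ≤ q) (h : (N : ℝ) - t ≤ q * (t + 1)) (j : ℕ) :
    (N.choose (t + j) : ℝ) ≤ N.choose t * q ^ j := by
  induction j with
  | zero => simp
  | succ j ih =>
    have h3 : (N.choose (t + j + 1) : ℝ) ≤ N.choose (t + j) * q := by
      rcases Nat.lt_or_ge N (t + j) with hlt | hge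
      · rw [Nat.choose_eq_zero_of_lt (by omega : N < t + j + 1)]
        simp only [Nat.cast_zero]
        positivity
      have h1 : ((N.choose (t + j + 1) : ℕ) : ℝ) * ((t + j + 1 : ℕ) : ℝ) =
          (N.choose (t + j) : ℝ) * ((N - (t + j) : ℕ) : ℝ) := by
        exact_mod_cast Nat.choose_succ_right_eq N (t + j)
      rw [Nat.cast_sub hge] at h1
      push_cast at h1
      have h2 : (N : ℝ) - (t + j) ≤ q * ((t : ℝ) + j + 1) := by
        have : (0 : ℝ) ≤ j := Nat.cast_nonneg j
        nlinarith
      have hpos : (0 : ℝ) < (t : ℝ) + j + 1 := by positivity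
      have h4 : (N.choose (t + j + 1) : ℝ) * ((t : ℝ) + j + 1) ≤
          N.choose (t + j) * q * ((t : ℝ) + j + 1) := by
        rw [h1, mul_assoc]
        exact mul_le_mul_of_nonneg_left h2 (Nat.cast_nonneg _)
      exact le_of_mul_le_mul_right h4 hpos
    calc (N.choose (t + (j + 1)) : ℝ) = (N.choose (t + j + 1) : ℝ) := by rw [← add_assoc]
      _ ≤ N.choose (t + j) * q := h3
      _ ≤ (N.choose t * q ^ j) * q := mul_le_mul_of_nonneg_right ih hq
      _ = _ := by ring

theorem choose_avoid_lower (N s k : ℕ) (hk : s + k ≤ N) (hN : 0 < N) (i : ℕ) (hi : i ≤ k) :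
    (N.choose s : ℝ) * (((N : ℝ) - s - k) / N) ^ i ≤ (N - i).choose s := by
  induction i with
  | zero => simp
  | succ i ih =>
    have ih' := ih (by omega)
    have h1 : ((N - (i + 1)).choose s) * (N - (i + 1) + 1) =
        (N - (i + 1) + 1).choose s * (N - (i + 1) + 1 - s) := Nat.choose_mul_succ_eq _ _
    have h2 : N - (i + 1) + 1 = N - i := by omega
    rw [h2] at h1
    have h3 : (((N - (i + 1)).choose s : ℕ) : ℝ) * ((N : ℝ) - i) =
        ((N - i).choose s : ℝ) * ((N : ℝ) - i - s) := by
      have h1' : (((N - (i + 1)).choose s : ℕ) : ℝ) * ((N - i : ℕ) : ℝ) =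
        (((N - i).choose s : ℕ) : ℝ) * ((N - i - s : ℕ) : ℝ) := by exact_mod_cast h1
      rw [Nat.cast_sub (by omega : s ≤ N - i), Nat.cast_sub (by omega : i ≤ N)] at h1'
      exact h1'
    have hNi : (0 : ℝ) < (N : ℝ) - i := by
      have : (i : ℝ) < N := by exact_mod_cast (by omega : i < N)
      linarith
    have hNpos : (0 : ℝ) < N := by exact_mod_cast hN
    have h4 : ((N - i).choose s : ℝ) * (((N : ℝ) - s - k) / N) ≤ ((N - (i + 1)).choose s : ℝ) := by
      have h5 : (((N : ℝ) - s - k) / N) ≤ ((N : ℝ) - i - s) / ((N : ℝ) - i) := by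
        rw [div_le_div_iff₀ hNpos hNi]
        have hk' : (s : ℝ) + k ≤ N := by exact_mod_cast hk
        have hi' : (i : ℝ) ≤ k := by exact_mod_cast (by omega : i ≤ k)
        have hs0 : (0 : ℝ) ≤ s := Nat.cast_nonneg s
        have hi0 : (0 : ℝ) ≤ i := Nat.cast_nonneg i
        nlinarith
      calc ((N - i).choose s : ℝ) * (((N : ℝ) - s - k) / N)
          ≤ ((N - i).choose s : ℝ) * (((N : ℝ) - i - s) / ((N : ℝ) - i)) :=
            mul_le_mul_of_nonneg_left h5 (Nat.cast_nonneg _)
        _ = (((N - i).choose s : ℝ) * ((N : ℝ) - i - s)) / ((N : ℝ) - i) := by ring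
        _ = ((N - (i + 1)).choose s : ℝ) := by
            rw [← h3]; field_simp
    have h0 : 0 ≤ ((N : ℝ) - s - k) / N := by
      have hk' : (s : ℝ) + k ≤ N := by exact_mod_cast hk
      apply div_nonneg _ hNpos.le
      linarith
    calc (N.choose s : ℝ) * (((N : ℝ) - s - k) / N) ^ (i + 1)
        = ((N.choose s : ℝ) * (((N : ℝ) - s - k) / N) ^ i) * (((N : ℝ) - s - k) / N) := by ring
      _ ≤ ((N - i).choose s : ℝ) * (((N : ℝ) - s - k) / N) := mul_le_mul_of_nonneg_right ih' h0
      _ ≤ _ := h4

theorem choose_contain_upper (N s m : ℕ) (hm : m < N) (hms : m ≤ s) (hsN : s ≤ N)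
    (A B : ℝ) (hA : (N : ℝ) - s ≤ A * ((N : ℝ) - m)) (hB : (s : ℝ) ≤ B * ((N : ℝ) - m))
    (v c : ℕ) (hvc : v + c ≤ m) :
    ((N - v - c).choose (s - c) : ℝ) ≤ N.choose s * A ^ v * B ^ c := by
  have hNm : (0 : ℝ) < (N : ℝ) - m := by
    have : (m : ℝ) < N := by exact_mod_cast hm
    linarith
  have hA0 : 0 ≤ A := by
    by_contra h
    push Not at h
    have h1 : (s : ℝ) ≤ N := by exact_mod_cast hsN
    nlinarith
  have hB0 : 0 ≤ B := by
    by_contra h
    push Not at h
    have h1 : (0 : ℝ) ≤ s := Nat.cast_nonneg s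
    nlinarith
  induction v with
  | zero =>
    induction c with
    | zero => simp
    | succ c ih =>
      have ih' := ih (by omega)
      simp only [Nat.sub_zero, pow_zero, mul_one] at ih' ⊢
      have h1 : (N - (c + 1) + 1) * (N - (c + 1)).choose (s - (c + 1)) =
          (N - (c + 1) + 1).choose (s - (c + 1) + 1) * (s - (c + 1) + 1) :=
        Nat.add_one_mul_choose_eq _ _
      rw [show N - (c + 1) + 1 = N - c by omega, show s - (c + 1) + 1 = s - c by omega] at h1
      have h2 : ((N : ℝ) - c) * ((N - (c + 1)).choose (s - (c + 1)) : ℝ) =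
          ((N - c).choose (s - c) : ℝ) * ((s : ℝ) - c) := by
        have h1' : ((N - c : ℕ) : ℝ) * ((N - (c + 1)).choose (s - (c + 1)) : ℝ) =
          ((N - c).choose (s - c) : ℝ) * ((s - c : ℕ) : ℝ) := by exact_mod_cast h1
        rw [Nat.cast_sub (by omega), Nat.cast_sub (by omega)] at h1'
        exact h1'
      have h3 : ((N - (c + 1)).choose (s - (c + 1)) : ℝ) * ((N : ℝ) - m) ≤
          ((N - c).choose (s - c) : ℝ) * B * ((N : ℝ) - m) := by
        have hc : (c : ℝ) ≤ m := by exact_mod_cast (by omega : c ≤ m)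
        have hc0 : (0 : ℝ) ≤ c := Nat.cast_nonneg c
        calc ((N - (c + 1)).choose (s - (c + 1)) : ℝ) * ((N : ℝ) - m)
            ≤ ((N - (c + 1)).choose (s - (c + 1)) : ℝ) * ((N : ℝ) - c) :=
              mul_le_mul_of_nonneg_left (by linarith) (Nat.cast_nonneg _)
          _ = ((N - c).choose (s - c) : ℝ) * ((s : ℝ) - c) := by rw [← h2]; ring
          _ ≤ ((N - c).choose (s - c) : ℝ) * (B * ((N : ℝ) - m)) :=
              mul_le_mul_of_nonneg_left (by linarith) (Nat.cast_nonneg _)
          _ = _ := by ring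
      have h4 := le_of_mul_le_mul_right h3 hNm
      calc ((N - (c + 1)).choose (s - (c + 1)) : ℝ) ≤ ((N - c).choose (s - c) : ℝ) * B := h4
        _ ≤ (N.choose s * B ^ c) * B := mul_le_mul_of_nonneg_right ih' hB0
        _ = _ := by ring
  | succ v ih =>
    have ih' := ih (by omega)
    have h1 : ((N - (v + 1) - c).choose (s - c)) * (N - (v + 1) - c + 1) =
        (N - (v + 1) - c + 1).choose (s - c) * (N - (v + 1) - c + 1 - (s - c)) :=
      Nat.choose_mul_succ_eq _ _
    rw [show N - (v + 1) - c + 1 = N - v - c by omega] at h1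
    have hX : 0 ≤ ((N - v - c).choose (s - c) : ℝ) := Nat.cast_nonneg _
    rcases Nat.lt_or_ge (N - v - c) (s - c) with hlt | hge
    · have : (N - (v + 1) - c).choose (s - c) = 0 := Nat.choose_eq_zero_of_lt (by omega)
      rw [this]
      simp only [Nat.cast_zero]
      positivity
    have h2 : ((N - (v + 1) - c).choose (s - c) : ℝ) * ((N : ℝ) - v - c) =
        ((N - v - c).choose (s - c) : ℝ) * ((N : ℝ) - v - s) := by
      have h1' : ((N - (v + 1) - c).choose (s - c) : ℝ) * ((N - v - c : ℕ) : ℝ) =
        ((N - v - c).choose (s - c) : ℝ) * ((N - v - c - (s - c) : ℕ) : ℝ) := by exact_mod_cast h1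
      rw [Nat.cast_sub (by omega : s - c ≤ N - v - c), Nat.cast_sub (by omega : c ≤ N - v),
        Nat.cast_sub (by omega : v ≤ N), Nat.cast_sub (by omega : c ≤ s)] at h1'
      rw [h1']
      ring
    have h3 : ((N - (v + 1) - c).choose (s - c) : ℝ) * ((N : ℝ) - m) ≤
        ((N - v - c).choose (s - c) : ℝ) * A * ((N : ℝ) - m) := by
      have hvc' : (v : ℝ) + c ≤ m := by exact_mod_cast (by omega : v + c ≤ m)
      have hv0 : (0 : ℝ) ≤ v := Nat.cast_nonneg v
      calc ((N - (v + 1) - c).choose (s - c) : ℝ) * ((N : ℝ) - m)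
          ≤ ((N - (v + 1) - c).choose (s - c) : ℝ) * ((N : ℝ) - v - c) :=
            mul_le_mul_of_nonneg_left (by linarith) (Nat.cast_nonneg _)
        _ = ((N - v - c).choose (s - c) : ℝ) * ((N : ℝ) - v - s) := h2
        _ ≤ ((N - v - c).choose (s - c) : ℝ) * (A * ((N : ℝ) - m)) :=
            mul_le_mul_of_nonneg_left (by linarith) (Nat.cast_nonneg _)
        _ = _ := by ring
    have h4 := le_of_mul_le_mul_right h3 hNm
    calc ((N - (v + 1) - c).choose (s - c) : ℝ) ≤ ((N - v - c).choose (s - c) : ℝ) * A := h4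
      _ ≤ (N.choose s * A ^ v * B ^ c) * A := mul_le_mul_of_nonneg_right ih' hA0
      _ = _ := by ring

section Count

variable {X : Type*} [Fintype X] [DecidableEq X] (c : X → Prop) [DecidablePred c]

/-- number of `c`-elements -/
def nY : ℕ := (Finset.univ.filter c).card
/-- number of the other elements -/
def nZ : ℕ := (Finset.univ.filter (fun x => ¬ c x)).card

/-- upper count of the sets of a level avoiding `V` and containing `C`. -/
theorem count_upper (s t : ℕ) (V C : Finset X) (hVC : Disjoint V C) :
    ((Lv c s t).filter (fun S => Disjoint V S ∧ C ⊆ S)).card ≤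
      (nY c - (V.filter c).card - (C.filter c).card).choose (s - (C.filter c).card) *
      (nZ c - (V.filter (fun x => ¬ c x)).card - (C.filter (fun x => ¬ c x)).card).choose
        (t - (C.filter (fun x => ¬ c x)).card) := by
  have hcard : ∀ (p : X → Prop) [DecidablePred p],
      ((Finset.univ.filter p) \ (V ∪ C)).card =
        (Finset.univ.filter p).card - (V.filter p).card - (C.filter p).card := by
    intro p _
    have h1 : (Finset.univ.filter p) \ (V ∪ C) =
        (Finset.univ.filter p) \ (V.filter p ∪ C.filter p) := by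
      ext x
      simp only [Finset.mem_sdiff, Finset.mem_filter, Finset.mem_univ, true_and, Finset.mem_union]
      tauto
    rw [h1, Finset.card_sdiff_of_subset, Finset.card_union_of_disjoint, Nat.sub_sub]
    · exact Finset.disjoint_filter_filter hVC
    · intro x hx
      simp only [Finset.mem_filter, Finset.mem_univ, true_and, Finset.mem_union] at hx ⊢
      tauto
  have hsub : ∀ (p : X → Prop) [DecidablePred p] (S : Finset X), C ⊆ S →
      ((S \ C).filter p).card = (S.filter p).card - (C.filter p).card := by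
    intro p _ S hCS
    have : (S \ C).filter p = S.filter p \ C.filter p := by
      ext x
      simp only [Finset.mem_sdiff, Finset.mem_filter]
      tauto
    rw [this, Finset.card_sdiff_of_subset (Finset.filter_subset_filter _ hCS)]
  have key : ((Lv c s t).filter (fun S => Disjoint V S ∧ C ⊆ S)).card ≤
      (Finset.powersetCard (s - (C.filter c).card) ((Finset.univ.filter c) \ (V ∪ C)) ×ˢ
        Finset.powersetCard (t - (C.filter (fun x => ¬ c x)).card)
          ((Finset.univ.filter (fun x => ¬ c x)) \ (V ∪ C))).card := by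
    apply Finset.card_le_card_of_injOn (fun S => ((S \ C).filter c, (S \ C).filter (fun x => ¬ c x)))
    · intro S hS
      simp only [Finset.coe_filter, Set.mem_ofPred_eq] at hS
      obtain ⟨hS, hVS, hCS⟩ := hS
      rw [mem_Lv] at hS
      simp only [Finset.coe_product, Set.mem_prod, Finset.mem_coe, Finset.mem_powersetCard]
      refine ⟨⟨?_, ?_⟩, ⟨?_, ?_⟩⟩
      · intro x hx
        simp only [Finset.mem_filter, Finset.mem_sdiff, Finset.mem_univ, true_and,
          Finset.mem_union] at hx ⊢
        refine ⟨hx.2, ?_⟩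
        rintro (h | h)
        · exact Finset.disjoint_left.mp hVS h hx.1.1
        · exact hx.1.2 h
      · rw [hsub c S hCS, hS.1]
      · intro x hx
        simp only [Finset.mem_filter, Finset.mem_sdiff, Finset.mem_univ, true_and,
          Finset.mem_union] at hx ⊢
        refine ⟨hx.2, ?_⟩
        rintro (h | h)
        · exact Finset.disjoint_left.mp hVS h hx.1.1
        · exact hx.1.2 h
      · rw [hsub _ S hCS, hS.2]
    · intro S hS S' hS' h
      simp only [Finset.coe_filter, Set.mem_ofPred_eq] at hS hS'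
      simp only [Prod.mk.injEq] at h
      have h1 : S \ C = S' \ C := by
        rw [← Finset.filter_union_filter_not_eq c (S \ C), ← Finset.filter_union_filter_not_eq c (S' \ C),
          h.1, h.2]
      rw [← Finset.sdiff_union_of_subset hS.2.2, ← Finset.sdiff_union_of_subset hS'.2.2, h1]
  refine key.trans (le_of_eq ?_)
  rw [Finset.card_product, Finset.card_powersetCard, Finset.card_powersetCard, hcard, hcard]
  rfl

theorem card_Lv_le (s t : ℕ) : (Lv c s t).card ≤ (nY c).choose s * (nZ c).choose t := by
  have := count_upper c s t ∅ ∅ (by simp)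
  simpa using this

/-- lower count of the sets of a level avoiding `V`. -/
theorem count_lower (s t : ℕ) (V : Finset X) :
    (nY c - (V.filter c).card).choose s * (nZ c - (V.filter (fun x => ¬ c x)).card).choose t ≤
      ((Lv c s t).filter (fun S => Disjoint S V)).card := by
  have hcard : ∀ (p : X → Prop) [DecidablePred p],
      ((Finset.univ.filter p) \ V).card =
        (Finset.univ.filter p).card - (V.filter p).card := by
    intro p _
    have h1 : (Finset.univ.filter p) \ V =
        (Finset.univ.filter p) \ (V.filter p) := by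
      ext x
      simp only [Finset.mem_sdiff, Finset.mem_filter, Finset.mem_univ, true_and]
      tauto
    rw [h1, Finset.card_sdiff_of_subset]
    intro x hx
    simp only [Finset.mem_filter, Finset.mem_univ, true_and] at hx ⊢
    tauto
  have key : (Finset.powersetCard s ((Finset.univ.filter c) \ V) ×ˢ
        Finset.powersetCard t ((Finset.univ.filter (fun x => ¬ c x)) \ V)).card ≤
      ((Lv c s t).filter (fun S => Disjoint S V)).card := by
    have hA : ∀ P ∈ (Finset.powersetCard s ((Finset.univ.filter c) \ V) ×ˢ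
        Finset.powersetCard t ((Finset.univ.filter (fun x => ¬ c x)) \ V)),
        (P.1 ∪ P.2).filter c = P.1 ∧ (P.1 ∪ P.2).filter (fun x => ¬ c x) = P.2 ∧
          Disjoint (P.1 ∪ P.2) V ∧ P.1.card = s ∧ P.2.card = t := by
      rintro ⟨A, B⟩ hP
      simp only [Finset.mem_product, Finset.mem_powersetCard] at hP
      obtain ⟨⟨hA, hAc⟩, ⟨hB, hBc⟩⟩ := hP
      have hA' : ∀ x ∈ A, c x ∧ x ∉ V := fun x hx => by simpa using hA hx
      have hB' : ∀ x ∈ B, ¬ c x ∧ x ∉ V := fun x hx => by simpa using hB hx
      refine ⟨?_, ?_, ?_, hAc, hBc⟩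
      · ext x
        simp only [Finset.mem_filter, Finset.mem_union]
        constructor
        · rintro ⟨h | h, hc⟩
          · exact h
          · exact absurd hc (hB' x h).1
        · intro h
          exact ⟨Or.inl h, (hA' x h).1⟩
      · ext x
        simp only [Finset.mem_filter, Finset.mem_union]
        constructor
        · rintro ⟨h | h, hc⟩
          · exact absurd (hA' x h).1 hc
          · exact h
        · intro h
          exact ⟨Or.inr h, (hB' x h).1⟩
      · rw [Finset.disjoint_left]
        intro x hx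
        rcases Finset.mem_union.mp hx with h | h
        · exact (hA' x h).2
        · exact (hB' x h).2
    apply Finset.card_le_card_of_injOn (fun P => P.1 ∪ P.2)
    · intro P hP
      obtain ⟨h1, h2, h3, h4, h5⟩ := hA P hP
      simp only [Finset.coe_filter, Set.mem_ofPred_eq, mem_Lv]
      rw [h1, h2]
      exact ⟨⟨h4, h5⟩, h3⟩
    · intro P hP P' hP' h
      obtain ⟨h1, h2, -⟩ := hA P hP
      obtain ⟨h1', h2', -⟩ := hA P' hP'
      simp only at h
      rw [h] at h1 h2
      ext1
      · exact h1.symm.trans h1'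
      · exact h2.symm.trans h2'
  refine le_trans (le_of_eq ?_) key
  rw [Finset.card_product, Finset.card_powersetCard, Finset.card_powersetCard, hcard, hcard]
  rfl

end Count

end Crest.Agent.S0504
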