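import Mathlib
import Crest.Agent.S0504P3

/-!
Path expansion of products of matrices, and the transfer computation for quadruples of paths.
-/

set_option autoImplicit false
set_option linter.unusedSectionVars false

namespace Crest.Agent.S0504

section PathSum

variable {ι R : Type*} [Fintype ι] [DecidableEq ι] [CommSemiring R]

theorem list_prod_entry : ∀ (m : ℕ) (A : Fin m → Matrix ι ι R) (a b : ι),
    (List.ofFn A).prod a b = ∑ v : Fin (m + 1) → ι,
      if v 0 = a ∧ v (Fin.last m) = b then ∏ i : Fin m, A i (v i.castSucc) (v i.succ) else 0 := by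
  intro m
  induction m with
  | zero =>
    intro A a b
    simp only [List.ofFn_zero, List.prod_nil, Finset.univ_eq_empty, Finset.prod_empty]
    rw [← (Equiv.funUnique (Fin 1) ι).symm.sum_comp]
    simp only [Matrix.one_apply, Equiv.funUnique_symm_apply, uniqueElim_const]
    by_cases h : a = b
    · subst h
      simp
    · rw [if_neg h]
      symm
      apply Finset.sum_eq_zero
      intro x _
      rw [if_neg]
      rintro ⟨h1, h2⟩
      exact h (h1.symm.trans h2)
  | succ m ih =>
    intro A a b
    rw [List.ofFn_succ, List.prod_cons, Matrix.mul_apply]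
    simp only [ih]
    rw [← (Fin.consEquiv (fun _ : Fin (m + 2) => ι)).sum_comp, Fintype.sum_prod_type]
    have h1 : ∀ (x : ι) (v : Fin (m + 1) → ι),
        (if (Fin.consEquiv (fun _ : Fin (m + 2) => ι)) (x, v) 0 = a ∧
            (Fin.consEquiv (fun _ : Fin (m + 2) => ι)) (x, v) (Fin.last (m + 1)) = b then
          ∏ i : Fin (m + 1), A i ((Fin.consEquiv (fun _ : Fin (m + 2) => ι)) (x, v) i.castSucc)
            ((Fin.consEquiv (fun _ : Fin (m + 2) => ι)) (x, v) i.succ) else 0) =
        if x = a then (if v (Fin.last m) = b then A 0 a (v 0) *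
          ∏ i : Fin m, A i.succ (v i.castSucc) (v i.succ) else 0) else 0 := by
      intro x v
      simp only [Fin.consEquiv_apply, Fin.cons_zero]
      have h2 : (Fin.cons x v : Fin (m + 2) → ι) (Fin.last (m + 1)) = v (Fin.last m) := by
        rw [← Fin.succ_last, Fin.cons_succ]
      rw [h2, Fin.prod_univ_succ]
      by_cases hx : x = a
      · subst hx
        simp only [true_and, if_true]
        split_ifs with hb
        · congr 1
        · rfl
      · simp [hx]
    simp only [h1]
    rw [Finset.sum_comm]
    simp only [Finset.sum_ite_eq', Finset.mem_univ, if_true]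
    simp only [Finset.mul_sum]
    rw [Finset.sum_comm]
    refine Finset.sum_congr rfl fun v _ => ?_
    simp only [mul_ite, mul_zero]
    by_cases hb : v (Fin.last m) = b
    · simp only [hb, and_true, if_true]
      rw [Finset.sum_ite_eq]
      simp
    · simp [hb]

end PathSum

section Transfer

variable {ι : Type*} [Fintype ι] [DecidableEq ι]

/-- first pairing pattern -/
def pA (a : ι × ι × ι × ι) : Prop := a.1 = a.2.1 ∧ a.2.2.1 = a.2.2.2
/-- second pairing pattern -/
def pB (a : ι × ι × ι × ι) : Prop := a.1 = a.2.2.2 ∧ a.2.1 = a.2.2.1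

instance (a : ι × ι × ι × ι) : Decidable (pA a) := by unfold pA; infer_instance
instance (a : ι × ι × ι × ι) : Decidable (pB a) := by unfold pB; infer_instance

/-- The transfer matrix of a layer. -/
def Dm (r : ℝ) : Matrix (ι × ι × ι × ι) (ι × ι × ι × ι) ℝ := fun a b =>
  (if pA a ∧ pA b then 1 else 0) + r * (if pB a ∧ pB b then 1 else 0)

theorem sum_pA (f : ι × ι × ι × ι → ℝ) :
    ∑ b : ι × ι × ι × ι, (if pA b then f b else 0) = ∑ x : ι, ∑ y : ι, f (x, x, y, y) := by
  rw [Fintype.sum_prod_type]
  refine Finset.sum_congr rfl fun x _ => ?_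
  rw [Fintype.sum_prod_type]
  rw [Finset.sum_eq_single x]
  · rw [Fintype.sum_prod_type]
    refine Finset.sum_congr rfl fun y _ => ?_
    rw [Finset.sum_eq_single y]
    · simp [pA]
    · intro z _ hz
      rw [if_neg]
      rintro ⟨-, h⟩
      exact hz h.symm
    · simp
  · intro z _ hz
    apply Finset.sum_eq_zero
    intro w _
    rw [if_neg]
    rintro ⟨h, -⟩
    exact hz h.symm
  · simp

theorem sum_pB (f : ι × ι × ι × ι → ℝ) :
    ∑ b : ι × ι × ι × ι, (if pB b then f b else 0) = ∑ x : ι, ∑ y : ι, f (x, y, y, x) := by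
  rw [Fintype.sum_prod_type]
  refine Finset.sum_congr rfl fun x _ => ?_
  rw [Fintype.sum_prod_type]
  refine Finset.sum_congr rfl fun y _ => ?_
  rw [Fintype.sum_prod_type]
  rw [Finset.sum_eq_single y]
  · rw [Finset.sum_eq_single x]
    · simp [pB]
    · intro z _ hz
      rw [if_neg]
      rintro ⟨h, -⟩
      exact hz h.symm
    · simp
  · intro z _ hz
    apply Finset.sum_eq_zero
    intro w _
    rw [if_neg]
    rintro ⟨-, h⟩
    exact hz h.symm
  · simp

theorem transfer (z : ι) (H : ℝ) (hN : 0 < Fintype.card ι) :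
    ∀ (m : ℕ) (r : Fin (m + 1) → ℝ) (G : ℕ → ℝ), (∀ i : Fin (m + 1), 0 ≤ r i) →
    (∀ i : Fin (m + 1), r i * G (i + 1) = G i) → G (m + 1) = 1 →
    (∀ i ≤ m + 1, 1 ≤ G i) → (∀ i ≤ m + 1, G i ≤ H) →
    ∃ α β : ℝ, 0 ≤ α ∧ 0 ≤ β ∧
      α ≤ ((Fintype.card ι : ℝ) ^ 2 * (1 + H / Fintype.card ι)) ^ m ∧
      β ≤ G 0 * ((Fintype.card ι : ℝ) ^ 2 * (1 + H / Fintype.card ι)) ^ m ∧
      ∀ a : ι × ι × ι × ι, (List.ofFn (fun i => Dm (ι := ι) (r i))).prod a (z, z, z, z) =
        α * (if pA a then 1 else 0) + β * (if pB a then 1 else 0) := by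
  set N : ℝ := (Fintype.card ι : ℝ) with hNdef
  have hNpos : 0 < N := by rw [hNdef]; exact_mod_cast hN
  have hzA : pA (z, z, z, z) := ⟨rfl, rfl⟩
  have hzB : pB (z, z, z, z) := ⟨rfl, rfl⟩
  intro m
  induction m with
  | zero =>
    intro r G hr hG hlast hG1 hGH
    refine ⟨1, r 0, by norm_num, hr 0, by simp, ?_, ?_⟩
    · have := hG 0
      simp only [Fin.val_zero, zero_add] at this hlast
      rw [hlast] at this
      rw [pow_zero, mul_one, ← this, mul_one]
    · intro a
      simp only [List.ofFn_succ, List.ofFn_zero, List.prod_cons, List.prod_nil, mul_one]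
      unfold Dm
      simp only [hzA, hzB, and_true]
      ring
  | succ m ih =>
    intro r G hr hG hlast hG1 hGH
    obtain ⟨α, β, hα, hβ, hα', hβ', hprod⟩ := ih (fun i => r i.succ) (fun i => G (i + 1))
      (fun i => hr _) (fun i => by
        have := hG i.succ
        simpa using this) hlast (fun i hi => hG1 _ (by omega)) (fun i hi => hGH _ (by omega))
    set C : ℝ := (N ^ 2 * (1 + H / N)) ^ m with hC
    have hG10 : 1 ≤ G 1 := hG1 1 (by omega)
    have hG00 : 1 ≤ G 0 := hG1 0 (by omega)
    have hGH1 : G 1 ≤ H := hGH 1 (by omega)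
    have hH1 : 1 ≤ H := hG10.trans hGH1
    have hCpos : 0 ≤ C := by positivity
    have hr0 := hr 0
    refine ⟨N ^ 2 * α + N * β, r 0 * (N * α + N ^ 2 * β), by positivity, by positivity, ?_, ?_, ?_⟩
    · rw [pow_succ (N ^ 2 * (1 + H / N)) m, ← hC]
      have h1 : N ^ 2 * α + N * β ≤ N ^ 2 * C + N * (H * C) := by
        have : β ≤ H * C := hβ'.trans (mul_le_mul_of_nonneg_right hGH1 hCpos)
        gcongr
      refine h1.trans (le_of_eq ?_)
      field_simp
    · have h0 : r 0 * G 1 = G 0 := by simpa using hG 0
      rw [pow_succ (N ^ 2 * (1 + H / N)) m, ← hC]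
      have h1 : r 0 * (N * α + N ^ 2 * β) ≤ r 0 * (N * C + N ^ 2 * (G 1 * C)) := by
        gcongr
      refine h1.trans ?_
      have h2 : r 0 * (N * C + N ^ 2 * (G 1 * C)) ≤ r 0 * (N * (G 1 * H * C) + N ^ 2 * (G 1 * C)) := by
        have : C ≤ G 1 * H * C := by
          have : 1 ≤ G 1 * H := by nlinarith
          nlinarith
        gcongr
      refine h2.trans (le_of_eq ?_)
      rw [← h0]
      field_simp
      ring
    · intro a
      rw [List.ofFn_succ, List.prod_cons, Matrix.mul_apply]
      simp only [hprod]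
      have h1 : ∀ b : ι × ι × ι × ι, Dm (r 0) a b *
          (α * (if pA b then 1 else 0) + β * (if pB b then 1 else 0)) =
          (if pA a then 1 else 0) * (if pA b then
            (α * (if pA b then 1 else 0) + β * (if pB b then 1 else 0)) else 0) +
          (r 0 * (if pB a then 1 else 0)) * (if pB b then
            (α * (if pA b then 1 else 0) + β * (if pB b then 1 else 0)) else 0) := by
        intro b
        unfold Dm
        by_cases h1 : pA a <;> by_cases h2 : pB a <;> by_cases h3 : pA b <;>
          by_cases h4 : pB b <;> simp [h1, h2, h3, h4] <;> ring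
      simp only [h1]
      rw [Finset.sum_add_distrib, ← Finset.mul_sum, ← Finset.mul_sum, sum_pA, sum_pB]
      have h2 : ∑ x : ι, ∑ y : ι, (α * (if pA (x, x, y, y) then 1 else 0) +
          β * (if pB (x, x, y, y) then (1 : ℝ) else 0)) = N ^ 2 * α + N * β := by
        have : ∀ x y : ι, (α * (if pA (x, x, y, y) then 1 else 0) +
          β * (if pB (x, x, y, y) then (1 : ℝ) else 0)) = α + β * (if x = y then 1 else 0) := by
          intro x y
          simp [pA, pB]
        simp only [this]
        simp only [Finset.sum_add_distrib, ← Finset.mul_sum, Finset.sum_const, Finset.card_univ,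
          nsmul_eq_mul, Finset.sum_ite_eq, Finset.mem_univ, if_true, mul_one]
        rw [← hNdef]
        ring
      have h3 : ∑ x : ι, ∑ y : ι, (α * (if pA (x, y, y, x) then 1 else 0) +
          β * (if pB (x, y, y, x) then (1 : ℝ) else 0)) = N * α + N ^ 2 * β := by
        have : ∀ x y : ι, (α * (if pA (x, y, y, x) then 1 else 0) +
          β * (if pB (x, y, y, x) then (1 : ℝ) else 0)) = α * (if x = y then 1 else 0) + β := by
          intro x y
          by_cases h : x = y
          · subst h
            simp [pA, pB]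
          · simp [pA, pB, h]
        simp only [this]
        simp only [Finset.sum_add_distrib, ← Finset.mul_sum, Finset.sum_const, Finset.card_univ,
          nsmul_eq_mul, Finset.sum_ite_eq, Finset.mem_univ, if_true, mul_one]
        rw [← hNdef]
        ring
      rw [h2, h3]
      ring

end Transfer

end Crest.Agent.S0504
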