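import Mathlib
import Crest.Agent.S0504P4
import Crest.Prelude.Def_SPSPS

/-!
The iterated matrix multiplication polynomial as a sum over paths, and the lower bound on the
rank of its multiplication matrix.
-/

set_option autoImplicit false
set_option linter.unusedSectionVars false

namespace Crest.Agent.S0504

open MvPolynomial

theorem ind_empty {X : Type*} [Fintype X] [DecidableEq X] : ind (∅ : Finset X) = 0 := by
  ext x; simp [ind_apply]

theorem prod_X_eq {X : Type*} [Fintype X] [DecidableEq X] {K : Type*} [CommSemiring K]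
    (U : Finset X) :
    ∏ x ∈ U, (MvPolynomial.X x : MvPolynomial X K) = monomial (ind U) 1 := by
  induction U using Finset.induction_on with
  | empty => rw [Finset.prod_empty, ind_empty]; rfl
  | insert a s ha ih =>
    have h0 : (Finsupp.single a 1 : X →₀ ℕ) + ind s = ind (insert a s) := by
      ext x
      simp only [Finsupp.add_apply, ind_apply, Finset.mem_insert, Finsupp.single_apply]
      by_cases h1 : a = x
      · subst h1; simp [ha]
      · have : x ≠ a := fun h => h1 h.symm
        simp [h1, this]
    rw [Finset.prod_insert ha, ih, MvPolynomial.X, monomial_mul, one_mul, h0]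

/-- variables -/
abbrev XX (m : ℕ) := Fin (m + 1) × Fin (m + 1) × Fin (m + 1)

/-- closed node sequences -/
def paths (m : ℕ) : Finset (Fin (m + 2) → Fin (m + 1)) :=
  Finset.univ.filter (fun v => v 0 = 0 ∧ v (Fin.last (m + 1)) = 0)

/-- the variable used in layer `i` -/
def edge {m : ℕ} (v : Fin (m + 2) → Fin (m + 1)) (i : Fin (m + 1)) : XX m :=
  (i, v i.castSucc, v i.succ)

theorem edge_injective {m : ℕ} (v : Fin (m + 2) → Fin (m + 1)) : Function.Injective (edge v) := by
  intro i j h
  exact congrArg Prod.fst h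

/-- the set of variables of a path -/
def edges {m : ℕ} (v : Fin (m + 2) → Fin (m + 1)) : Finset (XX m) := Finset.univ.image (edge v)

theorem mem_edges {m : ℕ} {v : Fin (m + 2) → Fin (m + 1)} {x : XX m} :
    x ∈ edges v ↔ edge v x.1 = x := by
  unfold edges
  rw [Finset.mem_image]
  constructor
  · rintro ⟨i, -, rfl⟩
    rfl
  · intro h
    exact ⟨x.1, Finset.mem_univ _, h⟩

theorem imm_eq (K : Type*) [CommSemiring K] (m : ℕ) :
    Crest.ArithCircuit.imm K (m + 1) =
      ∑ v ∈ paths m, (monomial (ind (edges v)) 1 : MvPolynomial (XX m) K) := by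
  have h0 : Crest.ArithCircuit.imm K (m + 1) =
    (List.ofFn (Crest.ArithCircuit.varMatrix K (m + 1))).prod 0 0 := rfl
  rw [h0, list_prod_entry, paths, Finset.sum_filter]
  refine Finset.sum_congr rfl fun v _ => ?_
  split_ifs with h
  · rw [← prod_X_eq, edges, Finset.prod_image (fun a _ b _ h => edge_injective v h)]
    rfl
  · rfl

theorem mulMat_imm (K : Type*) [Field K] (m : ℕ) (S S' : Finset (XX m)) :
    mulMat (Crest.ArithCircuit.imm K (m + 1)) S S' =
      ((∑ v ∈ paths m, if Disjoint S (edges v) ∧ S ∪ edges v = S' then (1 : ℤ) else 0 : ℤ) : K) := by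
  rw [imm_eq]
  unfold mulMat
  rw [coeff_sum]
  simp only [coeff_monomial]
  push_cast
  by_cases h : S ⊆ S'
  · rw [if_pos h]
    refine Finset.sum_congr rfl fun v _ => ?_
    have : (ind (edges v) = ind (S' \ S)) ↔ (Disjoint S (edges v) ∧ S ∪ edges v = S') := by
      constructor
      · intro h1
        have h2 := ind_injective h1
        rw [h2]
        exact ⟨Finset.disjoint_sdiff, Finset.union_sdiff_of_subset h⟩
      · rintro ⟨h1, h2⟩
        rw [← h2, Finset.union_sdiff_cancel_left h1]
    simp only [this]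
  · rw [if_neg h]
    symm
    apply Finset.sum_eq_zero
    intro v _
    rw [if_neg]
    rintro ⟨-, h2⟩
    exact h (h2 ▸ Finset.subset_union_left)

section Lower

variable {m : ℕ} (col : Fin (m + 1) → Prop) [DecidablePred col]

/-- colour of a variable: that of its layer -/
def cc (x : XX m) : Prop := col x.1

instance : DecidablePred (cc col) := fun x => by unfold cc; infer_instance

/-- number of coloured layers -/
def kY : ℕ := (Finset.univ.filter col).card
/-- number of other layers -/
def kZ : ℕ := (Finset.univ.filter (fun i => ¬ col i)).card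

theorem kY_add_kZ : kY col + kZ col = m + 1 := by
  unfold kY kZ
  rw [Finset.card_filter_add_card_filter_not]
  simp

theorem nY_eq : nY (cc col) = kY col * (m + 1) ^ 2 := by
  unfold nY kY
  have : (Finset.univ.filter (cc col)) = (Finset.univ.filter col) ×ˢ
      (Finset.univ : Finset (Fin (m + 1) × Fin (m + 1))) := by
    ext x
    simp [cc]
  rw [this, Finset.card_product, Finset.card_univ, Fintype.card_prod, Fintype.card_fin]
  ring

theorem nZ_eq : nZ (cc col) = kZ col * (m + 1) ^ 2 := by
  unfold nZ kZ
  have : (Finset.univ.filter (fun x => ¬ (cc col) x)) = (Finset.univ.filter (fun i => ¬ col i)) ×ˢ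
      (Finset.univ : Finset (Fin (m + 1) × Fin (m + 1))) := by
    ext x
    rw [Finset.mem_filter, Finset.mem_product, Finset.mem_filter]
    simp [cc]
  rw [this, Finset.card_product, Finset.card_univ, Fintype.card_prod, Fintype.card_fin]
  ring

theorem edges_filter_Y (v : Fin (m + 2) → Fin (m + 1)) :
    ((edges v).filter (cc col)).card = kY col := by
  unfold edges kY
  rw [Finset.filter_image, Finset.card_image_of_injective _ (edge_injective v)]
  rfl

theorem edges_filter_Z (v : Fin (m + 2) → Fin (m + 1)) :
    ((edges v).filter (fun x => ¬ cc col x)).card = kZ col := by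
  unfold edges kZ
  rw [Finset.filter_image, Finset.card_image_of_injective _ (edge_injective v)]
  rfl

theorem card_paths : (paths m).card = (m + 1) ^ m := by
  have h1 := list_prod_entry (R := ℕ) (m + 1)
    (fun _ => (Matrix.of fun _ _ => 1 : Matrix (Fin (m + 1)) (Fin (m + 1)) ℕ)) 0 0
  have h2 : ∑ v : Fin (m + 1 + 1) → Fin (m + 1),
      (if v 0 = 0 ∧ v (Fin.last (m + 1)) = 0 then
        ∏ i : Fin (m + 1), (Matrix.of fun _ _ => 1 : Matrix (Fin (m + 1)) (Fin (m + 1)) ℕ)
          (v i.castSucc) (v i.succ) else 0) = (paths m).card := by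
    rw [paths, Finset.card_filter]
    simp
  rw [h2] at h1
  rw [← h1, List.ofFn_const, List.prod_replicate]
  have h3 : ∀ j : ℕ, (Matrix.of fun _ _ => 1 : Matrix (Fin (m + 1)) (Fin (m + 1)) ℕ) ^ (j + 1) =
      Matrix.of fun _ _ => (m + 1) ^ j := by
    intro j
    induction j with
    | zero => simp
    | succ j ih =>
      rw [pow_succ, ih]
      ext a b
      simp [Matrix.mul_apply]
      ring
  rw [h3]
  rfl

/-- The integer block matrix of the polynomial. -/
def M0 (s t : ℕ) : Matrix {S // S ∈ Lv (cc col) s t}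
    {S // S ∈ Lv (cc col) (s + kY col) (t + kZ col)} ℤ :=
  fun a b => ∑ v ∈ paths m, if Disjoint a.1 (edges v) ∧ a.1 ∪ edges v = b.1 then (1 : ℤ) else 0

theorem blk_imm (K : Type*) [Field K] (s t : ℕ) :
    blk (cc col) (Crest.ArithCircuit.imm K (m + 1)) s t (s + kY col) (t + kZ col) =
      (M0 col s t).map (Int.cast : ℤ → K) := by
  ext a b
  rw [blk_apply, mulMat_imm, Matrix.map_apply]
  rfl

theorem M0_nonneg (s t : ℕ) (a : {S // S ∈ Lv (cc col) s t})
    (b : {S // S ∈ Lv (cc col) (s + kY col) (t + kZ col)}) : 0 ≤ M0 col s t a b := by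
  unfold M0
  refine Finset.sum_nonneg fun v _ => ?_
  split_ifs <;> norm_num

theorem union_edges_mem {s t : ℕ} {S : Finset (XX m)} (hS : S ∈ Lv (cc col) s t)
    {v : Fin (m + 2) → Fin (m + 1)} (h : Disjoint S (edges v)) :
    S ∪ edges v ∈ Lv (cc col) (s + kY col) (t + kZ col) := by
  rw [mem_Lv] at hS ⊢
  rw [Finset.filter_union, Finset.filter_union,
    Finset.card_union_of_disjoint (Finset.disjoint_filter_filter h),
    Finset.card_union_of_disjoint (Finset.disjoint_filter_filter h), edges_filter_Y,
    edges_filter_Z, hS.1, hS.2]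
  exact ⟨rfl, rfl⟩

open Matrix in
theorem trace_lower (s t : ℕ) :
    (((paths m).card * ((nY (cc col) - kY col).choose s *
      (nZ (cc col) - kZ col).choose t) : ℕ) : ℤ) ≤
      (M0 col s t * (M0 col s t)ᵀ).trace := by
  have h1 : (M0 col s t * (M0 col s t)ᵀ).trace = ∑ a, ∑ b, M0 col s t a b * M0 col s t a b := by
    simp only [Matrix.trace, Matrix.diag_apply, Matrix.mul_apply, Matrix.transpose_apply]
  have h2 : ∑ a, ∑ b, M0 col s t a b ≤ ∑ a, ∑ b, M0 col s t a b * M0 col s t a b := by
    refine Finset.sum_le_sum fun a _ => Finset.sum_le_sum fun b _ => ?_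
    have := M0_nonneg col s t a b
    nlinarith [Int.le_self_sq (M0 col s t a b)]
  have h3 : ∑ a : {S // S ∈ Lv (cc col) s t}, ∑ v ∈ paths m,
      (if Disjoint a.1 (edges v) then (1 : ℤ) else 0) ≤ ∑ a, ∑ b, M0 col s t a b := by
    refine Finset.sum_le_sum fun a _ => ?_
    unfold M0
    rw [Finset.sum_comm]
    refine Finset.sum_le_sum fun v _ => ?_
    by_cases h : Disjoint a.1 (edges v)
    · rw [if_pos h]
      have h4 := Finset.single_le_sum
        (f := fun b : {S // S ∈ Lv (cc col) (s + kY col) (t + kZ col)} =>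
          if Disjoint a.1 (edges v) ∧ a.1 ∪ edges v = b.1 then (1 : ℤ) else 0)
        (s := Finset.univ) (fun b _ => by positivity)
        (Finset.mem_univ ⟨a.1 ∪ edges v, union_edges_mem col a.2 h⟩)
      simpa [h] using h4
    · rw [if_neg h]
      exact Finset.sum_nonneg fun b _ => by positivity
  rw [h1]
  refine le_trans ?_ (h3.trans h2)
  rw [Finset.sum_comm]
  have h5 : ∀ v ∈ paths m, (((nY (cc col) - kY col).choose s *
      (nZ (cc col) - kZ col).choose t : ℕ) : ℤ) ≤
      ∑ a : {S // S ∈ Lv (cc col) s t}, (if Disjoint a.1 (edges v) then (1 : ℤ) else 0) := by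
    intro v _
    have h6 := count_lower (cc col) s t (edges v)
    rw [edges_filter_Y, edges_filter_Z] at h6
    have h7 : (∑ a : {S // S ∈ Lv (cc col) s t}, (if Disjoint a.1 (edges v) then (1 : ℤ) else 0)) =
        ((((Lv (cc col) s t).filter (fun S => Disjoint S (edges v))).card : ℕ) : ℤ) := by
      rw [Finset.card_filter]
      push_cast
      exact Finset.sum_coe_sort (Lv (cc col) s t)
        (fun S => if Disjoint S (edges v) then (1 : ℤ) else 0)
    rw [h7]
    exact_mod_cast h6
  have h8 := Finset.card_nsmul_le_sum (paths m) _ _ h5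
  rw [nsmul_eq_mul] at h8
  push_cast at h8 ⊢
  exact h8

end Lower

end Crest.Agent.S0504
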