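import Mathlib
import Crest.Agent.S0504P5

/-!
Upper bound on the trace of the square: counting quadruples of paths.
-/

set_option autoImplicit false
set_option linter.unusedSectionVars false

namespace Crest.Agent.S0504

open Matrix

section Upper

variable {m : ℕ} (col : Fin (m + 1) → Prop) [DecidablePred col]

/-- two sets completed by two paths to the same set -/
def Jn (a : Finset (XX m)) (v : Fin (m + 2) → Fin (m + 1)) (a' : Finset (XX m))
    (v' : Fin (m + 2) → Fin (m + 1)) : Prop :=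
  Disjoint a (edges v) ∧ Disjoint a' (edges v') ∧ a ∪ edges v = a' ∪ edges v'

instance (a : Finset (XX m)) (v : Fin (m + 2) → Fin (m + 1)) (a' : Finset (XX m))
    (v' : Fin (m + 2) → Fin (m + 1)) : Decidable (Jn a v a' v') := by
  unfold Jn; infer_instance

theorem gram_le (s t : ℕ) (a a' : {S // S ∈ Lv (cc col) s t}) :
    (M0 col s t * (M0 col s t)ᵀ) a a' ≤
      ∑ v1 ∈ paths m, ∑ v2 ∈ paths m, if Jn a.1 v1 a'.1 v2 then (1 : ℤ) else 0 := by
  rw [Matrix.mul_apply]
  simp only [Matrix.transpose_apply]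
  unfold M0
  simp only [Finset.sum_mul_sum]
  rw [Finset.sum_comm]
  refine Finset.sum_le_sum fun v1 _ => ?_
  rw [Finset.sum_comm]
  refine Finset.sum_le_sum fun v2 _ => ?_
  have h1 : ∀ b : {S // S ∈ Lv (cc col) (s + kY col) (t + kZ col)},
      (if Disjoint a.1 (edges v1) ∧ a.1 ∪ edges v1 = b.1 then (1 : ℤ) else 0) *
      (if Disjoint a'.1 (edges v2) ∧ a'.1 ∪ edges v2 = b.1 then (1 : ℤ) else 0) ≤
      (if Jn a.1 v1 a'.1 v2 then (1 : ℤ) else 0) * (if a.1 ∪ edges v1 = b.1 then 1 else 0) := by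
    intro b
    by_cases h1 : Disjoint a.1 (edges v1) ∧ a.1 ∪ edges v1 = b.1
    · by_cases h2 : Disjoint a'.1 (edges v2) ∧ a'.1 ∪ edges v2 = b.1
      · have : Jn a.1 v1 a'.1 v2 := ⟨h1.1, h2.1, h1.2.trans h2.2.symm⟩
        simp [h1, h2, this]
      · rw [if_neg h2, mul_zero]
        positivity
    · rw [if_neg h1, zero_mul]
      positivity
  refine (Finset.sum_le_sum fun b _ => h1 b).trans ?_
  rw [← Finset.mul_sum]
  have h2 : (∑ b : {S // S ∈ Lv (cc col) (s + kY col) (t + kZ col)},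
      (if a.1 ∪ edges v1 = b.1 then (1 : ℤ) else 0)) ≤ 1 := by
    rw [Finset.sum_boole]
    have : (Finset.univ.filter fun b : {S // S ∈ Lv (cc col) (s + kY col) (t + kZ col)} =>
        a.1 ∪ edges v1 = b.1).card ≤ 1 := by
      rw [Finset.card_le_one]
      intro x hx y hy
      simp only [Finset.mem_filter, Finset.mem_univ, true_and] at hx hy
      exact Subtype.ext (hx.symm.trans hy)
    exact_mod_cast this
  have h3 : (0 : ℤ) ≤ (if Jn a.1 v1 a'.1 v2 then (1 : ℤ) else 0) := by positivity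
  nlinarith

/-- layerwise compatibility of four paths -/
def Cmp (v1 v2 v3 v4 : Fin (m + 2) → Fin (m + 1)) : Prop :=
  ∀ i, (edge v1 i = edge v2 i ∧ edge v3 i = edge v4 i) ∨
    (edge v1 i = edge v4 i ∧ edge v2 i = edge v3 i)

instance (v1 v2 v3 v4 : Fin (m + 2) → Fin (m + 1)) : Decidable (Cmp v1 v2 v3 v4) := by
  unfold Cmp; infer_instance

theorem edge_mem_edges (v : Fin (m + 2) → Fin (m + 1)) (i : Fin (m + 1)) : edge v i ∈ edges v :=
  mem_edges.mpr rfl

theorem edge_mem_edges_iff (v w : Fin (m + 2) → Fin (m + 1)) (i : Fin (m + 1)) :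
    edge v i ∈ edges w ↔ edge v i = edge w i := by
  rw [mem_edges]
  exact eq_comm

theorem cmp_of_Jn {a a' : Finset (XX m)} {v1 v2 v3 v4 : Fin (m + 2) → Fin (m + 1)}
    (h1 : Jn a v1 a' v2) (h2 : Jn a' v3 a v4) : Cmp v1 v2 v3 v4 := by
  obtain ⟨d1, d2, e1⟩ := h1
  obtain ⟨d3, d4, e2⟩ := h2
  intro i
  by_cases h : edge v1 i = edge v2 i
  · left
    refine ⟨h, ?_⟩
    by_contra h3
    have h4 : edge v3 i ∈ a ∪ edges v4 := by
      rw [← e2]; exact Finset.mem_union_right _ (edge_mem_edges _ _)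
    rcases Finset.mem_union.mp h4 with h5 | h5
    · have h6 : edge v3 i ∈ a' ∪ edges v2 := by
        rw [← e1]; exact Finset.mem_union_left _ h5
      rcases Finset.mem_union.mp h6 with h7 | h7
      · exact Finset.disjoint_left.mp d3 h7 (edge_mem_edges _ _)
      · rw [edge_mem_edges_iff] at h7
        rw [h7, ← h] at h5
        exact Finset.disjoint_left.mp d1 h5 (edge_mem_edges _ _)
    · rw [edge_mem_edges_iff] at h5
      exact h3 h5
  · right
    have h1 : edge v1 i ∈ a' ∪ edges v2 := by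
      rw [← e1]; exact Finset.mem_union_right _ (edge_mem_edges _ _)
    have h2 : edge v1 i ∈ a' := by
      rcases Finset.mem_union.mp h1 with h5 | h5
      · exact h5
      · exact absurd ((edge_mem_edges_iff _ _ _).mp h5) h
    have h3 : edge v1 i ∈ a ∪ edges v4 := by
      rw [← e2]; exact Finset.mem_union_left _ h2
    have h4 : edge v2 i ∈ a ∪ edges v1 := by
      rw [e1]; exact Finset.mem_union_right _ (edge_mem_edges _ _)
    have h5 : edge v2 i ∈ a := by
      rcases Finset.mem_union.mp h4 with h5 | h5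
      · exact h5
      · exact absurd ((edge_mem_edges_iff _ _ _).mp h5).symm h
    have h6 : edge v2 i ∈ a' ∪ edges v3 := by
      rw [e2]; exact Finset.mem_union_left _ h5
    constructor
    · rcases Finset.mem_union.mp h3 with h7 | h7
      · exact absurd (edge_mem_edges _ _) (Finset.disjoint_left.mp d1 h7)
      · exact (edge_mem_edges_iff _ _ _).mp h7
    · rcases Finset.mem_union.mp h6 with h7 | h7
      · exact absurd (edge_mem_edges _ _) (Finset.disjoint_left.mp d2 h7)
      · exact (edge_mem_edges_iff _ _ _).mp h7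

theorem cond_of_Jn {a a' : Finset (XX m)} {v1 v2 v3 v4 : Fin (m + 2) → Fin (m + 1)}
    (h1 : Jn a v1 a' v2) (h2 : Jn a' v3 a v4) :
    Disjoint (edges v1 ∪ edges v4) a ∧ edges v2 \ edges v1 ⊆ a := by
  obtain ⟨d1, d2, e1⟩ := h1
  obtain ⟨d3, d4, e2⟩ := h2
  constructor
  · rw [Finset.disjoint_union_left]
    exact ⟨d1.symm, d4.symm⟩
  · intro x hx
    rw [Finset.mem_sdiff] at hx
    have : x ∈ a ∪ edges v1 := by
      rw [e1]; exact Finset.mem_union_right _ hx.1
    rcases Finset.mem_union.mp this with h | h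
    · exact h
    · exact absurd h hx.2

theorem Jn_unique {a a' a'' : Finset (XX m)} {v1 v2 : Fin (m + 2) → Fin (m + 1)}
    (h1 : Jn a v1 a' v2) (h2 : Jn a v1 a'' v2) : a' = a'' := by
  obtain ⟨d1, d2, e1⟩ := h1
  obtain ⟨d3, d4, e2⟩ := h2
  have h3 : a' ∪ edges v2 = a'' ∪ edges v2 := e1.symm.trans e2
  have h4 : a' = (a' ∪ edges v2) \ edges v2 := (Finset.union_sdiff_cancel_right d2).symm
  rw [h4, h3, Finset.union_sdiff_cancel_right d4]

theorem trace_le_count (s t : ℕ) :
    ((M0 col s t * (M0 col s t)ᵀ) * (M0 col s t * (M0 col s t)ᵀ)).trace ≤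
      ∑ v1 ∈ paths m, ∑ v2 ∈ paths m, ∑ v3 ∈ paths m, ∑ v4 ∈ paths m,
        if Cmp v1 v2 v3 v4 then
          ((((Lv (cc col) s t).filter (fun S => Disjoint (edges v1 ∪ edges v4) S ∧
            edges v2 \ edges v1 ⊆ S)).card : ℕ) : ℤ) else 0 := by
  have hnn : ∀ a a', 0 ≤ (M0 col s t * (M0 col s t)ᵀ) a a' := by
    intro a a'
    rw [Matrix.mul_apply]
    exact Finset.sum_nonneg fun b _ => mul_nonneg (M0_nonneg _ _ _ _ _) (M0_nonneg _ _ _ _ _)
  have h1 : ((M0 col s t * (M0 col s t)ᵀ) * (M0 col s t * (M0 col s t)ᵀ)).trace ≤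
      ∑ a : {S // S ∈ Lv (cc col) s t}, ∑ a' : {S // S ∈ Lv (cc col) s t},
        (∑ v1 ∈ paths m, ∑ v2 ∈ paths m, if Jn a.1 v1 a'.1 v2 then (1 : ℤ) else 0) *
        (∑ v3 ∈ paths m, ∑ v4 ∈ paths m, if Jn a'.1 v3 a.1 v4 then (1 : ℤ) else 0) := by
    simp only [Matrix.trace, Matrix.diag_apply]
    refine Finset.sum_le_sum fun a _ => ?_
    rw [Matrix.mul_apply]
    refine Finset.sum_le_sum fun a' _ => ?_
    exact mul_le_mul (gram_le col s t a a') (gram_le col s t a' a) (hnn _ _)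
      (Finset.sum_nonneg fun _ _ => Finset.sum_nonneg fun _ _ => by positivity)
  refine h1.trans ?_
  have h2 : ∀ a a' : {S // S ∈ Lv (cc col) s t},
      (∑ v1 ∈ paths m, ∑ v2 ∈ paths m, if Jn a.1 v1 a'.1 v2 then (1 : ℤ) else 0) *
        (∑ v3 ∈ paths m, ∑ v4 ∈ paths m, if Jn a'.1 v3 a.1 v4 then (1 : ℤ) else 0) =
      ∑ v1 ∈ paths m, ∑ v2 ∈ paths m, ∑ v3 ∈ paths m, ∑ v4 ∈ paths m,
        (if Jn a.1 v1 a'.1 v2 ∧ Jn a'.1 v3 a.1 v4 then (1 : ℤ) else 0) := by
    intro a a'
    simp only [Finset.sum_mul]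
    refine Finset.sum_congr rfl fun v1 _ => Finset.sum_congr rfl fun v2 _ => ?_
    rw [Finset.mul_sum]
    refine Finset.sum_congr rfl fun v3 _ => ?_
    rw [Finset.mul_sum]
    refine Finset.sum_congr rfl fun v4 _ => ?_
    by_cases h1 : Jn a.1 v1 a'.1 v2 <;> by_cases h2 : Jn a'.1 v3 a.1 v4 <;> simp [h1, h2]
  simp only [h2]
  -- move the sums over `a`, `a'` inside
  have h3 : ∑ a : {S // S ∈ Lv (cc col) s t}, ∑ a' : {S // S ∈ Lv (cc col) s t},
      ∑ v1 ∈ paths m, ∑ v2 ∈ paths m, ∑ v3 ∈ paths m, ∑ v4 ∈ paths m,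
        (if Jn a.1 v1 a'.1 v2 ∧ Jn a'.1 v3 a.1 v4 then (1 : ℤ) else 0) =
      ∑ v1 ∈ paths m, ∑ v2 ∈ paths m, ∑ v3 ∈ paths m, ∑ v4 ∈ paths m,
      ∑ a : {S // S ∈ Lv (cc col) s t}, ∑ a' : {S // S ∈ Lv (cc col) s t},
        (if Jn a.1 v1 a'.1 v2 ∧ Jn a'.1 v3 a.1 v4 then (1 : ℤ) else 0) := by
    simp only [Finset.sum_comm (s := (Finset.univ : Finset {S // S ∈ Lv (cc col) s t}))
      (t := paths m)]
  rw [h3]
  refine Finset.sum_le_sum fun v1 _ => Finset.sum_le_sum fun v2 _ =>
    Finset.sum_le_sum fun v3 _ => Finset.sum_le_sum fun v4 _ => ?_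
  by_cases hc : Cmp v1 v2 v3 v4
  · rw [if_pos hc]
    have h4 : ∀ a : {S // S ∈ Lv (cc col) s t},
        ∑ a' : {S // S ∈ Lv (cc col) s t},
          (if Jn a.1 v1 a'.1 v2 ∧ Jn a'.1 v3 a.1 v4 then (1 : ℤ) else 0) ≤
        if Disjoint (edges v1 ∪ edges v4) a.1 ∧ edges v2 \ edges v1 ⊆ a.1 then (1 : ℤ) else 0 := by
      intro a
      by_cases h : Disjoint (edges v1 ∪ edges v4) a.1 ∧ edges v2 \ edges v1 ⊆ a.1
      · rw [if_pos h, Finset.sum_boole]
        have : (Finset.univ.filter fun a' : {S // S ∈ Lv (cc col) s t} =>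
            Jn a.1 v1 a'.1 v2 ∧ Jn a'.1 v3 a.1 v4).card ≤ 1 := by
          rw [Finset.card_le_one]
          intro x hx y hy
          simp only [Finset.mem_filter, Finset.mem_univ, true_and] at hx hy
          exact Subtype.ext (Jn_unique hx.1 hy.1)
        exact_mod_cast this
      · rw [if_neg h]
        apply le_of_eq
        apply Finset.sum_eq_zero
        intro a' _
        rw [if_neg]
        rintro ⟨h1, h2⟩
        exact h (cond_of_Jn h1 h2)
    refine (Finset.sum_le_sum fun a _ => h4 a).trans (le_of_eq ?_)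
    rw [Finset.card_filter]
    push_cast
    exact Finset.sum_coe_sort (Lv (cc col) s t) (fun S =>
      if Disjoint (edges v1 ∪ edges v4) S ∧ edges v2 \ edges v1 ⊆ S then (1 : ℤ) else 0)
  · rw [if_neg hc]
    apply le_of_eq
    apply Finset.sum_eq_zero
    intro a _
    apply Finset.sum_eq_zero
    intro a' _
    rw [if_neg]
    rintro ⟨h1, h2⟩
    exact hc (cmp_of_Jn h1 h2)

/-- cardinality of the part of a path outside another one -/
theorem card_sdiff_filter (v w : Fin (m + 2) → Fin (m + 1)) (p : XX m → Prop) [DecidablePred p]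
    (q : Fin (m + 1) → Prop) [DecidablePred q] (hpq : ∀ i, p (edge v i) ↔ q i) :
    ((edges v \ edges w).filter p).card =
      ((Finset.univ.filter (fun i => edge v i ≠ edge w i)).filter q).card := by
  have : (edges v \ edges w).filter p =
      ((Finset.univ.filter (fun i => edge v i ≠ edge w i)).filter q).image (edge v) := by
    ext x
    simp only [Finset.mem_filter, Finset.mem_sdiff, Finset.mem_image, Finset.mem_univ, true_and]
    constructor
    · rintro ⟨⟨h1, h2⟩, h3⟩
      have h4 := mem_edges.mp h1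
      refine ⟨x.1, ⟨?_, ?_⟩, h4⟩
      · intro h5
        rw [h4] at h5
        exact h2 (mem_edges.mpr h5.symm)
      · rw [← hpq, h4]; exact h3
    · rintro ⟨i, ⟨h1, h2⟩, rfl⟩
      refine ⟨⟨edge_mem_edges _ _, ?_⟩, (hpq i).mpr h2⟩
      rw [edge_mem_edges_iff]
      exact h1
  rw [this, Finset.card_image_of_injective _ (edge_injective v)]

theorem card_union_filter (v w : Fin (m + 2) → Fin (m + 1)) (p : XX m → Prop) [DecidablePred p]
    (q : Fin (m + 1) → Prop) [DecidablePred q] (hpq : ∀ u : Fin (m + 2) → Fin (m + 1),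
      ∀ i, p (edge u i) ↔ q i) :
    ((edges v ∪ edges w).filter p).card =
      (Finset.univ.filter q).card +
      ((Finset.univ.filter (fun i => edge w i ≠ edge v i)).filter q).card := by
  have h1 : (edges v ∪ edges w).filter p = (edges v).filter p ∪ (edges w \ edges v).filter p := by
    rw [← Finset.filter_union, Finset.union_sdiff_self_eq_union]
  rw [h1, Finset.card_union_of_disjoint, card_sdiff_filter w v p q (hpq w)]
  · congr 1
    unfold edges
    rw [Finset.filter_image, Finset.card_image_of_injective _ (edge_injective v)]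
    congr 1
    ext i
    simp [hpq]
  · exact Finset.disjoint_filter_filter Finset.disjoint_sdiff

end Upper

end Crest.Agent.S0504
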