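import Mathlib
import Crest.Agent.S0504P6

/-!
Weighted form of the upper bound, and its evaluation with the transfer matrices.
-/

set_option autoImplicit false
set_option linter.unusedSectionVars false

namespace Crest.Agent.S0504

open Matrix

section Weighted

variable {m : ℕ} (col : Fin (m + 1) → Prop) [DecidablePred col]

theorem prod_ite_const (D : Finset (Fin (m + 1))) (x y : ℝ) :
    ∏ i ∈ D, (if col i then x else y) =
      x ^ (D.filter col).card * y ^ (D.filter (fun i => ¬ col i)).card := by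
  rw [Finset.prod_ite, Finset.prod_const, Finset.prod_const]

theorem count_le_prod (s t : ℕ) (AY BY AZ BZ : ℝ)
    (hY1 : 3 * (m + 1) < nY (cc col)) (hY2 : 3 * (m + 1) ≤ s) (hY3 : s ≤ nY (cc col))
    (hAY : (nY (cc col) : ℝ) - s ≤ AY * ((nY (cc col) : ℝ) - (3 * (m + 1) : ℕ)))
    (hBY : (s : ℝ) ≤ BY * ((nY (cc col) : ℝ) - (3 * (m + 1) : ℕ)))
    (hZ1 : 3 * (m + 1) < nZ (cc col)) (hZ2 : 3 * (m + 1) ≤ t) (hZ3 : t ≤ nZ (cc col))
    (hAZ : (nZ (cc col) : ℝ) - t ≤ AZ * ((nZ (cc col) : ℝ) - (3 * (m + 1) : ℕ)))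
    (hBZ : (t : ℝ) ≤ BZ * ((nZ (cc col) : ℝ) - (3 * (m + 1) : ℕ)))
    (v1 v2 v3 v4 : Fin (m + 2) → Fin (m + 1)) (hc : Cmp v1 v2 v3 v4) :
    (((Lv (cc col) s t).filter (fun S => Disjoint (edges v1 ∪ edges v4) S ∧
            edges v2 \ edges v1 ⊆ S)).card : ℝ) ≤
      ((nY (cc col)).choose s * (nZ (cc col)).choose t) *
        ∏ i, ((if col i then AY else AZ) *
          ((if edge v4 i ≠ edge v1 i then (if col i then AY else AZ) else 1) *
          (if edge v2 i ≠ edge v1 i then (if col i then BY else BZ) else 1))) := by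
  have hdisj : Disjoint (edges v1 ∪ edges v4) (edges v2 \ edges v1) := by
    rw [Finset.disjoint_left]
    intro x hx hx'
    rw [Finset.mem_sdiff] at hx'
    rcases Finset.mem_union.mp hx with h | h
    · exact hx'.2 h
    · have h2 := mem_edges.mp hx'.1
      have h4 := mem_edges.mp h
      rcases hc x.1 with ⟨h5, h6⟩ | ⟨h5, h6⟩
      · apply hx'.2
        rw [mem_edges, h5, h2]
      · apply hx'.2
        rw [mem_edges, h5, h4]
  have h1 := count_upper (cc col) s t (edges v1 ∪ edges v4) (edges v2 \ edges v1) hdisj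
  have hqY : ∀ u : Fin (m + 2) → Fin (m + 1), ∀ i, cc col (edge u i) ↔ col i := fun u i => Iff.rfl
  have hqZ : ∀ u : Fin (m + 2) → Fin (m + 1), ∀ i, ¬ cc col (edge u i) ↔ ¬ col i :=
    fun u i => Iff.rfl
  rw [card_union_filter v1 v4 (cc col) col hqY, card_sdiff_filter v2 v1 (cc col) col (hqY v2),
    card_union_filter v1 v4 (fun x => ¬ cc col x) (fun i => ¬ col i) hqZ,
    card_sdiff_filter v2 v1 (fun x => ¬ cc col x) (fun i => ¬ col i) (hqZ v2)] at h1
  set D4 := Finset.univ.filter (fun i => edge v4 i ≠ edge v1 i) with hD4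
  set D2 := Finset.univ.filter (fun i => edge v2 i ≠ edge v1 i) with hD2
  have hle : ∀ D : Finset (Fin (m + 1)), D.card ≤ m + 1 := fun D => by
    simpa using Finset.card_le_univ D
  have h2 := choose_contain_upper (nY (cc col)) s (3 * (m + 1)) hY1 hY2 hY3 AY BY hAY hBY
    ((Finset.univ.filter col).card + (D4.filter col).card) (D2.filter col).card (by
      have := hle (Finset.univ.filter col)
      have := hle (D4.filter col)
      have := hle (D2.filter col)
      omega)
  have h3 := choose_contain_upper (nZ (cc col)) t (3 * (m + 1)) hZ1 hZ2 hZ3 AZ BZ hAZ hBZ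
    ((Finset.univ.filter (fun i => ¬ col i)).card + (D4.filter (fun i => ¬ col i)).card)
    (D2.filter (fun i => ¬ col i)).card (by
      have := hle (Finset.univ.filter (fun i => ¬ col i))
      have := hle (D4.filter (fun i => ¬ col i))
      have := hle (D2.filter (fun i => ¬ col i))
      omega)
  have h4 : (∏ i, ((if col i then AY else AZ) *
          ((if edge v4 i ≠ edge v1 i then (if col i then AY else AZ) else 1) *
          (if edge v2 i ≠ edge v1 i then (if col i then BY else BZ) else 1)))) =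
      (AY ^ (Finset.univ.filter col).card * AZ ^ (Finset.univ.filter (fun i => ¬ col i)).card) *
      ((AY ^ (D4.filter col).card * AZ ^ (D4.filter (fun i => ¬ col i)).card) *
      (BY ^ (D2.filter col).card * BZ ^ (D2.filter (fun i => ¬ col i)).card)) := by
    rw [Finset.prod_mul_distrib, Finset.prod_mul_distrib, prod_ite_const col Finset.univ,
      ← Finset.prod_filter, ← Finset.prod_filter, prod_ite_const, prod_ite_const]
  rw [h4]
  have h1' := (Nat.cast_le (α := ℝ)).mpr h1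
  rw [Nat.cast_mul] at h1'
  refine h1'.trans ?_
  refine (mul_le_mul h2 h3 (Nat.cast_nonneg _) ((Nat.cast_nonneg _).trans h2)).trans (le_of_eq ?_)
  rw [pow_add, pow_add]
  ring

theorem prod_le_weights (AY BY AZ BZ : ℝ) (hAY : 0 ≤ AY) (hBY : 0 ≤ BY) (hAZ : 0 ≤ AZ)
    (hBZ : 0 ≤ BZ) (hY : 1 ≤ AY + BY) (hZ : 1 ≤ AZ + BZ)
    (v1 v2 v3 v4 : Fin (m + 2) → Fin (m + 1)) (hc : Cmp v1 v2 v3 v4) :
    ∏ i, ((if col i then AY else AZ) *
          ((if edge v4 i ≠ edge v1 i then (if col i then AY else AZ) else 1) *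
          (if edge v2 i ≠ edge v1 i then (if col i then BY else BZ) else 1))) ≤
    ∏ i, ((if col i then AY else AZ) ^ 2 *
        (if edge v1 i = edge v2 i ∧ edge v3 i = edge v4 i then 1 else 0) +
      (if col i then AY else AZ) * (if col i then BY else BZ) *
        (if edge v1 i = edge v4 i ∧ edge v2 i = edge v3 i then 1 else 0)) := by
  apply Finset.prod_le_prod
  · intro i _
    positivity
  · intro i _
    have key : ∀ A B : ℝ, 0 ≤ A → 0 ≤ B → 1 ≤ A + B →
      A * ((if edge v4 i ≠ edge v1 i then A else 1) * (if edge v2 i ≠ edge v1 i then B else 1)) ≤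
      A ^ 2 * (if edge v1 i = edge v2 i ∧ edge v3 i = edge v4 i then 1 else 0) +
      A * B * (if edge v1 i = edge v4 i ∧ edge v2 i = edge v3 i then 1 else 0) := by
      intro A B hA hB hAB
      rcases hc i with ⟨h1, h2⟩ | ⟨h1, h2⟩
      · rw [if_pos (⟨h1, h2⟩ : edge v1 i = edge v2 i ∧ edge v3 i = edge v4 i)]
        rw [if_neg (by rw [h1]; simp : ¬ edge v2 i ≠ edge v1 i)]
        by_cases h3 : edge v4 i = edge v1 i
        · rw [if_neg (by simpa using h3 : ¬ edge v4 i ≠ edge v1 i)]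
          rw [if_pos (⟨h3.symm, by rw [h2, ← h1, h3]⟩ : edge v1 i = edge v4 i ∧ edge v2 i = edge v3 i)]
          nlinarith
        · rw [if_pos (by simpa using h3 : edge v4 i ≠ edge v1 i)]
          have : 0 ≤ A * B * (if edge v1 i = edge v4 i ∧ edge v2 i = edge v3 i then 1 else 0) := by
            positivity
          nlinarith
      · rw [if_pos (⟨h1, h2⟩ : edge v1 i = edge v4 i ∧ edge v2 i = edge v3 i)]
        rw [if_neg (by rw [h1]; simp : ¬ edge v4 i ≠ edge v1 i)]
        by_cases h3 : edge v2 i = edge v1 i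
        · rw [if_neg (by simpa using h3 : ¬ edge v2 i ≠ edge v1 i)]
          rw [if_pos (⟨h3.symm, by rw [← h2, h3, h1]⟩ : edge v1 i = edge v2 i ∧ edge v3 i = edge v4 i)]
          nlinarith
        · rw [if_pos (by simpa using h3 : edge v2 i ≠ edge v1 i)]
          have : 0 ≤ A ^ 2 * (if edge v1 i = edge v2 i ∧ edge v3 i = edge v4 i then (1 : ℝ) else 0) := by
            positivity
          nlinarith
    by_cases hi : col i
    · simpa [hi] using key AY BY hAY hBY hY
    · simpa [hi] using key AZ BZ hAZ hBZ hZ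

/-- Conversion of a quadruple sum over paths to a single sum. -/
theorem quad_sum (g : (Fin (m + 2) → Fin (m + 1) × Fin (m + 1) × Fin (m + 1) × Fin (m + 1)) → ℝ) :
    ∑ v1 ∈ paths m, ∑ v2 ∈ paths m, ∑ v3 ∈ paths m, ∑ v4 ∈ paths m,
      g (fun i => (v1 i, v2 i, v3 i, v4 i)) =
    ∑ w : Fin (m + 2) → Fin (m + 1) × Fin (m + 1) × Fin (m + 1) × Fin (m + 1),
      if w 0 = (0, 0, 0, 0) ∧ w (Fin.last (m + 1)) = (0, 0, 0, 0) then g w else 0 := by
  let e : ((Fin (m + 2) → Fin (m + 1)) × (Fin (m + 2) → Fin (m + 1)) × (Fin (m + 2) → Fin (m + 1)) ×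
      (Fin (m + 2) → Fin (m + 1))) ≃
      (Fin (m + 2) → Fin (m + 1) × Fin (m + 1) × Fin (m + 1) × Fin (m + 1)) :=
    { toFun := fun v i => (v.1 i, v.2.1 i, v.2.2.1 i, v.2.2.2 i)
      invFun := fun w => (fun i => (w i).1, fun i => (w i).2.1, fun i => (w i).2.2.1,
        fun i => (w i).2.2.2)
      left_inv := fun v => rfl
      right_inv := fun w => rfl }
  rw [← e.sum_comp, Fintype.sum_prod_type]
  simp only [Fintype.sum_prod_type]
  unfold paths
  rw [Finset.sum_filter]
  refine Finset.sum_congr rfl fun v1 _ => ?_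
  split_ifs with h1
  · rw [Finset.sum_filter]
    refine Finset.sum_congr rfl fun v2 _ => ?_
    split_ifs with h2
    · rw [Finset.sum_filter]
      refine Finset.sum_congr rfl fun v3 _ => ?_
      split_ifs with h3
      · rw [Finset.sum_filter]
        refine Finset.sum_congr rfl fun v4 _ => ?_
        by_cases h4 : v4 0 = 0 ∧ v4 (Fin.last (m + 1)) = 0
        · rw [if_pos h4, if_pos]
          · rfl
          · simp [e, h1, h2, h3, h4]
        · rw [if_neg h4, if_neg]
          intro h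
          apply h4
          simp only [e, Equiv.coe_fn_mk, Prod.mk.injEq] at h
          exact ⟨h.1.2.2.2, h.2.2.2.2⟩
      · symm
        apply Finset.sum_eq_zero
        intro v4 _
        rw [if_neg]
        intro h
        apply h3
        simp only [e, Equiv.coe_fn_mk, Prod.mk.injEq] at h
        exact ⟨h.1.2.2.1, h.2.2.2.1⟩
    · symm
      apply Finset.sum_eq_zero
      intro v3 _
      apply Finset.sum_eq_zero
      intro v4 _
      rw [if_neg]
      intro h
      apply h2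
      simp only [e, Equiv.coe_fn_mk, Prod.mk.injEq] at h
      exact ⟨h.1.2.1, h.2.2.1⟩
  · symm
    apply Finset.sum_eq_zero
    intro v2 _
    apply Finset.sum_eq_zero
    intro v3 _
    apply Finset.sum_eq_zero
    intro v4 _
    rw [if_neg]
    intro h
    apply h1
    simp only [e, Equiv.coe_fn_mk, Prod.mk.injEq] at h
    exact ⟨h.1.1, h.2.1⟩

/-- Evaluation of the weighted quadruple sum. -/
theorem weighted_sum_le (A r : Fin (m + 1) → ℝ) (hr : ∀ i, 0 ≤ r i) (G : ℕ → ℝ) (H : ℝ)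
    (hG : ∀ i : Fin (m + 1), r i * G (i + 1) = G i) (hlast : G (m + 1) = 1) (hG0 : G 0 = 1)
    (hG1 : ∀ i ≤ m + 1, 1 ≤ G i) (hGH : ∀ i ≤ m + 1, G i ≤ H) :
    ∑ v1 ∈ paths m, ∑ v2 ∈ paths m, ∑ v3 ∈ paths m, ∑ v4 ∈ paths m,
      ∏ i, (A i ^ 2 * (if edge v1 i = edge v2 i ∧ edge v3 i = edge v4 i then 1 else 0) +
        A i * (A i * r i) * (if edge v1 i = edge v4 i ∧ edge v2 i = edge v3 i then 1 else 0)) ≤
    (∏ i, A i ^ 2) * (2 * (((m + 1 : ℕ) : ℝ) ^ 2 * (1 + H / ((m + 1 : ℕ) : ℝ))) ^ m) := by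
  obtain ⟨α, β, hα, hβ, hα', hβ', hprod⟩ := transfer (ι := Fin (m + 1)) 0 H (by simp) m r G hr hG
    hlast hG1 hGH
  rw [hG0, one_mul] at hβ'
  rw [Fintype.card_fin] at hα' hβ'
  have h1 := hprod (0, 0, 0, 0)
  rw [list_prod_entry] at h1
  have h2 : ∀ v1 v2 v3 v4 : Fin (m + 2) → Fin (m + 1),
      ∏ i, (A i ^ 2 * (if edge v1 i = edge v2 i ∧ edge v3 i = edge v4 i then 1 else 0) +
        A i * (A i * r i) * (if edge v1 i = edge v4 i ∧ edge v2 i = edge v3 i then 1 else 0)) =
      (fun w : Fin (m + 2) → Fin (m + 1) × Fin (m + 1) × Fin (m + 1) × Fin (m + 1) =>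
        (∏ i, A i ^ 2) * ∏ i : Fin (m + 1), Dm (r i) (w i.castSucc) (w i.succ))
        (fun i => (v1 i, v2 i, v3 i, v4 i)) := by
    intro v1 v2 v3 v4
    simp only
    rw [← Finset.prod_mul_distrib]
    refine Finset.prod_congr rfl fun i _ => ?_
    unfold Dm
    have e1 : (edge v1 i = edge v2 i ∧ edge v3 i = edge v4 i) ↔
        (pA (v1 i.castSucc, v2 i.castSucc, v3 i.castSucc, v4 i.castSucc) ∧
          pA (v1 i.succ, v2 i.succ, v3 i.succ, v4 i.succ)) := by
      simp only [edge, pA, Prod.mk.injEq, true_and]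
      tauto
    have e2 : (edge v1 i = edge v4 i ∧ edge v2 i = edge v3 i) ↔
        (pB (v1 i.castSucc, v2 i.castSucc, v3 i.castSucc, v4 i.castSucc) ∧
          pB (v1 i.succ, v2 i.succ, v3 i.succ, v4 i.succ)) := by
      simp only [edge, pB, Prod.mk.injEq, true_and]
      tauto
    simp only [e1, e2]
    ring
  have h5 := quad_sum (fun w : Fin (m + 2) → Fin (m + 1) × Fin (m + 1) × Fin (m + 1) × Fin (m + 1) =>
        (∏ i, A i ^ 2) * ∏ i : Fin (m + 1), Dm (r i) (w i.castSucc) (w i.succ))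
  refine (le_of_eq ((Finset.sum_congr rfl fun v1 _ => Finset.sum_congr rfl fun v2 _ =>
    Finset.sum_congr rfl fun v3 _ => Finset.sum_congr rfl fun v4 _ =>
      h2 v1 v2 v3 v4).trans h5)).trans ?_
  have h3 : ∀ w : Fin (m + 2) → Fin (m + 1) × Fin (m + 1) × Fin (m + 1) × Fin (m + 1),
      (if w 0 = (0, 0, 0, 0) ∧ w (Fin.last (m + 1)) = (0, 0, 0, 0) then
        (∏ i, A i ^ 2) * ∏ i : Fin (m + 1), Dm (r i) (w i.castSucc) (w i.succ) else 0) =
      (∏ i, A i ^ 2) * (if w 0 = (0, 0, 0, 0) ∧ w (Fin.last (m + 1)) = (0, 0, 0, 0) then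
        ∏ i : Fin (m + 1), Dm (r i) (w i.castSucc) (w i.succ) else 0) := by
    intro w
    split_ifs <;> simp
  simp only [h3]
  rw [← Finset.mul_sum]
  have h4 : (0 : ℝ) ≤ ∏ i, A i ^ 2 := Finset.prod_nonneg fun i _ => sq_nonneg _
  refine mul_le_mul_of_nonneg_left ?_ h4
  refine (le_of_eq h1).trans ?_
  have hA : pA ((0 : Fin (m + 1)), (0 : Fin (m + 1)), (0 : Fin (m + 1)), (0 : Fin (m + 1))) :=
    ⟨rfl, rfl⟩
  have hB : pB ((0 : Fin (m + 1)), (0 : Fin (m + 1)), (0 : Fin (m + 1)), (0 : Fin (m + 1))) :=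
    ⟨rfl, rfl⟩
  rw [if_pos hA, if_pos hB]
  linarith

end Weighted

end Crest.Agent.S0504
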