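import Mathlib
import Crest.Agent.S0504P7

/-!
The lower bound on the rank of the multiplication matrix of the iterated matrix product.
-/

set_option autoImplicit false
set_option linter.unusedSectionVars false

namespace Crest.Agent.S0504

open Matrix

section RankLower

variable {m : ℕ} (col : Fin (m + 1) → Prop) [DecidablePred col]

theorem trace_upper (s t : ℕ) (x0 z0 e : ℝ) (hx0 : 0 < x0) (hx1 : x0 < 1) (hz0 : 0 < z0)
    (hz1 : z0 < 1) (he : 0 ≤ e)
    (hY1 : 3 * (m + 1) < nY (cc col)) (hY2 : 3 * (m + 1) ≤ s) (hY3 : s ≤ nY (cc col))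
    (hAY : (nY (cc col) : ℝ) - s ≤ ((1 + e) * x0) * ((nY (cc col) : ℝ) - (3 * (m + 1) : ℕ)))
    (hBY : (s : ℝ) ≤ ((1 + e) * (1 - x0)) * ((nY (cc col) : ℝ) - (3 * (m + 1) : ℕ)))
    (hZ1 : 3 * (m + 1) < nZ (cc col)) (hZ2 : 3 * (m + 1) ≤ t) (hZ3 : t ≤ nZ (cc col))
    (hAZ : (nZ (cc col) : ℝ) - t ≤ ((1 + e) * z0) * ((nZ (cc col) : ℝ) - (3 * (m + 1) : ℕ)))
    (hBZ : (t : ℝ) ≤ ((1 + e) * (1 - z0)) * ((nZ (cc col) : ℝ) - (3 * (m + 1) : ℕ)))
    (G : ℕ → ℝ) (H : ℝ)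
    (hG : ∀ i : Fin (m + 1), (if col i then (1 - x0) / x0 else (1 - z0) / z0) * G (i + 1) = G i)
    (hlast : G (m + 1) = 1) (hG0 : G 0 = 1)
    (hG1 : ∀ i ≤ m + 1, 1 ≤ G i) (hGH : ∀ i ≤ m + 1, G i ≤ H) :
    ((((M0 col s t * (M0 col s t)ᵀ) * (M0 col s t * (M0 col s t)ᵀ)).trace : ℤ) : ℝ) ≤
      ((nY (cc col)).choose s * (nZ (cc col)).choose t : ℝ) *
      (((1 + e) ^ (2 * (m + 1)) * (x0 ^ kY col * z0 ^ kZ col) ^ 2) *
        (2 * (((m + 1 : ℕ) : ℝ) ^ 2 * (1 + H / ((m + 1 : ℕ) : ℝ))) ^ m)) := by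
  set W : ℝ := ((nY (cc col)).choose s * (nZ (cc col)).choose t : ℝ) with hW
  have hW0 : 0 ≤ W := by positivity
  have h1 := trace_le_count col s t
  have h1' := (Int.cast_le (R := ℝ)).mpr h1
  push_cast at h1'
  have hx1' : 0 < 1 - x0 := by linarith
  have hz1' : 0 < 1 - z0 := by linarith
  set A : Fin (m + 1) → ℝ := fun i => if col i then (1 + e) * x0 else (1 + e) * z0 with hA
  set r : Fin (m + 1) → ℝ := fun i => if col i then (1 - x0) / x0 else (1 - z0) / z0 with hr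
  have hr0 : ∀ i, 0 ≤ r i := by
    intro i
    simp only [hr]
    split_ifs <;> positivity
  have h2 := weighted_sum_le A r hr0 G H hG hlast hG0 hG1 hGH
  have h3 : ∏ i, A i ^ 2 = (1 + e) ^ (2 * (m + 1)) * (x0 ^ kY col * z0 ^ kZ col) ^ 2 := by
    rw [Finset.prod_pow, hA, prod_ite_const]
    have h4 : (Finset.univ.filter col).card + (Finset.univ.filter (fun i => ¬ col i)).card =
      m + 1 := kY_add_kZ col
    have h5 : (1 + e) ^ (2 * (m + 1)) = ((1 + e) ^ (Finset.univ.filter col).card *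
        (1 + e) ^ (Finset.univ.filter (fun i => ¬ col i)).card) ^ 2 := by
      rw [← pow_add, h4, ← pow_mul, mul_comm]
    rw [h5]
    unfold kY kZ
    rw [mul_pow (1 + e) x0, mul_pow (1 + e) z0]
    ring
  rw [h3] at h2
  refine h1'.trans ?_
  have h4 : ∀ v1 v2 v3 v4 : Fin (m + 2) → Fin (m + 1),
      (if Cmp v1 v2 v3 v4 then
        (((Lv (cc col) s t).filter (fun S => Disjoint (edges v1 ∪ edges v4) S ∧
            edges v2 \ edges v1 ⊆ S)).card : ℝ) else 0) ≤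
      W * ∏ i, (A i ^ 2 * (if edge v1 i = edge v2 i ∧ edge v3 i = edge v4 i then 1 else 0) +
        A i * (A i * r i) * (if edge v1 i = edge v4 i ∧ edge v2 i = edge v3 i then 1 else 0)) := by
    intro v1 v2 v3 v4
    split_ifs with hc
    · have h5 := count_le_prod col s t ((1 + e) * x0) ((1 + e) * (1 - x0)) ((1 + e) * z0)
        ((1 + e) * (1 - z0)) hY1 hY2 hY3 hAY hBY hZ1 hZ2 hZ3 hAZ hBZ v1 v2 v3 v4 hc
      have h6 := prod_le_weights col ((1 + e) * x0) ((1 + e) * (1 - x0)) ((1 + e) * z0)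
        ((1 + e) * (1 - z0)) (by positivity) (by positivity) (by positivity) (by positivity)
        (by nlinarith) (by nlinarith) v1 v2 v3 v4 hc
      refine h5.trans ((mul_le_mul_of_nonneg_left h6 hW0).trans (le_of_eq ?_))
      congr 1
      refine Finset.prod_congr rfl fun i _ => ?_
      have h7 : A i * r i = if col i then (1 + e) * (1 - x0) else (1 + e) * (1 - z0) := by
        simp only [hA, hr]
        split_ifs
        · field_simp
        · field_simp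
      rw [h7]
    · refine mul_nonneg hW0 (Finset.prod_nonneg fun i _ => ?_)
      have : 0 ≤ A i := by simp only [hA]; split_ifs <;> positivity
      have := hr0 i
      positivity
  refine (Finset.sum_le_sum fun v1 _ => Finset.sum_le_sum fun v2 _ => Finset.sum_le_sum fun v3 _ =>
    Finset.sum_le_sum fun v4 _ => h4 v1 v2 v3 v4).trans ?_
  simp only [← Finset.mul_sum]
  exact mul_le_mul_of_nonneg_left h2 hW0

/-- Main lower bound on the rank. -/
theorem rank_lower (K : Type*) [Field K] [CharZero K] (s t : ℕ) (x0 z0 e δ : ℝ) (hx0 : 0 < x0)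
    (hx1 : x0 < 1) (hz0 : 0 < z0) (hz1 : z0 < 1) (he : 0 ≤ e) (hδ : 0 ≤ δ)
    (hY1 : 3 * (m + 1) < nY (cc col)) (hY2 : 3 * (m + 1) ≤ s)
    (hY3 : s + kY col ≤ nY (cc col))
    (hAY : (nY (cc col) : ℝ) - s ≤ ((1 + e) * x0) * ((nY (cc col) : ℝ) - (3 * (m + 1) : ℕ)))
    (hBY : (s : ℝ) ≤ ((1 + e) * (1 - x0)) * ((nY (cc col) : ℝ) - (3 * (m + 1) : ℕ)))
    (hZ1 : 3 * (m + 1) < nZ (cc col)) (hZ2 : 3 * (m + 1) ≤ t)
    (hZ3 : t + kZ col ≤ nZ (cc col))
    (hAZ : (nZ (cc col) : ℝ) - t ≤ ((1 + e) * z0) * ((nZ (cc col) : ℝ) - (3 * (m + 1) : ℕ)))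
    (hBZ : (t : ℝ) ≤ ((1 + e) * (1 - z0)) * ((nZ (cc col) : ℝ) - (3 * (m + 1) : ℕ)))
    (G : ℕ → ℝ) (H : ℝ)
    (hG : ∀ i : Fin (m + 1), (if col i then (1 - x0) / x0 else (1 - z0) / z0) * G (i + 1) = G i)
    (hlast : G (m + 1) = 1) (hG0 : G 0 = 1)
    (hG1 : ∀ i ≤ m + 1, 1 ≤ G i) (hGH : ∀ i ≤ m + 1, G i ≤ H)
    (hρ : (x0 ^ kY col * z0 ^ kZ col) * δ ≤
      (((nY (cc col) : ℝ) - s - kY col) / nY (cc col)) ^ kY col *
      (((nZ (cc col) : ℝ) - t - kZ col) / nZ (cc col)) ^ kZ col) :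
    ((nY (cc col)).choose s * (nZ (cc col)).choose t : ℝ) * δ ^ 2 ≤
      ((blk (cc col) (Crest.ArithCircuit.imm K (m + 1)) s t (s + kY col) (t + kZ col)).rank : ℝ) *
      (2 * (1 + e) ^ (2 * (m + 1)) * (1 + H / ((m + 1 : ℕ) : ℝ)) ^ m) := by
  set W : ℝ := ((nY (cc col)).choose s * (nZ (cc col)).choose t : ℝ) with hW
  have hWpos : 0 < W := by
    have h1 : 0 < (nY (cc col)).choose s := Nat.choose_pos (by omega)
    have h2 : 0 < (nZ (cc col)).choose t := Nat.choose_pos (by omega)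
    rw [hW]; positivity
  have hup := trace_upper col s t x0 z0 e hx0 hx1 hz0 hz1 he hY1 hY2 (by omega) hAY hBY hZ1 hZ2
    (by omega) hAZ hBZ G H hG hlast hG0 hG1 hGH
  rw [← hW] at hup
  have hlow := trace_lower col s t
  have hlow' := (Int.cast_le (R := ℝ)).mpr hlow
  have hsur := surrogate_field (K := K) (M0 col s t)
  rw [← blk_imm] at hsur
  set R : ℝ := ((blk (cc col) (Crest.ArithCircuit.imm K (m + 1)) s t (s + kY col)
    (t + kZ col)).rank : ℝ) with hR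
  have hR0 : 0 ≤ R := Nat.cast_nonneg _
  set T1 : ℝ := (((M0 col s t * (M0 col s t)ᵀ).trace : ℤ) : ℝ) with hT1
  set T2 : ℝ := ((((M0 col s t * (M0 col s t)ᵀ) * (M0 col s t * (M0 col s t)ᵀ)).trace : ℤ) : ℝ)
    with hT2
  set Nn : ℝ := ((m + 1 : ℕ) : ℝ) with hNn
  have hNn0 : 0 < Nn := by rw [hNn]; positivity
  set q : ℝ := x0 ^ kY col * z0 ^ kZ col with hq
  have hq0 : 0 < q := by positivity
  have hH : 1 ≤ H := (hG1 0 (by omega)).trans (hGH 0 (by omega))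
  -- lower bound on T1
  have hT1' : Nn ^ m * (W * (q * δ)) ≤ T1 := by
    refine le_trans ?_ hlow'
    rw [card_paths]
    push_cast
    rw [← Nat.cast_one, ← Nat.cast_add, ← hNn]
    refine mul_le_mul_of_nonneg_left ?_ (by positivity)
    have h1 := choose_avoid_lower (nY (cc col)) s (kY col) hY3 (by omega) (kY col) le_rfl
    have h2 := choose_avoid_lower (nZ (cc col)) t (kZ col) hZ3 (by omega) (kZ col) le_rfl
    have h3 : 0 ≤ (((nY (cc col) : ℝ) - s - kY col) / nY (cc col)) := by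
      have : (s : ℝ) + kY col ≤ nY (cc col) := by exact_mod_cast hY3
      apply div_nonneg _ (Nat.cast_nonneg _)
      linarith
    have h4 : 0 ≤ (((nZ (cc col) : ℝ) - t - kZ col) / nZ (cc col)) := by
      have : (t : ℝ) + kZ col ≤ nZ (cc col) := by exact_mod_cast hZ3
      apply div_nonneg _ (Nat.cast_nonneg _)
      linarith
    calc W * (q * δ) ≤ W * ((((nY (cc col) : ℝ) - s - kY col) / nY (cc col)) ^ kY col *
          (((nZ (cc col) : ℝ) - t - kZ col) / nZ (cc col)) ^ kZ col) :=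
          mul_le_mul_of_nonneg_left hρ hWpos.le
      _ = (((nY (cc col)).choose s : ℝ) * (((nY (cc col) : ℝ) - s - kY col) / nY (cc col)) ^ kY col) *
          (((nZ (cc col)).choose t : ℝ) * (((nZ (cc col) : ℝ) - t - kZ col) / nZ (cc col)) ^ kZ col) := by
          rw [hW]; ring
      _ ≤ _ := mul_le_mul h1 h2 (by positivity) (Nat.cast_nonneg _)
  have hT1sq : (Nn ^ m * (W * (q * δ))) ^ 2 ≤ T1 ^ 2 := by
    apply pow_le_pow_left₀ _ hT1'
    positivity
  have hfin : (Nn ^ m * (W * (q * δ))) ^ 2 ≤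
      R * (W * (((1 + e) ^ (2 * (m + 1)) * q ^ 2) * (2 * (Nn ^ 2 * (1 + H / Nn)) ^ m))) :=
    hT1sq.trans (hsur.trans (mul_le_mul_of_nonneg_left hup hR0))
  have hpos : 0 < Nn ^ (2 * m) * (W * q ^ 2) := by positivity
  have hfin2 : (W * δ ^ 2) * (Nn ^ (2 * m) * (W * q ^ 2)) ≤
      (R * (2 * (1 + e) ^ (2 * (m + 1)) * (1 + H / Nn) ^ m)) * (Nn ^ (2 * m) * (W * q ^ 2)) := by
    calc (W * δ ^ 2) * (Nn ^ (2 * m) * (W * q ^ 2)) = (Nn ^ m * (W * (q * δ))) ^ 2 := by ring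
      _ ≤ _ := hfin
      _ = _ := by rw [mul_pow (Nn ^ 2), ← pow_mul]; ring
  exact le_of_mul_le_mul_right hfin2 hpos

end RankLower

end Crest.Agent.S0504
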