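import Mathlib
import Crest.Agent.S0504P10
import Crest.Agent.S0504P8

/-!
Choice of the parameters.
-/

set_option autoImplicit false
set_option linter.unusedSectionVars false

namespace Crest.Agent.S0504

open Matrix MvPolynomial Crest.ArithCircuit

/-- The balanced word. -/
def colk (n k : ℕ) (i : Fin n) : Prop := (i.val * k) / n < ((i.val + 1) * k) / n

instance (n k : ℕ) : DecidablePred (colk n k) := fun i => by unfold colk; infer_instance

theorem div_step (n k i : ℕ) (hn : 0 < n) (hk : k ≤ n) :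
    (i * k) / n ≤ ((i + 1) * k) / n ∧ ((i + 1) * k) / n ≤ (i * k) / n + 1 := by
  constructor
  · exact Nat.div_le_div_right (by nlinarith)
  · have : (i + 1) * k ≤ i * k + n := by nlinarith
    calc ((i + 1) * k) / n ≤ (i * k + n) / n := Nat.div_le_div_right this
      _ = (i * k) / n + 1 := Nat.add_div_right _ hn

theorem kY_colk (m k : ℕ) (hk : k ≤ m + 1) : kY (colk (m + 1) k) = k := by
  unfold kY
  rw [Finset.card_filter]
  have h1 : ∀ i : Fin (m + 1), (if colk (m + 1) k i then 1 else 0) =
      ((i.val + 1) * k) / (m + 1) - (i.val * k) / (m + 1) := by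
    intro i
    have h0 := div_step (m + 1) k i.val (by omega) hk
    by_cases h : colk (m + 1) k i
    · rw [if_pos h]
      unfold colk at h
      generalize ((i.val + 1) * k) / (m + 1) = a at h0 h ⊢
      generalize (i.val * k) / (m + 1) = b at h0 h ⊢
      omega
    · rw [if_neg h]
      unfold colk at h
      generalize ((i.val + 1) * k) / (m + 1) = a at h0 h ⊢
      generalize (i.val * k) / (m + 1) = b at h0 h ⊢
      omega
  simp only [h1]
  rw [Fin.sum_univ_eq_sum_range (fun i => ((i + 1) * k) / (m + 1) - (i * k) / (m + 1)) (m + 1)]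
  have h2 : ∀ j : ℕ, ∑ i ∈ Finset.range j, (((i + 1) * k) / (m + 1) - (i * k) / (m + 1)) =
      (j * k) / (m + 1) := by
    intro j
    induction j with
    | zero => simp
    | succ j ih =>
      rw [Finset.sum_range_succ, ih]
      have h0 := div_step (m + 1) k j (by omega) hk
      generalize ((j + 1) * k) / (m + 1) = a at h0 ⊢
      generalize (j * k) / (m + 1) = b at h0 ⊢
      omega
  rw [h2]
  exact Nat.mul_div_cancel_left k (by omega)

theorem kZ_colk (m k : ℕ) (hk : k ≤ m + 1) : kZ (colk (m + 1) k) = m + 1 - k := by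
  have h1 := kY_add_kZ (colk (m + 1) k)
  rw [kY_colk m k hk] at h1
  omega

/-- The potential. -/
noncomputable def Gf (lam : ℝ) (n k : ℕ) (i : ℕ) : ℝ :=
  Real.exp (2 * lam * ((i : ℝ) * k / n - ((i * k) / n : ℕ)))

theorem frac_bounds (n a : ℕ) (hn : 0 < n) :
    0 ≤ (a : ℝ) / n - ((a / n : ℕ) : ℝ) ∧ (a : ℝ) / n - ((a / n : ℕ) : ℝ) ≤ 1 := by
  have hn' : (0 : ℝ) < n := by exact_mod_cast hn
  constructor
  · have := @Nat.cast_div_le ℝ _ _ _ a n
    linarith
  · have h1 : a < n * (a / n) + n := by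
      have := Nat.div_add_mod a n
      have := Nat.mod_lt a hn
      omega
    have h2 : (a : ℝ) < n * ((a / n : ℕ) : ℝ) + n := by exact_mod_cast h1
    have h3 : (a : ℝ) / n ≤ ((a / n : ℕ) : ℝ) + 1 := by
      rw [div_le_iff₀ hn']
      linarith
    linarith

theorem Gf_bounds (lam : ℝ) (hlam : 0 ≤ lam) (n k i : ℕ) (hn : 0 < n) :
    1 ≤ Gf lam n k i ∧ Gf lam n k i ≤ Real.exp (2 * lam) := by
  have h := frac_bounds n (i * k) hn
  push_cast at h
  unfold Gf
  constructor
  · apply Real.one_le_exp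
    exact mul_nonneg (by linarith) h.1
  · apply Real.exp_le_exp.mpr
    have : 2 * lam * ((i : ℝ) * k / n - (((i * k) / n : ℕ) : ℝ)) ≤ 2 * lam * 1 :=
      mul_le_mul_of_nonneg_left h.2 (by linarith)
    linarith

theorem Gf_zero (lam : ℝ) (n k : ℕ) : Gf lam n k 0 = 1 := by
  unfold Gf
  simp

theorem Gf_last (lam : ℝ) (n k : ℕ) (hn : 0 < n) : Gf lam n k n = 1 := by
  unfold Gf
  rw [Nat.mul_div_cancel_left k hn]
  have hn' : (n : ℝ) ≠ 0 := by positivity
  have : (n : ℝ) * k / n - k = 0 := by field_simp; ring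
  rw [this, mul_zero, Real.exp_zero]

theorem Gf_step (lam : ℝ) (n k : ℕ) (hn : 0 < n) (hk : k ≤ n) (x0 z0 : ℝ)
    (hx : (1 - x0) / x0 = Real.exp (2 * lam * (1 - (k : ℝ) / n)))
    (hz : (1 - z0) / z0 = Real.exp (-(2 * lam * ((k : ℝ) / n)))) (i : Fin n) :
    (if colk n k i then (1 - x0) / x0 else (1 - z0) / z0) * Gf lam n k (i + 1) = Gf lam n k i := by
  have h := div_step n k i.val hn hk
  unfold Gf
  split_ifs with hc
  · unfold colk at hc
    have h1 : ((i.val + 1) * k) / n = (i.val * k) / n + 1 := by omega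
    rw [hx, ← Real.exp_add, h1]
    congr 1
    push_cast
    ring
  · unfold colk at hc
    have h1 : ((i.val + 1) * k) / n = (i.val * k) / n := by omega
    rw [hz, ← Real.exp_add, h1]
    congr 1
    push_cast
    ring

end Crest.Agent.S0504
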