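import Mathlib
import Crest.Agent.S0504P11

/-!
Combination of the upper and the lower bound on the rank.
-/

set_option autoImplicit false
set_option linter.unusedSectionVars false

namespace Crest.Agent.S0504

open Matrix MvPolynomial Crest.ArithCircuit

theorem hW_of {X : Type*} [Fintype X] [DecidableEq X] (c : X → Prop) [DecidablePred c]
    (s t : ℕ) (lamP lamQ : ℝ)
    (hs : Real.exp lamP * ((nY c : ℝ) - s) ≤ s + 1)
    (ht : (nZ c : ℝ) - t ≤ Real.exp lamQ * (t + 1)) (i j : ℕ) :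
    ((Lv c (s + i) (t + j)).card : ℝ) ≤
      ((nY c).choose s * (nZ c).choose t : ℝ) * Real.exp ((j : ℝ) * lamQ - (i : ℝ) * lamP) := by
  have h1 := card_Lv_le c (s + i) (t + j)
  have h1' : ((Lv c (s + i) (t + j)).card : ℝ) ≤
      ((nY c).choose (s + i) : ℝ) * ((nZ c).choose (t + j) : ℝ) := by exact_mod_cast h1
  have h2 := choose_up_p (nY c) s (Real.exp lamP) (Real.exp_pos _).le hs i
  have h3 := choose_up_q (nZ c) t (Real.exp lamQ) (Real.exp_pos _).le ht j
  have h4 : ((nY c).choose (s + i) : ℝ) ≤ ((nY c).choose s : ℝ) * Real.exp (-((i : ℝ) * lamP)) := by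
    rw [← Real.exp_nat_mul] at h2
    have h5 : ((nY c).choose (s + i) : ℝ) =
        ((nY c).choose (s + i) : ℝ) * Real.exp ((i : ℝ) * lamP) * Real.exp (-((i : ℝ) * lamP)) := by
      rw [mul_assoc, ← Real.exp_add]; simp
    rw [h5]
    exact mul_le_mul_of_nonneg_right h2 (Real.exp_pos _).le
  rw [← Real.exp_nat_mul] at h3
  refine h1'.trans ((mul_le_mul h4 h3 (Nat.cast_nonneg _) (by positivity)).trans (le_of_eq ?_))
  rw [sub_eq_add_neg, Real.exp_add]
  ring

theorem numY (n k Pe x0 NY s : ℝ) (hn : 101 ≤ n) (hk : n ≤ 2 * k)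
    (hP : 4 * (1 + Pe) ≤ n) (hPe : 1 ≤ Pe) (hx : x0 * (1 + Pe) = 1) (hNY : NY = k * n ^ 2)
    (hs1 : NY * (1 - x0) ≤ s) (hs2 : s < NY * (1 - x0) + 1) :
    0 < x0 ∧ x0 < 1 ∧ 3 * n < NY ∧ 3 * n ≤ s ∧ s + k ≤ NY ∧
    NY - s ≤ ((1 + 1 / n) * x0) * (NY - 3 * n) ∧
    s ≤ ((1 + 1 / n) * (1 - x0)) * (NY - 3 * n) ∧
    x0 * (1 - 1 / (2 * n)) ≤ (NY - s - k) / NY ∧
    Pe * (NY - s) ≤ s + 1 := by
  have hn0 : 0 < n := by linarith
  have hk1 : 1 ≤ k := by linarith
  have hx0 : 0 < x0 := by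
    by_contra h
    push Not at h
    nlinarith
  have hx1 : x0 ≤ 1 / 2 := by nlinarith
  have hxP : 1 - x0 = Pe * x0 := by linarith
  have hn2 : 101 * n ≤ n ^ 2 := by nlinarith
  have hNYge : n * n ^ 2 ≤ 2 * NY := by
    rw [hNY]
    nlinarith [sq_nonneg n]
  have hn3 : 101 * n * n ≤ n * n ^ 2 := by nlinarith
  have hNY0 : 0 < NY := by nlinarith
  have hNYx : 2 * n * (1 + k) ≤ NY * x0 := by
    have h1 : NY * x0 * (1 + Pe) = k * n ^ 2 := by rw [mul_assoc, hx, mul_one, hNY]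
    have h2 : 2 * n * (1 + k) * (1 + Pe) ≤ k * n ^ 2 := by
      have h3 : 1 + Pe ≤ n / 4 := by linarith
      calc 2 * n * (1 + k) * (1 + Pe) ≤ 2 * n * (2 * k) * (n / 4) := by
            gcongr
            linarith
        _ = k * n ^ 2 := by ring
    have h4 : 2 * n * (1 + k) * (1 + Pe) ≤ NY * x0 * (1 + Pe) := by rw [h1]; exact h2
    exact le_of_mul_le_mul_right h4 (by linarith)
  have hkn : 1 + k ≤ 2 * n * (1 + k) := by nlinarith
  have hbig : NY + 2 ≤ (1 + 1 / n) * (NY - 3 * n) := by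
    have h1 : (1 / n) * NY = k * n := by rw [hNY]; field_simp
    have h2 : (1 + 1 / n) * (NY - 3 * n) = NY + k * n - 3 * n - 3 := by
      have : (1 / n) * (3 * n) = 3 := by field_simp
      calc (1 + 1 / n) * (NY - 3 * n) = NY + (1 / n) * NY - 3 * n - (1 / n) * (3 * n) := by ring
        _ = _ := by rw [h1, this]
    rw [h2]
    nlinarith
  refine ⟨hx0, by linarith, by nlinarith, ?_, by linarith, ?_, ?_, ?_, ?_⟩
  · have : NY * (1 / 2) ≤ NY * (1 - x0) := mul_le_mul_of_nonneg_left (by linarith) hNY0.le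
    nlinarith
  · calc NY - s ≤ NY * x0 := by linarith
      _ ≤ ((1 + 1 / n) * (NY - 3 * n)) * x0 :=
        mul_le_mul_of_nonneg_right (by linarith) hx0.le
      _ = _ := by ring
  · calc s ≤ (NY + 2) * (1 - x0) := by nlinarith
      _ ≤ ((1 + 1 / n) * (NY - 3 * n)) * (1 - x0) :=
        mul_le_mul_of_nonneg_right hbig (by linarith)
      _ = _ := by ring
  · rw [le_div_iff₀ hNY0]
    have h1 : NY * x0 * (1 / (2 * n)) * (2 * n) = NY * x0 := by field_simp
    have h2 : 1 + k ≤ NY * x0 * (1 / (2 * n)) := by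
      have : (1 + k) * (2 * n) ≤ NY * x0 * (1 / (2 * n)) * (2 * n) := by
        rw [h1]; linarith
      exact le_of_mul_le_mul_right this (by linarith)
    have h3 : x0 * (1 - 1 / (2 * n)) * NY = NY * x0 - NY * x0 * (1 / (2 * n)) := by ring
    rw [h3]
    linarith
  · have h1 : NY - s ≤ NY * x0 := by linarith
    calc Pe * (NY - s) ≤ Pe * (NY * x0) := mul_le_mul_of_nonneg_left h1 (by linarith)
      _ = NY * (1 - x0) := by rw [hxP]; ring
      _ ≤ s + 1 := by linarith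

theorem numZ (n k Qe z0 NZ t : ℝ) (hn : 101 ≤ n) (hk : n ≤ 4 * k)
    (hQn : Qe ≤ n) (hQe : 1 ≤ Qe) (hz : (1 - z0) * (1 + Qe) = 1) (hNZ : NZ = k * n ^ 2)
    (ht1 : NZ * (1 - z0) ≤ t) (ht2 : t < NZ * (1 - z0) + 1) :
    0 < z0 ∧ z0 < 1 ∧ 3 * n < NZ ∧ 3 * n ≤ t ∧ t + k ≤ NZ ∧
    NZ - t ≤ ((1 + 1 / n) * z0) * (NZ - 3 * n) ∧
    t ≤ ((1 + 1 / n) * (1 - z0)) * (NZ - 3 * n) ∧
    z0 * (1 - 1 / (2 * n)) ≤ (NZ - t - k) / NZ ∧
    NZ - t ≤ Qe * (t + 1) := by
  have hn0 : 0 < n := by linarith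
  have hk1 : 1 ≤ k := by linarith
  have hz1' : 0 < 1 - z0 := by
    by_contra h
    push Not at h
    nlinarith
  have hz1 : z0 < 1 := by linarith
  have hz0 : 1 / 2 ≤ z0 := by nlinarith
  have hzQ : z0 = Qe * (1 - z0) := by linarith
  have hn2 : 101 * n ≤ n ^ 2 := by nlinarith
  have hNZge : n * n ^ 2 ≤ 4 * NZ := by
    rw [hNZ]
    nlinarith [sq_nonneg n]
  have hn3 : 101 * n * n ≤ n * n ^ 2 := by nlinarith
  have hNZ0 : 0 < NZ := by nlinarith
  have hNZz : 2 * n * (1 + k) ≤ NZ * z0 := by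
    have h1 : k * n ^ 2 * (1 / 2) ≤ NZ * z0 := by
      rw [hNZ]
      exact mul_le_mul_of_nonneg_left hz0 (by positivity)
    have h2 : 2 * n * (1 + k) ≤ k * n ^ 2 * (1 / 2) := by
      have h3 : 2 * n * (1 + k) ≤ 2 * n * (2 * k) := by gcongr; linarith
      have h4 : 2 * n * (2 * k) ≤ k * n ^ 2 * (1 / 2) := by
        have : 8 * n * k ≤ n ^ 2 * k := by
          apply mul_le_mul_of_nonneg_right _ (by linarith)
          linarith
        nlinarith
      linarith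
    linarith
  have hkn : 1 + k ≤ 2 * n * (1 + k) := by nlinarith
  have hbig : NZ + 1 + Qe ≤ (1 + 1 / n) * (NZ - 3 * n) := by
    have h1 : (1 / n) * NZ = k * n := by rw [hNZ]; field_simp
    have h2 : (1 + 1 / n) * (NZ - 3 * n) = NZ + k * n - 3 * n - 3 := by
      have : (1 / n) * (3 * n) = 3 := by field_simp
      calc (1 + 1 / n) * (NZ - 3 * n) = NZ + (1 / n) * NZ - 3 * n - (1 / n) * (3 * n) := by ring
        _ = _ := by rw [h1, this]
    rw [h2]
    have h3 : 25 * n ≤ k * n := mul_le_mul_of_nonneg_right (by linarith) hn0.le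
    linarith
  refine ⟨by linarith, hz1, by nlinarith, ?_, by linarith, ?_, ?_, ?_, ?_⟩
  · have h1 : NZ * (1 - z0) * (1 + Qe) = k * n ^ 2 := by rw [mul_assoc, hz, mul_one, hNZ]
    have h2 : 3 * n * (1 + Qe) ≤ k * n ^ 2 := by
      calc 3 * n * (1 + Qe) ≤ 3 * n * (n + n) := by gcongr; linarith
        _ = 6 * n ^ 2 := by ring
        _ ≤ k * n ^ 2 := by
          apply mul_le_mul_of_nonneg_right _ (sq_nonneg _)
          linarith
    have h4 : 3 * n * (1 + Qe) ≤ NZ * (1 - z0) * (1 + Qe) := by rw [h1]; exact h2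
    have h5 : 3 * n ≤ NZ * (1 - z0) := le_of_mul_le_mul_right h4 (by linarith)
    linarith
  · calc NZ - t ≤ NZ * z0 := by linarith
      _ ≤ ((1 + 1 / n) * (NZ - 3 * n)) * z0 :=
        mul_le_mul_of_nonneg_right (by linarith) (by linarith)
      _ = _ := by ring
  · calc t ≤ (NZ + 1 + Qe) * (1 - z0) := by linarith
      _ ≤ ((1 + 1 / n) * (NZ - 3 * n)) * (1 - z0) :=
        mul_le_mul_of_nonneg_right hbig (by linarith)
      _ = _ := by ring
  · rw [le_div_iff₀ hNZ0]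
    have h1 : NZ * z0 * (1 / (2 * n)) * (2 * n) = NZ * z0 := by field_simp
    have h2 : 1 + k ≤ NZ * z0 * (1 / (2 * n)) := by
      have : (1 + k) * (2 * n) ≤ NZ * z0 * (1 / (2 * n)) * (2 * n) := by
        rw [h1]; linarith
      exact le_of_mul_le_mul_right this (by linarith)
    have h3 : z0 * (1 - 1 / (2 * n)) * NZ = NZ * z0 - NZ * z0 * (1 / (2 * n)) := by ring
    rw [h3]
    linarith
  · have h1 : NZ - t ≤ NZ * z0 := by linarith
    calc NZ - t ≤ NZ * z0 := h1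
      _ = Qe * (NZ * (1 - z0)) := by
        calc NZ * z0 = NZ * (Qe * (1 - z0)) := by rw [← hzQ]
          _ = _ := by ring
      _ ≤ Qe * (t + 1) := mul_le_mul_of_nonneg_left (by linarith) (by linarith)

end Crest.Agent.S0504
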