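import Mathlib
import Crest.Agent.S0504P12

/-!
Combination of the upper and the lower bound on the rank.
-/

set_option autoImplicit false
set_option linter.unusedSectionVars false
set_option maxHeartbeats 1000000

namespace Crest.Agent.S0504

open Matrix MvPolynomial Crest.ArithCircuit

theorem bern (n x : ℝ) (m : ℕ) (hn : n = ((m + 1 : ℕ) : ℝ)) (hn1 : 101 ≤ n) (hx : x = 1 - 1 / (2 * n)) :
    (1 / 2 : ℝ) ≤ x ^ (m + 1) ∧ 0 ≤ x := by
  have h2n1 : 1 / (2 * n) ≤ 1 := by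
    rw [div_le_one (by linarith)]; linarith
  constructor
  · have := one_add_mul_le_pow (a := -(1 / (2 * n))) (by linarith) (m + 1)
    have h2 : 1 + ((m + 1 : ℕ) : ℝ) * -(1 / (2 * n)) = 1 / 2 := by
      rw [← hn]; field_simp; ring
    rw [h2] at this
    rw [hx, sub_eq_add_neg]
    exact this
  · rw [hx]; linarith

theorem exp_bound (n H : ℝ) (m : ℕ) (hn : n = ((m + 1 : ℕ) : ℝ)) (hH : 0 ≤ H) :
    2 * (1 + 1 / n) ^ (2 * (m + 1)) * (1 + H / n) ^ m ≤ 2 * Real.exp (2 + H) := by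
  have hn0 : 0 < n := by rw [hn]; positivity
  have h1 : (1 + 1 / n) ^ (2 * (m + 1)) ≤ Real.exp 2 := by
    calc (1 + 1 / n) ^ (2 * (m + 1)) ≤ (Real.exp (1 / n)) ^ (2 * (m + 1)) := by
          apply pow_le_pow_left₀ (by positivity)
          have := Real.add_one_le_exp (1 / n)
          linarith
      _ = Real.exp 2 := by
          rw [← Real.exp_nat_mul]
          congr 1
          push_cast
          rw [hn]
          push_cast
          field_simp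
  have h2 : (1 + H / n) ^ m ≤ Real.exp H := by
    calc (1 + H / n) ^ m ≤ (Real.exp (H / n)) ^ m := by
          apply pow_le_pow_left₀ (by positivity)
          have := Real.add_one_le_exp (H / n)
          linarith
      _ = Real.exp (m * (H / n)) := by rw [← Real.exp_nat_mul]
      _ ≤ Real.exp H := by
          apply Real.exp_le_exp.mpr
          rw [← mul_div_assoc, div_le_iff₀ hn0, hn]
          push_cast
          nlinarith [Nat.cast_nonneg (α := ℝ) m]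
  rw [Real.exp_add]
  have h3 : 0 ≤ (1 + H / n) ^ m := by positivity
  have h4 : 0 ≤ Real.exp 2 := (Real.exp_pos _).le
  calc 2 * (1 + 1 / n) ^ (2 * (m + 1)) * (1 + H / n) ^ m
      ≤ 2 * Real.exp 2 * Real.exp H := by gcongr
    _ = _ := by ring

/-- The combination, for given parameters. -/
theorem combined {K : Type*} [Field K] [CharZero K] {L B P S R : Type*}
    [Fintype L] [Fintype B] [Fintype P] [Fintype S] [Fintype R] (m k k' tau q : ℕ)
    (C : SPSPS K (Fin (m + 1) × Fin (m + 1) × Fin (m + 1)) L B P S R)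
    (hC : C.IsHomogeneous) (hout : C.output = imm K (m + 1)) (hdeg : C.degOut = m + 1)
    (hkk : k + k' = m + 1) (lam kap : ℝ) (hlam : 0 ≤ lam) (hkap : 0 ≤ kap)
    (hkapdef : kap = lam * ((k : ℝ) - k') / ((m + 1 : ℕ) : ℝ))
    (hm : 100 ≤ m) (hk : m + 1 ≤ 2 * k) (hk' : m + 1 ≤ 4 * k')
    (hP : 4 * (1 + Real.exp (lam - kap)) ≤ ((m + 1 : ℕ) : ℝ))
    (hQ : Real.exp (lam + kap) ≤ ((m + 1 : ℕ) : ℝ))
    (hlk : 0 ≤ lam - kap)
    (ha : 2 * Real.exp (-(1 / 2) * (lam - kap)) ≤ 1)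
    (hy : Real.exp (-(lam / 4)) ≤ 1 / 2) (htau0 : 0 < tau)
    (htau : ∀ d : ℕ, d < tau → (d : ℝ) * kap ≤ lam / 4)
    (hq : 2 * (k + k') < tau * q) :
    1 ≤ (C.size : ℝ) ^ 2 * ((((2 * Real.exp (-(1 / 2) * (lam - kap))) ^ tau * (k + k' + 1)) +
        (2 ^ q * Real.exp (-((k + k' : ℝ) * kap / 2)))) *
        (8 * Real.exp (2 + Real.exp (2 * lam)))) := by
  obtain ⟨n, hn⟩ : ∃ n : ℝ, n = ((m + 1 : ℕ) : ℝ) := ⟨_, rfl⟩
  rw [← hn] at hkapdef hP hQ
  have hn100 : (101 : ℝ) ≤ n := by rw [hn]; exact_mod_cast (by omega : 101 ≤ m + 1)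
  have hn0 : (0 : ℝ) < n := by linarith
  have hkr : n ≤ 2 * (k : ℝ) := by rw [hn]; exact_mod_cast hk
  have hkr' : n ≤ 4 * (k' : ℝ) := by rw [hn]; exact_mod_cast hk'
  have hkkr : (k : ℝ) + k' = n := by rw [hn]; exact_mod_cast hkk
  have hkn : kap * n = lam * ((k : ℝ) - k') := by
    rw [hkapdef]; field_simp
  have hbal : (k : ℝ) * (lam - kap) = (k' : ℝ) * (lam + kap) := by
    have : kap * ((k : ℝ) + k') = lam * ((k : ℝ) - k') := by rw [hkkr]; exact hkn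
    linarith
  have hlq : lam + kap = 2 * lam * ((k : ℝ) / n) := by
    have h1 : (lam + kap) * n = 2 * lam * k := by
      calc (lam + kap) * n = lam * n + kap * n := by ring
        _ = lam * ((k : ℝ) + k') + lam * ((k : ℝ) - k') := by rw [hkn, hkkr]
        _ = _ := by ring
    rw [← mul_div_assoc, eq_div_iff hn0.ne']
    exact h1
  have hlp : lam - kap = 2 * lam * (1 - (k : ℝ) / n) := by
    have : 2 * lam * (1 - (k : ℝ) / n) = 2 * lam - 2 * lam * ((k : ℝ) / n) := by ring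
    rw [this, ← hlq]
    ring
  have hPe1 : 1 ≤ Real.exp (lam - kap) := Real.one_le_exp hlk
  have hQe1 : 1 ≤ Real.exp (lam + kap) := Real.one_le_exp (by linarith)
  obtain ⟨Pe, hPe⟩ : ∃ Pe : ℝ, Pe = Real.exp (lam - kap) := ⟨_, rfl⟩
  obtain ⟨Qe, hQe⟩ : ∃ Qe : ℝ, Qe = Real.exp (lam + kap) := ⟨_, rfl⟩
  rw [← hPe] at hP hPe1
  rw [← hQe] at hQ hQe1
  obtain ⟨x0, hx0def⟩ : ∃ x0 : ℝ, x0 = 1 / (1 + Pe) := ⟨_, rfl⟩
  obtain ⟨z0, hz0def⟩ : ∃ z0 : ℝ, z0 = Qe / (1 + Qe) := ⟨_, rfl⟩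
  have hx0P : x0 * (1 + Pe) = 1 := by
    rw [hx0def]
    have : (1 + Pe) ≠ 0 := by positivity
    field_simp
  have hz0Q : (1 - z0) * (1 + Qe) = 1 := by
    rw [hz0def]
    have : (1 + Qe) ≠ 0 := by positivity
    field_simp
    ring
  have hkle : k ≤ m + 1 := by omega
  have hkY : kY (colk (m + 1) k) = k := kY_colk m k hkle
  have hkZ : kZ (colk (m + 1) k) = k' := by rw [kZ_colk m k hkle]; omega
  have hNY : nY (cc (colk (m + 1) k)) = k * (m + 1) ^ 2 := by rw [nY_eq, hkY]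
  have hNZ : nZ (cc (colk (m + 1) k)) = k' * (m + 1) ^ 2 := by rw [nZ_eq, hkZ]
  obtain ⟨NY, hNYdef⟩ : ∃ NY : ℕ, NY = nY (cc (colk (m + 1) k)) := ⟨_, rfl⟩
  obtain ⟨NZ, hNZdef⟩ : ∃ NZ : ℕ, NZ = nZ (cc (colk (m + 1) k)) := ⟨_, rfl⟩
  rw [← hNYdef] at hNY
  rw [← hNZdef] at hNZ
  have hNYr : (NY : ℝ) = k * n ^ 2 := by rw [hNY, hn]; push_cast; ring
  have hNZr : (NZ : ℝ) = k' * n ^ 2 := by rw [hNZ, hn]; push_cast; ring
  have hx1 : x0 ≤ 1 := by
    rw [hx0def, div_le_one (by linarith)]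
    linarith
  have hz1 : z0 ≤ 1 := by
    rw [hz0def, div_le_one (by linarith)]
    linarith
  obtain ⟨s, hs⟩ : ∃ s : ℕ, s = ⌈(NY : ℝ) * (1 - x0)⌉₊ := ⟨_, rfl⟩
  obtain ⟨t, ht⟩ : ∃ t : ℕ, t = ⌈(NZ : ℝ) * (1 - z0)⌉₊ := ⟨_, rfl⟩
  have hs1 : (NY : ℝ) * (1 - x0) ≤ s := by rw [hs]; exact Nat.le_ceil _
  have hs2 : (s : ℝ) < (NY : ℝ) * (1 - x0) + 1 := by
    rw [hs]
    exact Nat.ceil_lt_add_one (mul_nonneg (Nat.cast_nonneg _) (by linarith))
  have ht1 : (NZ : ℝ) * (1 - z0) ≤ t := by rw [ht]; exact Nat.le_ceil _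
  have ht2 : (t : ℝ) < (NZ : ℝ) * (1 - z0) + 1 := by
    rw [ht]
    exact Nat.ceil_lt_add_one (mul_nonneg (Nat.cast_nonneg _) (by linarith))
  obtain ⟨hx0, hx1', a1, a2, a3, a4, a5, a6, a7⟩ := numY n k Pe x0 NY s hn100 hkr hP hPe1 hx0P
    hNYr hs1 hs2
  obtain ⟨hz0, hz1', b1, b2, b3, b4, b5, b6, b7⟩ := numZ n k' Qe z0 NZ t hn100 hkr' hQ hQe1 hz0Q
    hNZr ht1 ht2
  have h3n : ((3 * (m + 1) : ℕ) : ℝ) = 3 * n := by rw [hn]; push_cast; ring
  have c1 : 3 * (m + 1) < NY := by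
    rw [← h3n] at a1; exact_mod_cast a1
  have c2 : 3 * (m + 1) ≤ s := by
    rw [← h3n] at a2; exact_mod_cast a2
  have c3 : s + k ≤ NY := by exact_mod_cast a3
  have c6 : 3 * (m + 1) < NZ := by
    rw [← h3n] at b1; exact_mod_cast b1
  have c7 : 3 * (m + 1) ≤ t := by
    rw [← h3n] at b2; exact_mod_cast b2
  have c8 : t + k' ≤ NZ := by exact_mod_cast b3
  rw [← h3n] at a4 a5 b4 b5
  obtain ⟨hbern, hbern0⟩ := bern n (1 - 1 / (2 * n)) m hn hn100 rfl
  have c11 : (x0 ^ k * z0 ^ k') * (1 / 2) ≤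
      (((NY : ℝ) - s - k) / NY) ^ k * (((NZ : ℝ) - t - k') / NZ) ^ k' := by
    calc (x0 ^ k * z0 ^ k') * (1 / 2) ≤ (x0 ^ k * z0 ^ k') * (1 - 1 / (2 * n)) ^ (m + 1) := by
          apply mul_le_mul_of_nonneg_left hbern
          positivity
      _ = (x0 * (1 - 1 / (2 * n))) ^ k * (z0 * (1 - 1 / (2 * n))) ^ k' := by
          rw [← hkk, pow_add, mul_pow, mul_pow]; ring
      _ ≤ _ := by
          apply mul_le_mul
          · exact pow_le_pow_left₀ (mul_nonneg hx0.le hbern0) a6 k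
          · exact pow_le_pow_left₀ (mul_nonneg hz0.le hbern0) b6 k'
          · exact pow_nonneg (mul_nonneg hz0.le hbern0) _
          · exact pow_nonneg (le_trans (mul_nonneg hx0.le hbern0) a6) _
  -- potential
  have hx : (1 - x0) / x0 = Real.exp (2 * lam * (1 - (k : ℝ) / ((m + 1 : ℕ) : ℝ))) := by
    rw [← hn, ← hlp, ← hPe, div_eq_iff hx0.ne']
    linarith
  have hz : (1 - z0) / z0 = Real.exp (-(2 * lam * ((k : ℝ) / ((m + 1 : ℕ) : ℝ)))) := by
    rw [← hn, ← hlq, Real.exp_neg, ← hQe]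
    have hQpos : 0 < Qe := by linarith
    rw [div_eq_iff hz0.ne', eq_comm, inv_mul_eq_iff_eq_mul₀ hQpos.ne']
    linarith
  subst hNYdef
  subst hNZdef
  have hlow := rank_lower (m := m) (colk (m + 1) k) K s t x0 z0 (1 / n) (1 / 2) hx0 hx1'
    hz0 hz1' (by positivity) (by norm_num) c1 c2 (by rw [hkY]; exact c3) a4 a5 c6 c7
    (by rw [hkZ]; exact c8) b4 b5
    (Gf lam (m + 1) k) (Real.exp (2 * lam))
    (fun i => by
      have := Gf_step lam (m + 1) k (by omega) hkle x0 z0 hx hz i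
      exact this)
    (Gf_last lam (m + 1) k (by omega)) (Gf_zero lam (m + 1) k)
    (fun i _ => (Gf_bounds lam hlam (m + 1) k i (by omega)).1)
    (fun i _ => (Gf_bounds lam hlam (m + 1) k i (by omega)).2)
    (by rw [hkY, hkZ]; exact c11)
  rw [hkY, hkZ, ← hout, ← hn] at hlow
  obtain ⟨W, hWdef⟩ : ∃ W : ℝ, W = ((nY (cc (colk (m + 1) k))).choose s *
    (nZ (cc (colk (m + 1) k))).choose t : ℝ) := ⟨_, rfl⟩
  have hWpos : 0 < W := by
    have h1 : 0 < (nY (cc (colk (m + 1) k))).choose s := Nat.choose_pos (by omega)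
    have h2 : 0 < (nZ (cc (colk (m + 1) k))).choose t := Nat.choose_pos (by omega)
    rw [hWdef]; positivity
  have hW := hW_of (cc (colk (m + 1) k)) s t (lam - kap) (lam + kap) (by
      rw [← hPe]; exact a7) (by rw [← hQe]; exact b7)
  rw [← hWdef] at hW hlow
  have hup := rank_output_le C (c := cc (colk (m + 1) k)) hC hWpos.le hW hbal hlam hkap hlk ha hy
    htau0 htau hq (hdeg.trans hkk.symm)
  obtain ⟨Bd, hBd⟩ : ∃ Bd : ℝ, Bd = (((2 * Real.exp (-(1 / 2) * (lam - kap))) ^ tau * (k + k' + 1)) +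
        (2 ^ q * Real.exp (-((k + k' : ℝ) * kap / 2)))) := ⟨_, rfl⟩
  rw [← hBd] at hup ⊢
  have hBd0 : 0 ≤ Bd := by rw [hBd]; positivity
  have hE := exp_bound n (Real.exp (2 * lam)) m hn (Real.exp_pos _).le
  have hfin : W * (1 / 2) ^ 2 ≤ ((C.size : ℝ) ^ 2 * (W * Bd)) *
      (2 * Real.exp (2 + Real.exp (2 * lam))) := by
    refine hlow.trans ?_
    exact mul_le_mul hup hE (by positivity) (by positivity)
  have hfin2 : W * 1 ≤ W * ((C.size : ℝ) ^ 2 * (Bd * (8 * Real.exp (2 + Real.exp (2 * lam))))) := by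
    calc W * 1 = 4 * (W * (1 / 2) ^ 2) := by ring
      _ ≤ 4 * (((C.size : ℝ) ^ 2 * (W * Bd)) * (2 * Real.exp (2 + Real.exp (2 * lam)))) := by
          gcongr
      _ = _ := by ring
  exact le_of_mul_le_mul_left hfin2 hWpos

end Crest.Agent.S0504
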