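import Crest.Statements.S0504
import Crest.Agent.S0504P13

set_option autoImplicit false
universe u v
open Crest Crest.LogicCS

namespace Crest.Agent.S0504

open MvPolynomial Crest.ArithCircuit in
theorem imm_hom (K : Type*) [CommSemiring K] (m : ℕ) : (imm K (m + 1)).IsHomogeneous (m + 1) := by
  rw [imm_eq]
  refine IsHomogeneous.sum _ _ _ fun v _ => ?_
  have h : (edges v).card = m + 1 := by
    unfold edges
    rw [Finset.card_image_of_injective _ (edge_injective v)]
    simp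
  rw [← prod_X_eq]
  have h2 : (∏ x ∈ edges v, (X x : MvPolynomial (XX m) K)).IsHomogeneous (∑ x ∈ edges v, 1) :=
    IsHomogeneous.prod _ _ _ fun x _ => isHomogeneous_X K x
  rw [← Finset.card_eq_sum_ones, h] at h2
  exact h2

theorem sq_big (r : ℝ) (hr : 1000 ≤ r) : 8 * (r + 1) ≤ r * r := by nlinarith

theorem quad_big (Lg : ℝ) (hLg : 1000 ≤ Lg) : 125 * Lg ≤ Real.exp (Lg / 2) := by
  have := Real.quadratic_le_exp_of_nonneg (x := Lg / 2) (by linarith)
  nlinarith

open MvPolynomial Crest.ArithCircuit in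
theorem imm_ne_zero (K : Type*) [Field K] [CharZero K] (m : ℕ) : imm K (m + 1) ≠ 0 := by
  intro h
  have h1 := mulMat_imm K m ∅ (edges (fun _ => 0))
  rw [h] at h1
  have h2 : mulMat (0 : MvPolynomial (XX m) K) ∅ (edges (fun _ => 0)) = 0 := by
    unfold mulMat
    simp
  rw [h2] at h1
  have h3 : (∑ v ∈ paths m, if Disjoint ∅ (edges v) ∧ ∅ ∪ edges v = edges (fun _ => 0)
      then (1 : ℤ) else 0) = 0 := by
    exact_mod_cast h1.symm
  have h4 := Finset.single_le_sum (f := fun v => if Disjoint ∅ (edges v) ∧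
      ∅ ∪ edges v = edges (fun _ => 0) then (1 : ℤ) else 0) (s := paths m)
      (fun v _ => by positivity) (a := fun _ => 0) (by simp [paths])
  rw [h3] at h4
  simp at h4

theorem final_numeric (n r Lg k k' h kap lam : ℝ) (u tau q : ℕ) (hLg : 1000 ≤ Lg)
    (hn : n = Real.exp Lg) (hr : r = Real.exp (Lg / 2)) (hlam : lam = Lg / 4)
    (hkk : k + k' = n) (hkap : kap = lam * h / n) (hh1 : (u : ℝ) ≤ h) (hh2 : h ≤ u + 1)
    (hu1 : (u : ℝ) ≤ r) (hu2 : r < u + 1) (htau : (u : ℝ) + 1 ≤ 5 * tau) (hq : q = 10 * (u + 1)) :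
    Real.exp (Lg * r / 200) * ((((2 * Real.exp (-(1 / 2) * (lam - kap))) ^ tau * (k + k' + 1)) +
        (2 ^ q * Real.exp (-((k + k') * kap / 2)))) * (8 * Real.exp (2 + r))) ≤ 1 := by
  have hn0 : 0 < n := by rw [hn]; exact Real.exp_pos _
  have hr0 : 0 < r := by rw [hr]; exact Real.exp_pos _
  have hrn : r * r = n := by rw [hr, hn, ← Real.exp_add]; congr 1; ring
  have hr1 : 125 * Lg ≤ r := by rw [hr]; exact quad_big Lg hLg
  have hr2 : 8 * (r + 1) ≤ r * r := sq_big r (by linarith)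
  have hX : 1000 * r ≤ Lg * r := mul_le_mul_of_nonneg_right hLg hr0.le
  have he2 : (2 : ℝ) ≤ Real.exp 1 := by
    have := Real.add_one_le_exp (1 : ℝ)
    linarith
  have he8 : (8 : ℝ) ≤ Real.exp 3 := by
    have : Real.exp 3 = Real.exp 1 ^ 3 := by rw [← Real.exp_nat_mul]; norm_num
    rw [this]
    calc (8 : ℝ) = 2 ^ 3 := by norm_num
      _ ≤ _ := pow_le_pow_left₀ (by norm_num) he2 3
  have hem1 : Real.exp (-1) ≤ 1 / 2 := by
    rw [Real.exp_neg, inv_le_comm₀ (Real.exp_pos _) (by norm_num)]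
    simpa using he2
  have hlamkap : lam / 2 ≤ lam - kap := by
    have : kap ≤ lam / 2 := by
      rw [hkap, div_le_iff₀ hn0, ← hrn]
      have h1 : h ≤ r * r / 2 := by linarith
      have h2 : 0 ≤ lam := by rw [hlam]; linarith
      calc lam * h ≤ lam * (r * r / 2) := mul_le_mul_of_nonneg_left h1 h2
        _ = lam / 2 * (r * r) := by ring
    linarith
  -- Ba
  have hBa : ((2 * Real.exp (-(1 / 2) * (lam - kap))) ^ tau * (k + k' + 1)) ≤
      Real.exp ((r / 5) * (1 - Lg / 16) + 2 * Lg) := by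
    have h1 : 2 * Real.exp (-(1 / 2) * (lam - kap)) ≤ Real.exp (1 - Lg / 16) := by
      have h0 : Real.exp (1 - Lg / 16) = Real.exp 1 * Real.exp (-(Lg / 16)) := by
        rw [← Real.exp_add, sub_eq_add_neg]
      rw [h0]
      apply mul_le_mul he2 _ (Real.exp_pos _).le (Real.exp_pos _).le
      apply Real.exp_le_exp.mpr
      rw [hlam] at hlamkap ⊢
      linarith
    have h2 : (2 * Real.exp (-(1 / 2) * (lam - kap))) ^ tau ≤ Real.exp ((r / 5) * (1 - Lg / 16)) := by
      refine (pow_le_pow_left₀ (by positivity) h1 tau).trans ?_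
      rw [← Real.exp_nat_mul]
      apply Real.exp_le_exp.mpr
      have h3 : r / 5 ≤ tau := by linarith
      have h4 : 1 - Lg / 16 ≤ 0 := by linarith
      nlinarith
    have h3 : k + k' + 1 ≤ Real.exp (2 * Lg) := by
      rw [hkk, two_mul, Real.exp_add, ← hn]
      have : 2 ≤ n := by rw [← hrn]; nlinarith
      nlinarith
    rw [Real.exp_add]
    exact mul_le_mul h2 h3 (by linarith) (Real.exp_pos _).le
  have hBb : (2 ^ q * Real.exp (-((k + k') * kap / 2))) ≤
      Real.exp (10 * (r + 1) - Lg * (r - 1) / 8) := by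
    have h1 : (2 : ℝ) ^ q ≤ Real.exp (10 * (r + 1)) := by
      calc (2 : ℝ) ^ q ≤ (Real.exp 1) ^ q := pow_le_pow_left₀ (by norm_num) he2 q
        _ = Real.exp q := by rw [← Real.exp_nat_mul]; simp
        _ ≤ _ := by
          apply Real.exp_le_exp.mpr
          rw [hq]
          push_cast
          linarith
    have h2 : (k + k') * kap = lam * h := by
      rw [hkk, hkap]; field_simp
    rw [sub_eq_add_neg, Real.exp_add]
    apply mul_le_mul h1 _ (Real.exp_pos _).le (Real.exp_pos _).le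
    apply Real.exp_le_exp.mpr
    rw [h2, hlam]
    have : r - 1 ≤ h := by linarith
    nlinarith
  have key1 : Real.exp (Lg * r / 200) * (Real.exp ((r / 5) * (1 - Lg / 16) + 2 * Lg) *
      (8 * Real.exp (2 + r))) ≤ 1 / 2 := by
    calc Real.exp (Lg * r / 200) * (Real.exp ((r / 5) * (1 - Lg / 16) + 2 * Lg) *
        (8 * Real.exp (2 + r)))
        ≤ Real.exp (Lg * r / 200) * (Real.exp ((r / 5) * (1 - Lg / 16) + 2 * Lg) *
        (Real.exp 3 * Real.exp (2 + r))) := by gcongr
      _ = Real.exp (Lg * r / 200 + ((r / 5) * (1 - Lg / 16) + 2 * Lg + (3 + (2 + r)))) := by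
          rw [← Real.exp_add, ← Real.exp_add, ← Real.exp_add]
      _ ≤ Real.exp (-1) := by
          apply Real.exp_le_exp.mpr
          nlinarith
      _ ≤ _ := hem1
  have key2 : Real.exp (Lg * r / 200) * (Real.exp (10 * (r + 1) - Lg * (r - 1) / 8) *
      (8 * Real.exp (2 + r))) ≤ 1 / 2 := by
    calc Real.exp (Lg * r / 200) * (Real.exp (10 * (r + 1) - Lg * (r - 1) / 8) *
        (8 * Real.exp (2 + r)))
        ≤ Real.exp (Lg * r / 200) * (Real.exp (10 * (r + 1) - Lg * (r - 1) / 8) *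
        (Real.exp 3 * Real.exp (2 + r))) := by gcongr
      _ = Real.exp (Lg * r / 200 + (10 * (r + 1) - Lg * (r - 1) / 8 + (3 + (2 + r)))) := by
          rw [← Real.exp_add, ← Real.exp_add, ← Real.exp_add]
      _ ≤ Real.exp (-1) := by
          apply Real.exp_le_exp.mpr
          nlinarith
      _ ≤ _ := hem1
  calc Real.exp (Lg * r / 200) * ((((2 * Real.exp (-(1 / 2) * (lam - kap))) ^ tau * (k + k' + 1)) +
        (2 ^ q * Real.exp (-((k + k') * kap / 2)))) * (8 * Real.exp (2 + r)))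
      ≤ Real.exp (Lg * r / 200) * ((Real.exp ((r / 5) * (1 - Lg / 16) + 2 * Lg) +
        Real.exp (10 * (r + 1) - Lg * (r - 1) / 8)) * (8 * Real.exp (2 + r))) := by gcongr
    _ = Real.exp (Lg * r / 200) * (Real.exp ((r / 5) * (1 - Lg / 16) + 2 * Lg) *
        (8 * Real.exp (2 + r))) + Real.exp (Lg * r / 200) *
        (Real.exp (10 * (r + 1) - Lg * (r - 1) / 8) * (8 * Real.exp (2 + r))) := by ring
    _ ≤ 1 := by linarith

/-- There is an absolute threshold n₀ such that, for every n ≥ n₀, every field K of characteristic zero, and every syntactically homogeneous depth-five sum-product circuit over K in the n³ matrix-entry variables (gates may be shared; fan-in is unrestricted; a bottom sum may read any number of leaves) whose output is the top-left entry of the ordered product of the n variable matrices of order n, the number of vertices of the circuit, leaves included, is at least n^(√n/400). -/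
theorem result :
    ∃ n₀ : ℕ, ∀ n ≥ n₀, ∀ (K : Type u) [Field K] [CharZero K]
      (L B P S R : Type v) [Fintype L] [Fintype B] [Fintype P] [Fintype S] [Fintype R]
      (C : Crest.ArithCircuit.SPSPS K (Fin n × Fin n × Fin n) L B P S R),
      C.IsHomogeneous → C.output = Crest.ArithCircuit.imm K n →
        (n : ℝ) ^ (Real.sqrt n / 400) ≤ (C.size : ℝ) := by
  refine ⟨⌈Real.exp 1000⌉₊ + 1, ?_⟩
  intro n hn K _ _ L B P S R _ _ _ _ _ C hC hout
  obtain ⟨m, rfl⟩ : ∃ m, n = m + 1 := ⟨n - 1, by omega⟩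
  have hnexp : Real.exp 1000 ≤ ((m + 1 : ℕ) : ℝ) := by
    refine (Nat.le_ceil _).trans ?_
    exact_mod_cast (by omega : ⌈Real.exp 1000⌉₊ ≤ m + 1)
  obtain ⟨N, hN⟩ : ∃ N : ℝ, N = ((m + 1 : ℕ) : ℝ) := ⟨_, rfl⟩
  rw [← hN] at hnexp ⊢
  have hN0 : 0 < N := lt_of_lt_of_le (Real.exp_pos _) hnexp
  obtain ⟨Lg, hLgdef⟩ : ∃ Lg : ℝ, Lg = Real.log N := ⟨_, rfl⟩
  have hLg : 1000 ≤ Lg := by
    rw [hLgdef, Real.le_log_iff_exp_le hN0]
    exact hnexp
  have hNexp : N = Real.exp Lg := by rw [hLgdef, Real.exp_log hN0]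
  obtain ⟨r, hr⟩ : ∃ r : ℝ, r = Real.exp (Lg / 2) := ⟨_, rfl⟩
  have hr0 : 0 < r := by rw [hr]; exact Real.exp_pos _
  have hrr : r * r = N := by rw [hr, hNexp, ← Real.exp_add]; congr 1; ring
  have hsqrt : Real.sqrt N = r := by
    rw [← hrr]; exact Real.sqrt_mul_self hr0.le
  have hr1 : 125 * Lg ≤ r := by rw [hr]; exact quad_big Lg hLg
  have hr2 : 8 * (r + 1) ≤ r * r := sq_big r (by linarith)
  obtain ⟨w, hw⟩ : ∃ w : ℕ, w = Nat.sqrt (m + 1) := ⟨_, rfl⟩
  have hw1 : w * w ≤ m + 1 := by rw [hw]; exact Nat.sqrt_le _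
  have hw2 : m + 1 < (w + 1) * (w + 1) := by rw [hw]; exact Nat.lt_succ_sqrt _
  have hw1r : (w : ℝ) * w ≤ r * r := by rw [hrr, hN]; exact_mod_cast hw1
  have hw2r : r * r < ((w : ℝ) + 1) * (w + 1) := by rw [hrr, hN]; exact_mod_cast hw2
  have hw0 : (0 : ℝ) ≤ w := Nat.cast_nonneg w
  have hwr : (w : ℝ) ≤ r := (mul_self_le_mul_self_iff hw0 hr0.le).mpr hw1r
  have hrw : r < w + 1 := lt_of_mul_self_lt_mul_self₀ (by linarith) hw2r
  have hwbig : 100000 ≤ w := by
    have : (100000 : ℝ) ≤ w := by linarith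
    exact_mod_cast this
  have hwn : 4 * w ≤ m + 1 := le_trans (Nat.mul_le_mul_right w (by omega)) hw1
  obtain ⟨k', hk'⟩ : ∃ k' : ℕ, k' = (m + 1 - w) / 2 := ⟨_, rfl⟩
  obtain ⟨k, hk⟩ : ∃ k : ℕ, k = m + 1 - k' := ⟨_, rfl⟩
  have hk'1 : 2 * k' ≤ m + 1 - w := by omega
  have hk'2 : m + 1 - w ≤ 2 * k' + 1 := by omega
  have hkk : k + k' = m + 1 := by omega
  have hh1n : w + k' ≤ k := by omega
  have hh2n : k ≤ w + 1 + k' := by omega
  have hh1 : (w : ℝ) ≤ (k : ℝ) - k' := by
    have : (w : ℝ) + k' ≤ k := by exact_mod_cast hh1n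
    linarith
  have hh2 : (k : ℝ) - k' ≤ w + 1 := by
    have : (k : ℝ) ≤ w + 1 + k' := by exact_mod_cast hh2n
    linarith
  have hkkr : (k : ℝ) + k' = N := by rw [hN]; exact_mod_cast hkk
  obtain ⟨lam, hlam⟩ : ∃ lam : ℝ, lam = Lg / 4 := ⟨_, rfl⟩
  obtain ⟨kap, hkap⟩ : ∃ kap : ℝ, kap = lam * ((k : ℝ) - k') / N := ⟨_, rfl⟩
  have hlam0 : 0 ≤ lam := by rw [hlam]; linarith
  have hkap0 : 0 ≤ kap := by
    rw [hkap]
    apply div_nonneg (mul_nonneg hlam0 _) hN0.le
    have : (0 : ℝ) ≤ w := Nat.cast_nonneg w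
    linarith
  have hkap1 : kap ≤ lam / 2 := by
    rw [hkap, div_le_iff₀ hN0, ← hrr]
    have h1 : (k : ℝ) - k' ≤ r * r / 2 := by linarith
    calc lam * ((k : ℝ) - k') ≤ lam * (r * r / 2) := mul_le_mul_of_nonneg_left h1 hlam0
      _ = lam / 2 * (r * r) := by ring
  have hexp2lam : Real.exp (2 * lam) = r := by rw [hr, hlam]; congr 1; ring
  obtain ⟨tau, htau⟩ : ∃ tau : ℕ, tau = w / 5 + 1 := ⟨_, rfl⟩
  obtain ⟨q, hq⟩ : ∃ q : ℕ, q = 10 * (w + 1) := ⟨_, rfl⟩
  have htau5 : w + 1 ≤ 5 * tau := by omega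
  have he2 : (2 : ℝ) ≤ Real.exp 1 := by
    have := Real.add_one_le_exp (1 : ℝ)
    linarith
  have hem1 : Real.exp (-1) ≤ 1 / 2 := by
    rw [Real.exp_neg, inv_le_comm₀ (Real.exp_pos _) (by norm_num)]
    simpa using he2
  have hdeg : C.degOut = m + 1 := by
    have h1 := output_hom C hC
    rw [hout] at h1
    exact h1.inj_right (imm_hom K m) (imm_ne_zero K m)
  have hcomb := combined m k k' tau q C hC hout hdeg hkk lam kap hlam0 hkap0
    (by rw [hkap, hN]) (by omega) (by omega) (by omega)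
    (by
      rw [← hN, ← hrr]
      have h1 : Real.exp (lam - kap) ≤ r := by
        rw [← hexp2lam]
        apply Real.exp_le_exp.mpr
        linarith
      linarith)
    (by
      rw [← hN, ← hrr]
      have h1 : Real.exp (lam + kap) ≤ r := by
        rw [← hexp2lam]
        apply Real.exp_le_exp.mpr
        linarith
      linarith)
    (by linarith)
    (by
      have h1 : Real.exp (-(1 / 2) * (lam - kap)) ≤ Real.exp (-1) := by
        apply Real.exp_le_exp.mpr
        rw [hlam] at hkap1 ⊢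
        linarith
      linarith)
    (by
      refine le_trans ?_ hem1
      apply Real.exp_le_exp.mpr
      rw [hlam]
      linarith)
    (by omega)
    (by
      intro d hd
      have h5 : 5 * d ≤ w := by omega
      have h5r : 5 * (d : ℝ) ≤ w := by exact_mod_cast h5
      have hd0 : (0 : ℝ) ≤ d := Nat.cast_nonneg d
      have h6 : (d : ℝ) * ((k : ℝ) - k') ≤ N / 4 := by
        have h7 : (d : ℝ) * ((k : ℝ) - k') ≤ (w / 5) * (w + 1) := by
          apply mul_le_mul _ hh2 _ (by positivity)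
          · linarith
          · linarith
        rw [← hrr]
        have h8 : (w : ℝ) / 5 * (w + 1) = (w * w) / 5 + w / 5 := by ring
        linarith
      rw [hkap, ← mul_div_assoc, div_le_iff₀ hN0]
      calc (d : ℝ) * (lam * ((k : ℝ) - k')) = lam * ((d : ℝ) * ((k : ℝ) - k')) := by ring
        _ ≤ lam * (N / 4) := mul_le_mul_of_nonneg_left h6 hlam0
        _ = lam / 4 * N := by ring)
    (by
      rw [hkk, hq]
      calc 2 * (m + 1) < 2 * ((w + 1) * (w + 1)) := by omega
        _ = (w + 1) * (2 * (w + 1)) := by ring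
        _ ≤ (5 * tau) * (2 * (w + 1)) := Nat.mul_le_mul_right _ htau5
        _ = tau * (10 * (w + 1)) := by ring)
  rw [hexp2lam] at hcomb
  have hnum := final_numeric N r Lg k k' ((k : ℝ) - k') kap lam w tau q hLg hNexp hr hlam hkkr hkap
    hh1 hh2 hwr hrw (by exact_mod_cast htau5) hq
  rw [hsqrt]
  by_contra hcon
  push Not at hcon
  have hpow : N ^ (r / 400) = Real.exp (Lg * r / 400) := by
    rw [Real.rpow_def_of_pos hN0, ← hLgdef]
    congr 1
    ring
  rw [hpow] at hcon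
  have hsq : (C.size : ℝ) ^ 2 < Real.exp (Lg * r / 200) := by
    have h1 : Real.exp (Lg * r / 200) = Real.exp (Lg * r / 400) ^ 2 := by
      rw [← Real.exp_nat_mul]; congr 1; push_cast; ring
    rw [h1]
    exact pow_lt_pow_left₀ hcon (Nat.cast_nonneg _) (by norm_num)
  have hpos : 0 < ((((2 * Real.exp (-(1 / 2) * (lam - kap))) ^ tau * ((k : ℝ) + k' + 1)) +
        (2 ^ q * Real.exp (-(((k : ℝ) + k') * kap / 2)))) * (8 * Real.exp (2 + r))) := by
    positivity
  have := mul_lt_mul_of_pos_right hsq hpos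
  linarith

end Crest.Agent.S0504
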