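import Crest.Statements.S0505

set_option autoImplicit false
universe u
open Crest Crest.LogicCS

namespace Crest.Agent.S0505

open MvPolynomial Crest.ArithCircuit

section Transport

variable {K ι L B P S R L' B' P' S' R' : Type*}

/-- Transport a circuit along bijections of the index types. -/
def transport (C : SPSPS K ι L B P S R) (eL : L ≃ L') (eB : B ≃ B')
    (eP : P ≃ P') (eS : S ≃ S') (eR : R ≃ R') : SPSPS K ι L' B' P' S' R' where
  leaf l := C.leaf (eL.symm l)
  inB b := (C.inB (eB.symm b)).map eL.toEmbedding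
  coefB b l := C.coefB (eB.symm b) (eL.symm l)
  inP p := (C.inP (eP.symm p)).map eB
  inS s := (C.inS (eS.symm s)).map eP.toEmbedding
  coefS s p := C.coefS (eS.symm s) (eP.symm p)
  inR r := (C.inR (eR.symm r)).map eS
  inOut := C.inOut.map eR.toEmbedding
  coefOut r := C.coefOut (eR.symm r)

variable [CommSemiring K]
variable (C : SPSPS K ι L B P S R) (eL : L ≃ L') (eB : B ≃ B')
    (eP : P ≃ P') (eS : S ≃ S') (eR : R ≃ R')

theorem transport_valB (b : B) :
    (transport C eL eB eP eS eR).valB (eB b) = C.valB b := by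
  simp [SPSPS.valB, transport, SPSPS.leafVal]

theorem transport_valP (p : P) :
    (transport C eL eB eP eS eR).valP (eP p) = C.valP p := by
  have h : ∀ b, (transport C eL eB eP eS eR).valB (eB b) = C.valB b :=
    transport_valB C eL eB eP eS eR
  simp only [SPSPS.valP]
  have : (transport C eL eB eP eS eR).inP (eP p) = (C.inP p).map eB := by
    simp [transport]
  rw [this, Multiset.map_map]
  congr 1
  exact Multiset.map_congr rfl (fun b _ => h b)

theorem transport_valS (s : S) :
    (transport C eL eB eP eS eR).valS (eS s) = C.valS s := by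
  have h : ∀ p, (transport C eL eB eP eS eR).valP (eP p) = C.valP p :=
    transport_valP C eL eB eP eS eR
  simp only [SPSPS.valS]
  have h1 : (transport C eL eB eP eS eR).inS (eS s) = (C.inS s).map eP.toEmbedding := by
    simp [transport]
  have h2 : ∀ p, (transport C eL eB eP eS eR).coefS (eS s) (eP p) = C.coefS s p := by
    intro p; simp [transport]
  rw [h1, Finset.sum_map]
  refine Finset.sum_congr rfl (fun p _ => ?_)
  rw [Equiv.coe_toEmbedding, h2, h]

theorem transport_valR (r : R) :
    (transport C eL eB eP eS eR).valR (eR r) = C.valR r := by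
  have h : ∀ b, (transport C eL eB eP eS eR).valS (eS b) = C.valS b :=
    transport_valS C eL eB eP eS eR
  simp only [SPSPS.valR]
  have : (transport C eL eB eP eS eR).inR (eR r) = (C.inR r).map eS := by
    simp [transport]
  rw [this, Multiset.map_map]
  congr 1
  exact Multiset.map_congr rfl (fun b _ => h b)

theorem transport_output :
    (transport C eL eB eP eS eR).output = C.output := by
  have h : ∀ b, (transport C eL eB eP eS eR).valR (eR b) = C.valR b :=
    transport_valR C eL eB eP eS eR
  simp only [SPSPS.output]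
  have h1 : (transport C eL eB eP eS eR).inOut = C.inOut.map eR.toEmbedding := rfl
  have h2 : ∀ p, (transport C eL eB eP eS eR).coefOut (eR p) = C.coefOut p := by
    intro p; simp [transport]
  rw [h1, Finset.sum_map]
  refine Finset.sum_congr rfl (fun p _ => ?_)
  rw [Equiv.coe_toEmbedding, h2, h]

omit [CommSemiring K] in
theorem transport_leafDeg (l : L) :
    (transport C eL eB eP eS eR).leafDeg (eL l) = C.leafDeg l := by
  simp [SPSPS.leafDeg, transport]

theorem transport_degB (b : B) :
    (transport C eL eB eP eS eR).degB (eB b) = C.degB b := by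
  have h : ∀ b, (transport C eL eB eP eS eR).leafDeg (eL b) = C.leafDeg b :=
    transport_leafDeg C eL eB eP eS eR
  simp only [SPSPS.degB]
  have h1 : (transport C eL eB eP eS eR).inB (eB b) = (C.inB b).map eL.toEmbedding := by
    simp [transport]
  rw [h1, Finset.sup_map]
  exact Finset.sup_congr rfl (fun l _ => h l)

theorem transport_degP (p : P) :
    (transport C eL eB eP eS eR).degP (eP p) = C.degP p := by
  have h : ∀ b, (transport C eL eB eP eS eR).degB (eB b) = C.degB b :=
    transport_degB C eL eB eP eS eR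
  simp only [SPSPS.degP]
  have : (transport C eL eB eP eS eR).inP (eP p) = (C.inP p).map eB := by
    simp [transport]
  rw [this, Multiset.map_map]
  congr 1
  exact Multiset.map_congr rfl (fun b _ => h b)

theorem transport_degS (s : S) :
    (transport C eL eB eP eS eR).degS (eS s) = C.degS s := by
  have h : ∀ b, (transport C eL eB eP eS eR).degP (eP b) = C.degP b :=
    transport_degP C eL eB eP eS eR
  simp only [SPSPS.degS]
  have h1 : (transport C eL eB eP eS eR).inS (eS s) = (C.inS s).map eP.toEmbedding := by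
    simp [transport]
  rw [h1, Finset.sup_map]
  exact Finset.sup_congr rfl (fun l _ => h l)

theorem transport_degR (r : R) :
    (transport C eL eB eP eS eR).degR (eR r) = C.degR r := by
  have h : ∀ b, (transport C eL eB eP eS eR).degS (eS b) = C.degS b :=
    transport_degS C eL eB eP eS eR
  simp only [SPSPS.degR]
  have : (transport C eL eB eP eS eR).inR (eR r) = (C.inR r).map eS := by
    simp [transport]
  rw [this, Multiset.map_map]
  congr 1
  exact Multiset.map_congr rfl (fun b _ => h b)

theorem transport_degOut :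
    (transport C eL eB eP eS eR).degOut = C.degOut := by
  have h : ∀ b, (transport C eL eB eP eS eR).degR (eR b) = C.degR b :=
    transport_degR C eL eB eP eS eR
  simp only [SPSPS.degOut]
  have h1 : (transport C eL eB eP eS eR).inOut = C.inOut.map eR.toEmbedding := rfl
  rw [h1, Finset.sup_map]
  exact Finset.sup_congr rfl (fun l _ => h l)

theorem transport_homogeneous (hC : C.IsHomogeneous) :
    (transport C eL eB eP eS eR).IsHomogeneous := by
  obtain ⟨h1, h2, h3⟩ := hC
  refine ⟨?_, ?_, ?_⟩
  · intro b l hl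
    obtain ⟨b, rfl⟩ := eB.surjective b
    obtain ⟨l, rfl⟩ := eL.surjective l
    rw [transport_leafDeg, transport_degB]
    apply h1
    simpa [transport] using hl
  · intro s p hp
    obtain ⟨s, rfl⟩ := eS.surjective s
    obtain ⟨p, rfl⟩ := eP.surjective p
    rw [transport_degP, transport_degS]
    apply h2
    simpa [transport] using hp
  · intro r hr
    obtain ⟨r, rfl⟩ := eR.surjective r
    rw [transport_degR, transport_degOut]
    apply h3
    simpa [transport] using hr

end Transport

section Paths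

variable {R ι : Type*} [CommSemiring R] [Fintype ι] [DecidableEq ι]

/-- Path expansion of an entry of a matrix product. -/
theorem prod_range_apply (M : ℕ → Matrix ι ι R) (ℓ : ℕ) (i j : ι) :
    ((List.range ℓ).map M).prod i j =
      ∑ u : Fin (ℓ + 1) → ι, if u 0 = i ∧ u (Fin.last ℓ) = j then
        ∏ k : Fin ℓ, M k (u k.castSucc) (u k.succ) else 0 := by
  induction ℓ generalizing j with
  | zero =>
    simp only [List.range_zero, List.map_nil, List.prod_nil, Finset.univ_eq_empty,
      Finset.prod_empty]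
    rw [Matrix.one_apply]
    rw [← Equiv.sum_comp (Equiv.funUnique (Fin 1) ι).symm]
    simp only [Equiv.funUnique_symm_apply, uniqueElim_const]
    by_cases h : i = j
    · subst h
      simp
    · rw [if_neg h]
      symm
      apply Finset.sum_eq_zero
      intro x _
      rw [if_neg]
      rintro ⟨rfl, h2⟩
      exact h h2
  | succ ℓ ih =>
    rw [List.range_succ, List.map_append, List.prod_append, List.map_singleton,
      List.prod_singleton, Matrix.mul_apply]
    simp only [ih]
    rw [← Equiv.sum_comp (Fin.snocEquiv (fun _ : Fin (ℓ + 2) => ι)), Fintype.sum_prod_type]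
    simp only [Fin.snocEquiv_apply, Fin.prod_univ_castSucc]
    have key : ∀ (x : ι) (u : Fin (ℓ + 1) → ι),
        (if (Fin.snoc u x : Fin (ℓ + 2) → ι) 0 = i ∧
            (Fin.snoc u x : Fin (ℓ + 2) → ι) (Fin.last (ℓ + 1)) = j then
          (∏ k : Fin ℓ, M (k.castSucc : Fin (ℓ+1)) ((Fin.snoc u x : Fin (ℓ + 2) → ι) k.castSucc.castSucc)
            ((Fin.snoc u x : Fin (ℓ + 2) → ι) k.castSucc.succ)) *
            M (Fin.last ℓ) ((Fin.snoc u x : Fin (ℓ + 2) → ι) (Fin.last ℓ).castSucc)
              ((Fin.snoc u x : Fin (ℓ + 2) → ι) (Fin.last ℓ).succ)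
          else 0) =
        if x = j then (if u 0 = i then
          (∏ k : Fin ℓ, M k (u k.castSucc) (u k.succ)) * M ℓ (u (Fin.last ℓ)) j else 0) else 0 := by
      intro x u
      have e0 : (Fin.snoc u x : Fin (ℓ + 2) → ι) 0 = u 0 := by
        rw [← Fin.castSucc_zero]
        exact Fin.snoc_castSucc (α := fun _ => ι) _ _ _
      have e1 : (Fin.snoc u x : Fin (ℓ + 2) → ι) (Fin.last (ℓ + 1)) = x :=
        Fin.snoc_last (α := fun _ => ι) _ _
      have e2 : ∀ k : Fin (ℓ + 1), (Fin.snoc u x : Fin (ℓ + 2) → ι) k.castSucc = u k := fun k =>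
        Fin.snoc_castSucc (α := fun _ => ι) _ _ _
      have e3 : ∀ k : Fin ℓ, (Fin.snoc u x : Fin (ℓ + 2) → ι) k.castSucc.succ = u k.succ := by
        intro k
        rw [Fin.succ_castSucc]
        exact e2 _
      have e4 : (Fin.snoc u x : Fin (ℓ + 2) → ι) (Fin.last ℓ).succ = x := by
        rw [Fin.succ_last]; exact e1
      simp only [e0, e1, e2, e3, e4, Fin.val_castSucc, Fin.val_last]
      by_cases hx : x = j
      · subst hx
        by_cases hi : u 0 = i
        · simp [hi]
        · simp [hi]
      · simp [hx]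
    refine Eq.trans ?_ (Finset.sum_congr rfl fun x _ => Finset.sum_congr rfl fun u _ => (key x u).symm)
    simp only [Finset.sum_ite_irrel, Finset.sum_const_zero, Finset.sum_ite_eq', Finset.mem_univ, if_true]
    rw [show (∑ x : ι, (∑ u : Fin (ℓ + 1) → ι, if u 0 = i ∧ u (Fin.last ℓ) = x then
        ∏ k : Fin ℓ, M k (u k.castSucc) (u k.succ) else 0) * M ℓ x j) =
        ∑ u : Fin (ℓ + 1) → ι, ∑ x : ι, (if u 0 = i ∧ u (Fin.last ℓ) = x then
        ∏ k : Fin ℓ, M k (u k.castSucc) (u k.succ) else 0) * M ℓ x j by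
      rw [Finset.sum_comm]
      exact Finset.sum_congr rfl fun x _ => by rw [Finset.sum_mul]]
    refine Finset.sum_congr rfl fun u _ => ?_
    by_cases hi : u 0 = i
    · simp [hi, ite_mul]
    · simp [hi]

/-- Path expansion with fixed end points. -/
theorem prod_range_succ_apply (M : ℕ → Matrix ι ι R) (q : ℕ) (i j : ι) :
    ((List.range (q + 1)).map M).prod i j =
      ∑ v : Fin q → ι, ∏ k : Fin (q + 1),
        M k ((Fin.cons i (Fin.snoc v j : Fin (q + 1) → ι) : Fin (q + 2) → ι) k.castSucc)
          ((Fin.cons i (Fin.snoc v j : Fin (q + 1) → ι) : Fin (q + 2) → ι) k.succ) := by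
  rw [prod_range_apply]
  rw [← Equiv.sum_comp (Fin.consEquiv (fun _ : Fin (q + 2) => ι)), Fintype.sum_prod_type]
  rw [Finset.sum_eq_single i]
  · rw [← Equiv.sum_comp (Fin.snocEquiv (fun _ : Fin (q + 1) => ι)), Fintype.sum_prod_type]
    rw [Finset.sum_eq_single j]
    · refine Finset.sum_congr rfl fun v _ => ?_
      change (if (Fin.cons i (Fin.snoc v j : Fin (q + 1) → ι) : Fin (q + 2) → ι) 0 = i ∧
        (Fin.cons i (Fin.snoc v j : Fin (q + 1) → ι) : Fin (q + 2) → ι) (Fin.last (q + 1)) = j
        then _ else _) = _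
      rw [if_pos]
      · rfl
      refine ⟨Fin.cons_zero (α := fun _ => ι) _ _, ?_⟩
      rw [← Fin.succ_last, Fin.cons_succ]
      exact Fin.snoc_last (α := fun _ => ι) _ _
    · intro b _ hb
      apply Finset.sum_eq_zero
      intro v _
      change (if (Fin.cons i (Fin.snoc v b : Fin (q + 1) → ι) : Fin (q + 2) → ι) 0 = i ∧
        (Fin.cons i (Fin.snoc v b : Fin (q + 1) → ι) : Fin (q + 2) → ι) (Fin.last (q + 1)) = j
        then _ else _) = _
      rw [if_neg]
      rintro ⟨-, h⟩
      rw [← Fin.succ_last, Fin.cons_succ] at h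
      rw [Fin.snoc_last (α := fun _ => ι)] at h
      exact hb h
    · intro h; exact absurd (Finset.mem_univ _) h
  · intro b _ hb
    apply Finset.sum_eq_zero
    intro v _
    exact if_neg (fun h => hb h.1)
  · intro h; exact absurd (Finset.mem_univ _) h

theorem prod_range_mul {G : Type*} [Monoid G] (M : ℕ → G) (t q : ℕ) :
    ((List.range (q * t)).map M).prod =
      ((List.range q).map fun a => ((List.range t).map fun k => M (a * t + k)).prod).prod := by
  induction q with
  | zero => simp
  | succ q ih =>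
    rw [Nat.succ_mul, List.range_add, List.map_append, List.prod_append, ih, List.range_succ,
      List.map_append, List.prod_append]
    simp [Function.comp_def]

end Paths

section Main

variable (K : Type u) [CommSemiring K]

/-- The variable matrices, extended by the identity beyond index `n`. -/
noncomputable def extMat (n : ℕ) (k : ℕ) :
    Matrix (Fin n) (Fin n) (MvPolynomial (Fin n × Fin n × Fin n) K) :=
  if h : k < n then varMatrix K n ⟨k, h⟩ else 1

/-- node sequence of a top product gate -/
def nodes {n : ℕ} (q : ℕ) (o : Fin n) (v : Fin q → Fin n) : Fin (q + 2) → Fin n :=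
  Fin.cons o (Fin.snoc v o : Fin (q + 1) → Fin n)

/-- factors of a lower product gate -/
def fac {n t : ℕ} (a : ℕ) (u : Fin (t + 1) → Fin n) (j : Fin t) :
    Option (Fin n × Fin n × Fin n) :=
  if h : a * t + j < n then some (⟨a * t + j, h⟩, u j.castSucc, u j.succ) else none

/-- The depth-five circuit. -/
def circ (n t q : ℕ) (o : Fin n) :
    SPSPS K (Fin n × Fin n × Fin n) (Fin n × Fin n × Fin n) (Fin n × Fin n × Fin n)
      (Fin (q + 1) × (Fin (t + 1) → Fin n)) (Fin (q + 1) × Fin n × Fin n) (Fin q → Fin n) where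
  leaf l := Sum.inl l
  inB b := {b}
  coefB _ _ := 1
  inP p := Multiset.filterMap (fac (p.1 : ℕ) p.2) Finset.univ.val
  inS s := Finset.univ.filter fun p => p.1 = s.1 ∧ p.2 0 = s.2.1 ∧ p.2 (Fin.last t) = s.2.2 ∧
    ∀ k : Fin t, n ≤ (p.1 : ℕ) * t + k → p.2 k.castSucc = p.2 k.succ
  coefS _ _ := 1
  inR v := Finset.univ.val.map fun a : Fin (q + 1) =>
    (a, nodes q o v a.castSucc, nodes q o v a.succ)
  inOut := Finset.univ
  coefOut _ := 1

variable {n t q : ℕ} (o : Fin n)

theorem circ_valB (b : Fin n × Fin n × Fin n) : (circ K n t q o).valB b = X b := by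
  simp [SPSPS.valB, circ, SPSPS.leafVal]

theorem circ_degB (b : Fin n × Fin n × Fin n) : (circ K n t q o).degB b = 1 := by
  simp [SPSPS.degB, circ, SPSPS.leafDeg]

theorem prod_filterMap {α β M : Type*} [CommMonoid M] (f : α → Option β) (g : β → M)
    (s : Multiset α) :
    ((Multiset.filterMap f s).map g).prod = (s.map fun a => (f a).elim 1 g).prod := by
  induction s using Multiset.induction_on with
  | empty => simp
  | cons a s ih =>
    cases h : f a with
    | none => rw [Multiset.filterMap_cons_none _ _ h, ih]; simp [h]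
    | some b => rw [Multiset.filterMap_cons_some _ _ _ h]; simp [h, ih]

theorem sum_filterMap {α β M : Type*} [AddCommMonoid M] (f : α → Option β) (g : β → M)
    (s : Multiset α) :
    ((Multiset.filterMap f s).map g).sum = (s.map fun a => (f a).elim 0 g).sum := by
  induction s using Multiset.induction_on with
  | empty => simp
  | cons a s ih =>
    cases h : f a with
    | none => rw [Multiset.filterMap_cons_none _ _ h, ih]; simp [h]
    | some b => rw [Multiset.filterMap_cons_some _ _ _ h]; simp [h, ih]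

theorem circ_valP (p : Fin (q + 1) × (Fin (t + 1) → Fin n)) :
    (circ K n t q o).valP p = ∏ j : Fin t,
      if h : (p.1 : ℕ) * t + j < n then X (⟨(p.1 : ℕ) * t + j, h⟩, p.2 j.castSucc, p.2 j.succ)
      else 1 := by
  have h1 : (circ K n t q o).valP p =
      ((Multiset.filterMap (fac (p.1 : ℕ) p.2) Finset.univ.val).map
        (circ K n t q o).valB).prod := rfl
  rw [h1, prod_filterMap]
  change (∏ j : Fin t, _) = _
  refine Finset.prod_congr rfl fun j _ => ?_
  unfold fac
  split_ifs with h
  · simp [circ_valB]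
  · simp

/-- Number of matrices in block `a`. -/
def blockLen (n t a : ℕ) : ℕ := ∑ j : Fin t, if a * t + j < n then 1 else 0

theorem circ_degP (p : Fin (q + 1) × (Fin (t + 1) → Fin n)) :
    (circ K n t q o).degP p = blockLen n t p.1 := by
  have h1 : (circ K n t q o).degP p =
      ((Multiset.filterMap (fac (p.1 : ℕ) p.2) Finset.univ.val).map
        (circ K n t q o).degB).sum := rfl
  rw [h1, sum_filterMap]
  change (∑ j : Fin t, _) = _
  unfold blockLen
  refine Finset.sum_congr rfl fun j _ => ?_
  unfold fac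
  split_ifs with h
  · simp [circ_degB]
  · simp

theorem circ_mem_inS (s : Fin (q + 1) × Fin n × Fin n) (p : Fin (q + 1) × (Fin (t + 1) → Fin n)) :
    p ∈ (circ K n t q o).inS s ↔ p.1 = s.1 ∧ p.2 0 = s.2.1 ∧ p.2 (Fin.last t) = s.2.2 ∧
      ∀ k : Fin t, n ≤ (p.1 : ℕ) * t + k → p.2 k.castSucc = p.2 k.succ := by
  simp [circ]

theorem circ_inS_nonempty (ht : 0 < t) (hq : q * t < n) (s : Fin (q + 1) × Fin n × Fin n) :
    ((circ K n t q o).inS s).Nonempty := by
  refine ⟨(s.1, fun k => if k = 0 then s.2.1 else s.2.2), ?_⟩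
  rw [circ_mem_inS]
  refine ⟨rfl, by simp, ?_, ?_⟩
  · have hl : Fin.last t ≠ 0 := by
      intro h
      have := congrArg Fin.val h
      simp at this
      omega
    simp [hl]
  · intro k hk
    have hk0 : (k : ℕ) ≠ 0 := by
      intro h0
      rw [h0] at hk
      have : (s.1 : ℕ) * t ≤ q * t := Nat.mul_le_mul_right _ (Nat.lt_succ_iff.mp s.1.2)
      simp at hk
      omega
    have h1 : k.castSucc ≠ 0 := by
      intro h
      apply hk0
      have := congrArg Fin.val h
      simpa using this
    have h2 : k.succ ≠ 0 := Fin.succ_ne_zero k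
    simp [h2, hk0]
    intro h
    exact absurd h h1

theorem circ_degS (ht : 0 < t) (hq : q * t < n) (s : Fin (q + 1) × Fin n × Fin n) :
    (circ K n t q o).degS s = blockLen n t s.1 := by
  obtain ⟨p, hp⟩ := circ_inS_nonempty K o ht hq s
  unfold SPSPS.degS
  apply le_antisymm
  · apply Finset.sup_le
    intro p hp
    rw [circ_mem_inS] at hp
    rw [circ_degP, hp.1]
  · have h := Finset.le_sup (f := (circ K n t q o).degP) hp
    rw [circ_mem_inS] at hp
    rw [circ_degP, hp.1] at h
    exact h

theorem circ_degR (ht : 0 < t) (hq : q * t < n) (v : Fin q → Fin n) :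
    (circ K n t q o).degR v = ∑ a : Fin (q + 1), blockLen n t a := by
  have h1 : (circ K n t q o).degR v =
      ((Finset.univ.val.map fun a : Fin (q + 1) =>
        (a, nodes q o v a.castSucc, nodes q o v a.succ)).map (circ K n t q o).degS).sum := rfl
  rw [h1, Multiset.map_map]
  change (∑ a : Fin (q + 1), _) = _
  refine Finset.sum_congr rfl fun a _ => ?_
  rw [Function.comp_apply, circ_degS K o ht hq]

theorem circ_homogeneous (ht : 0 < t) (hq : q * t < n) : (circ K n t q o).IsHomogeneous := by
  refine ⟨?_, ?_, ?_⟩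
  · intro b l _
    rw [circ_degB]
    simp [SPSPS.leafDeg, circ]
  · intro s p hp
    rw [circ_degS K o ht hq, circ_degP]
    rw [circ_mem_inS] at hp
    rw [hp.1]
  · intro r hr
    unfold SPSPS.degOut
    apply le_antisymm
    · exact Finset.le_sup hr
    · apply Finset.sup_le
      intro r' _
      rw [circ_degR K o ht hq, circ_degR K o ht hq]

theorem circ_valS (s : Fin (q + 1) × Fin n × Fin n) :
    (circ K n t q o).valS s =
      ((List.range t).map fun k => extMat K n ((s.1 : ℕ) * t + k)).prod s.2.1 s.2.2 := by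
  rw [prod_range_apply]
  have h1 : (circ K n t q o).valS s = ∑ p : Fin (q + 1) × (Fin (t + 1) → Fin n),
      if (p.1 = s.1 ∧ p.2 0 = s.2.1 ∧ p.2 (Fin.last t) = s.2.2 ∧
      ∀ k : Fin t, n ≤ (p.1 : ℕ) * t + k → p.2 k.castSucc = p.2 k.succ) then
        (circ K n t q o).valP p else 0 := by
    rw [← Finset.sum_filter]
    simp [SPSPS.valS, circ]
  rw [h1, Fintype.sum_prod_type, Finset.sum_eq_single s.1]
  · refine Finset.sum_congr rfl fun u _ => ?_
    simp only [true_and]
    by_cases h0 : u 0 = s.2.1
    · by_cases h2 : u (Fin.last t) = s.2.2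
      · rw [if_pos (show u 0 = s.2.1 ∧ u (Fin.last t) = s.2.2 from ⟨h0, h2⟩)]
        by_cases h3 : ∀ k : Fin t, n ≤ (s.1 : ℕ) * t + k → u k.castSucc = u k.succ
        · rw [if_pos ⟨h0, h2, h3⟩, circ_valP]
          refine Finset.prod_congr rfl fun k _ => ?_
          unfold extMat
          split_ifs with h
          · simp [varMatrix]
          · rw [Matrix.one_apply, if_pos (h3 k (by simpa using h))]
        · rw [if_neg (show ¬ (u 0 = s.2.1 ∧ u (Fin.last t) = s.2.2 ∧
              ∀ k : Fin t, n ≤ (s.1 : ℕ) * t + k → u k.castSucc = u k.succ) from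
              fun h => h3 h.2.2)]
          push Not at h3
          obtain ⟨k, hk, hk'⟩ := h3
          symm
          apply Finset.prod_eq_zero (Finset.mem_univ k)
          unfold extMat
          rw [dif_neg (by omega), Matrix.one_apply, if_neg hk']
      · rw [if_neg (fun h => h2 h.2.1), if_neg (fun h => h2 h.2)]
    · rw [if_neg (fun h => h0 h.1), if_neg (fun h => h0 h.1)]
  · intro b _ hb
    apply Finset.sum_eq_zero
    intro u _
    rw [if_neg (fun h => hb h.1)]
  · intro h; exact absurd (Finset.mem_univ _) h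

theorem extMat_prod_eq (N : ℕ) (hN : n ≤ N) :
    ((List.range N).map (extMat K n)).prod = (List.ofFn (varMatrix K n)).prod := by
  obtain ⟨d, rfl⟩ := Nat.exists_eq_add_of_le hN
  rw [List.range_add, List.map_append, List.prod_append]
  have h1 : (((List.range d).map (n + ·)).map (extMat K n)).prod = 1 := by
    apply List.prod_eq_one
    intro x hx
    simp only [List.map_map, List.mem_map, List.mem_range, Function.comp_apply] at hx
    obtain ⟨a, _, rfl⟩ := hx
    unfold extMat
    rw [dif_neg (by omega)]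
  rw [h1, mul_one]
  congr 1
  apply List.ext_getElem
  · simp
  · intro i h2 h3
    simp only [List.length_map, List.length_range] at h2
    simp [extMat, h2]

theorem circ_output (hn : n ≤ (q + 1) * t) :
    (circ K n t q o).output = (List.ofFn (varMatrix K n)).prod o o := by
  rw [← extMat_prod_eq K ((q + 1) * t) hn, prod_range_mul, prod_range_succ_apply]
  have h1 : (circ K n t q o).output = ∑ v : Fin q → Fin n, (circ K n t q o).valR v := by
    simp [SPSPS.output, circ]
  rw [h1]
  refine Finset.sum_congr rfl fun v _ => ?_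
  have h2 : (circ K n t q o).valR v =
      ((Finset.univ.val.map fun a : Fin (q + 1) =>
        (a, nodes q o v a.castSucc, nodes q o v a.succ)).map (circ K n t q o).valS).prod := rfl
  rw [h2, Multiset.map_map]
  change (∏ a : Fin (q + 1), _) = _
  refine Finset.prod_congr rfl fun a _ => ?_
  rw [Function.comp_apply, circ_valS]
  rfl

end Main

section Bounds

theorem size_bound (n : ℕ) (hn : 2 ≤ n) (t r : ℕ) (ht0 : 2 ≤ t) (ht : (t : ℝ) < Real.sqrt n + 1)
    (hr0 : 1 ≤ r) (hr : (r : ℝ) < Real.sqrt n + 1) (hr2 : 2 * r ≤ n + 1) (h2 : n = 2 → t = 2 ∧ r = 1) :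
    ((2 * n ^ 3 + r * n ^ 2 + r * n ^ (t + 1) + n ^ (r - 1) + 1 : ℕ) : ℝ) ≤
      (n : ℝ) ^ (Real.sqrt n + 4) := by
  have hnpos : (0 : ℝ) < n := by positivity
  have hn1 : (1 : ℝ) ≤ n := by exact_mod_cast (by omega : 1 ≤ n)
  have hsq : (1 : ℝ) ≤ Real.sqrt n := by
    rw [show (1 : ℝ) = Real.sqrt 1 by simp]
    exact Real.sqrt_le_sqrt hn1
  rcases Nat.eq_or_lt_of_le hn with h | h
  · obtain ⟨rfl, rfl⟩ := h2 h.symm
    subst h
    have : (2 : ℝ) ^ (5 : ℝ) ≤ (2 : ℝ) ^ (Real.sqrt 2 + 4) := by
      apply Real.rpow_le_rpow_of_exponent_le (by norm_num)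
      have := hsq
      push_cast at this
      linarith
    have h32 : (2 : ℝ) ^ (5 : ℝ) = 32 := by
      rw [show (5 : ℝ) = ((5 : ℕ) : ℝ) by norm_num, Real.rpow_natCast]
      norm_num
    push_cast
    rw [h32] at this
    norm_num
    linarith
  · have h3 : (3 : ℝ) ≤ n := by exact_mod_cast h
    set y : ℝ := (n : ℝ) ^ Real.sqrt n with hy
    have hyn : (n : ℝ) ≤ y := by
      have := Real.rpow_le_rpow_of_exponent_le hn1 hsq
      rwa [Real.rpow_one] at this
    have e1 : (n : ℝ) ^ (Real.sqrt n + 4) = y * n ^ 4 := by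
      rw [Real.rpow_add hnpos, hy]
      congr 1
      rw [show (4 : ℝ) = ((4 : ℕ) : ℝ) by norm_num, Real.rpow_natCast]
    have e2 : (n : ℝ) ^ (t + 1) ≤ y * n ^ 2 := by
      have h4 : (n : ℝ) ^ (t + 1) = (n : ℝ) ^ ((t : ℝ) + 1) := by
        rw [← Real.rpow_natCast]; push_cast; rfl
      rw [h4]
      have h5 : y * (n : ℝ) ^ 2 = (n : ℝ) ^ (Real.sqrt n + 2) := by
        rw [Real.rpow_add hnpos, hy]
        congr 1
        rw [show (2 : ℝ) = ((2 : ℕ) : ℝ) by norm_num, Real.rpow_natCast]
      rw [h5]
      exact Real.rpow_le_rpow_of_exponent_le hn1 (by linarith)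
    have e3 : (n : ℝ) ^ (r - 1) ≤ y := by
      have h4 : (n : ℝ) ^ (r - 1) = (n : ℝ) ^ ((r : ℝ) - 1) := by
        rw [← Real.rpow_natCast]
        congr 1
        rw [Nat.cast_sub hr0]
        simp
      rw [h4]
      exact Real.rpow_le_rpow_of_exponent_le hn1 (by linarith)
    have hr2' : 2 * (r : ℝ) ≤ n + 1 := by exact_mod_cast hr2
    have hrpos : (0 : ℝ) ≤ r := by positivity
    rw [e1]
    push_cast
    have hy3 : (3 : ℝ) ≤ y := h3.trans hyn
    have b1 : (r : ℝ) * n ^ (t + 1) ≤ (n + 1) / 2 * (y * n ^ 2) := by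
      apply mul_le_mul (by linarith) e2 (by positivity) (by positivity)
    have b2 : (r : ℝ) * n ^ 2 ≤ (n + 1) / 2 * n ^ 2 := by
      apply mul_le_mul_of_nonneg_right (by linarith) (by positivity)
    -- total ≤ 2 n^3 + (n+1)/2 n^2 + (n+1)/2 y n^2 + y + 1 ≤ y n^4
    have c1 : (n : ℝ) ^ 2 * 3 ≤ n ^ 3 := by nlinarith [sq_nonneg (n : ℝ)]
    have c2 : (n : ℝ) ^ 3 * 3 ≤ n ^ 4 := by nlinarith [pow_pos hnpos 3]
    have c3 : (27 : ℝ) ≤ n ^ 3 := by
      have : (3 : ℝ) ^ 3 ≤ n ^ 3 := pow_le_pow_left₀ (by norm_num) h3 3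
      linarith
    have c4 : (9 : ℝ) ≤ n ^ 2 := by nlinarith
    have d1 : (n + 1) / 2 * (n : ℝ) ^ 2 ≤ 2 / 3 * n ^ 3 := by nlinarith
    have d2 : (n + 1) / 2 * (y * (n : ℝ) ^ 2) ≤ 2 / 3 * (y * n ^ 3) := by nlinarith
    have d3 : (8 / 3 : ℝ) * n ^ 3 ≤ 8 / 9 * (y * n ^ 3) := by nlinarith
    have d4 : y * 27 ≤ y * n ^ 3 := mul_le_mul_of_nonneg_left c3 (by linarith)
    have d5 : y * (n ^ 3 * 3) ≤ y * (n : ℝ) ^ 4 := mul_le_mul_of_nonneg_left c2 (by linarith)
    nlinarith

end Bounds

/-- For every field K and every n ≥ 2 there is a syntactically homogeneous depth-five sum-product circuit over K in the n³ matrix-entry variables (shared gates, unrestricted fan-in and bottom support) whose output is the top-left entry of the ordered product of the n variable matrices of order n and whose number of vertices, leaves included, is at most 2n³ + r·n² + r·n^(t+1) + n^(r−1) + 1 with t = ⌈√n⌉, r = ⌈n/t⌉, and also at most n^(√n + 4). Layers are indexed by initial segments of ℕ. -/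
theorem result (K : Type u) [Field K] (n : ℕ)
    (hn : 2 ≤ n) :
    ∃ (l b p s r : ℕ)
      (C : Crest.ArithCircuit.SPSPS K (Fin n × Fin n × Fin n) (Fin l) (Fin b) (Fin p) (Fin s) (Fin r)),
      C.IsHomogeneous ∧ C.output = Crest.ArithCircuit.imm K n ∧
        C.size ≤ 2 * n ^ 3 + ⌈(n : ℝ) / ⌈Real.sqrt n⌉₊⌉₊ * n ^ 2 +
          ⌈(n : ℝ) / ⌈Real.sqrt n⌉₊⌉₊ * n ^ (⌈Real.sqrt n⌉₊ + 1) +
          n ^ (⌈(n : ℝ) / ⌈Real.sqrt n⌉₊⌉₊ - 1) + 1 ∧
        (C.size : ℝ) ≤ (n : ℝ) ^ (Real.sqrt n + 4) := by
  have hn0 : (0 : ℝ) < n := by positivity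
  have hn1 : (1 : ℝ) ≤ n := by exact_mod_cast (by omega : 1 ≤ n)
  have hsq0 : 0 < Real.sqrt n := Real.sqrt_pos.mpr hn0
  have hsq1 : 1 < Real.sqrt n := by
    rw [show (1 : ℝ) = Real.sqrt 1 by simp]
    exact Real.sqrt_lt_sqrt (by norm_num) (by exact_mod_cast (by omega : 1 < n))
  generalize ht : ⌈Real.sqrt n⌉₊ = t
  generalize hr : ⌈(n : ℝ) / (t : ℝ)⌉₊ = r
  have htge : Real.sqrt n ≤ t := by rw [← ht]; exact Nat.le_ceil _
  have htlt : (t : ℝ) < Real.sqrt n + 1 := by rw [← ht]; exact Nat.ceil_lt_add_one hsq0.le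
  have ht2 : 2 ≤ t := by
    have : (1 : ℝ) < t := lt_of_lt_of_le hsq1 htge
    exact_mod_cast this
  have ht0 : (0 : ℝ) < t := by positivity
  have hrpos : 0 < r := by
    rw [← hr]
    exact Nat.ceil_pos.mpr (by positivity)
  have hrge : (n : ℝ) / t ≤ r := by rw [← hr]; exact Nat.le_ceil _
  have hrlt : (r : ℝ) < (n : ℝ) / t + 1 := by
    rw [← hr]; exact Nat.ceil_lt_add_one (by positivity)
  have hdiv : (n : ℝ) / t ≤ Real.sqrt n := by
    rw [div_le_iff₀ ht0]
    calc (n : ℝ) = Real.sqrt n * Real.sqrt n := (Real.mul_self_sqrt hn0.le).symm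
      _ ≤ Real.sqrt n * t := mul_le_mul_of_nonneg_left htge hsq0.le
  have hrlt2 : (r : ℝ) < Real.sqrt n + 1 := by linarith
  obtain ⟨q, rfl⟩ : ∃ q, r = q + 1 := ⟨r - 1, by omega⟩
  have hnle : n ≤ (q + 1) * t := by
    have : (n : ℝ) ≤ ((q + 1 : ℕ) : ℝ) * t := by
      rwa [div_le_iff₀ ht0] at hrge
    exact_mod_cast this
  have hqlt : q * t < n := by
    have h1 : (q : ℝ) < (n : ℝ) / t := by
      push_cast at hrlt
      linarith
    rw [lt_div_iff₀ ht0] at h1
    exact_mod_cast h1
  have h2r : 2 * (q + 1) ≤ n + 1 := by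
    have : q * 2 ≤ q * t := Nat.mul_le_mul_left _ ht2
    omega
  obtain ⟨m, rfl⟩ : ∃ m, n = m + 1 := ⟨n - 1, by omega⟩
  let C0 := circ K (m + 1) t q (0 : Fin (m + 1))
  refine ⟨_, _, _, _, _, transport C0 (Fintype.equivFin _) (Fintype.equivFin _)
    (Fintype.equivFin _) (Fintype.equivFin _) (Fintype.equivFin _), ?_, ?_, ?_, ?_⟩
  · exact transport_homogeneous _ _ _ _ _ _ (circ_homogeneous K _ (by omega) hqlt)
  · rw [transport_output]
    exact circ_output K _ hnle
  · simp only [SPSPS.size, Fintype.card_fin, Fintype.card_prod, Fintype.card_fun]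
    apply le_of_eq
    simp only [Nat.add_sub_cancel]
    ring
  · have hb := size_bound (m + 1) hn t (q + 1) ht2 htlt (by omega) hrlt2 h2r (by
      intro h
      have hm : m = 1 := by omega
      subst hm
      have ht3 : t < 3 := by
        have : Real.sqrt ((1 + 1 : ℕ) : ℝ) < 2 := by
          rw [show (2 : ℝ) = Real.sqrt 4 by
            rw [show (4 : ℝ) = 2 ^ 2 by norm_num]; exact (Real.sqrt_sq (by norm_num)).symm]
          apply Real.sqrt_lt_sqrt (by norm_num)
          norm_num
        have h3 : (t : ℝ) < 3 := by linarith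
        exact_mod_cast h3
      constructor
      · omega
      · omega)
    refine le_trans (le_of_eq ?_) hb
    simp only [SPSPS.size, Fintype.card_fin, Fintype.card_prod, Fintype.card_fun]
    push_cast
    try simp only [Nat.add_sub_cancel]
    ring

end Crest.Agent.S0505
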