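import Crest.Statements.S0545
import Crest.Agent.Hald.Final347
import Crest.Agent.Hald.NumAll

set_option autoImplicit false
open Crest.MathPhysics.SpinChain
open Crest Crest.MathPhysics

namespace Crest.Agent.S0545

/-- For the antiferromagnetic spin-one Heisenberg Hamiltonian Σ_j Σ_{α=x,y,z} S^α_j S^α_{j+1} with coupling one on a periodic ring of L sites, L even: for every even L ≥ 60 the ground state is unique and the gap to the next eigenvalue exceeds (4/105)·log(80/79), and for every even L ≥ 2304 that gap exceeds log(20)/784. The gap property is stated variationally on the orthogonal complement of a ground vector. -/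
theorem result :
    (∀ L : ℕ, Even L → 60 ≤ L →
      HasSimpleGroundStateWithGap (heisenbergRing L) (4 / 105 * Real.log (80 / 79))) ∧
    (∀ L : ℕ, Even L → 2304 ≤ L →
      HasSimpleGroundStateWithGap (heisenbergRing L) (Real.log 20 / 784)) :=
  Hald.S0545_fin Hald.theNumInput

end Crest.Agent.S0545
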