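import Crest.Statements.S0546
import Crest.Agent.Hald.Final347
import Crest.Agent.Hald.NumAll

set_option autoImplicit false
open Crest.MathPhysics.SpinChain
open Crest Crest.MathPhysics

namespace Crest.Agent.S0546

/-- For the antiferromagnetic spin-one Heisenberg Hamiltonian with coupling one on an open chain of 2L+1 sites (bonds between consecutive sites only) plus the endpoint field term -(3/5)·(S^z_first + S^z_last): for every L ≥ 960 the ground state is unique and the next eigenvalue lies more than log(10)/392 above it; equivalently the two lowest eigenvalues counted with multiplicity differ by more than log(10)/392. Stated variationally on the orthogonal complement of a ground vector. -/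
theorem result (L : ℕ) (hL : 960 ≤ L) :
    HasSimpleGroundStateWithGap (openChainEndField (2 * L) (3 / 5)) (Real.log 10 / 392) :=
  Hald.S0546_fin Hald.theNumInput L hL

end Crest.Agent.S0546
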