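import Crest.Statements.S0554
-- import your own Crest.Agent.* helpers here
import Crest.Agent.QG.Final

set_option autoImplicit false
open Crest.MathPhysics.Query
open Crest Crest.MathPhysics

namespace Crest.Agent.S0554

/-- For every `k ≥ 2` there are constants `c, C, b > 0` such that for every large enough power of four `m` some total Boolean function on finitely many bits has a quantum query algorithm with at most `C √m (log m)^b` queries and error at most `1/3` on every input, while every randomized algorithm with error at most `1/3` on every input reads at least `c m^{2 - 1/k} / (log m)^2` bits on some input. So no power below four bounds randomized by quantum query complexity. -/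
theorem result (k : ℕ) (hk : 2 ≤ k) :
    ∃ (c C b : ℝ), 0 < c ∧ 0 < C ∧ 0 < b ∧ ∃ m₀ : ℕ, ∀ m : ℕ, m₀ ≤ m → (∃ j : ℕ, m = 4 ^ j) →
      ∃ (n : ℕ) (F : (Fin n → Bool) → Bool),
        (∃ q : ℕ, (q : ℝ) ≤ C * Real.sqrt m * Real.log m ^ b ∧ QuantumComputes F q) ∧
        (∀ r : ℕ, RandomizedComputes F r →
          c * (m : ℝ) ^ (2 - 1 / (k : ℝ)) / Real.log m ^ 2 ≤ r) := by
  obtain ⟨j₀, hj₀⟩ := Crest.Agent.QG.gap_final k hk
  refine ⟨1, 1, 1, one_pos, one_pos, one_pos, 4 ^ (j₀ + 1), ?_⟩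
  rintro m hm ⟨j, rfl⟩
  have hj : j₀ + 1 ≤ j := (Nat.pow_le_pow_iff_right (by norm_num)).mp hm
  obtain ⟨n, F, ⟨q, hq, hQ⟩, hR⟩ := hj₀ j (by omega)
  have hm4 : (4 : ℝ) ≤ ((4 ^ j : ℕ) : ℝ) := by
    have : 4 ^ 1 ≤ 4 ^ j := Nat.pow_le_pow_right (by norm_num) (by omega)
    exact_mod_cast this
  have hlog : 1 ≤ Real.log ((4 ^ j : ℕ) : ℝ) := by
    rw [Real.le_log_iff_exp_le (by positivity)]
    linarith [Real.exp_one_lt_d9]
  have hsqrt : Real.sqrt ((4 ^ j : ℕ) : ℝ) = 2 ^ j := by
    push_cast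
    rw [show (4 : ℝ) = 2 ^ 2 by norm_num, ← pow_mul, Nat.mul_comm, pow_mul,
      Real.sqrt_sq (by positivity)]
  refine ⟨n, F, ⟨q, ?_, hQ⟩, fun r hr => ?_⟩
  · rw [hsqrt, Real.rpow_one, one_mul]
    have h1 : (q : ℝ) ≤ 2 ^ j := by exact_mod_cast hq
    have h2 : (0 : ℝ) < 2 ^ j := by positivity
    nlinarith
  · refine le_trans ?_ (hR r hr)
    push_cast at hlog ⊢
    rw [one_mul]
    apply div_le_self (by positivity)
    nlinarith

end Crest.Agent.S0554
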